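import Vale.Agent.P286.Ad.Pull

/-!
# Acyclicity at nontrivial split bundles
-/

namespace Vale.Agent.P286.Ad

open CategoryTheory LaurentPolynomial Matrix

noncomputable section

variable {L : LieC}

theorem vtoep_mul_assoc_pos {B : Type} [CommRing B] {X Y Z : Matrix (Fin L.n) (Fin L.n) B[T;T⁻¹]}
    (hX : MGE 0 X) (hY : MGE 0 Y) : vtoep (X * Y * Z) = vtoep X * vtoep Y * vtoep Z := by
  have h1 : MGE 0 (X * Y) := by
    have := hX.mul hY
    simpa using this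
  rw [vtoep_pos_mul h1, vtoep_pos_mul hX]

theorem vtoep_mul_assoc_neg {B : Type} [CommRing B] (X : Matrix (Fin L.n) (Fin L.n) B[T;T⁻¹])
    {Y Z : Matrix (Fin L.n) (Fin L.n) B[T;T⁻¹]}
    (hY : MLE 0 Y) (hZ : MLE 0 Z) : vtoep (X * Y * Z) = vtoep X * vtoep Y * vtoep Z := by
  rw [vtoep_mul_neg _ hZ, vtoep_mul_neg _ hY]

/-- The Toeplitz operator of a matrix in `SL_N(B[z])`, as a unit. -/
def posU {B : Type} [CommRing B] (X : Matrix (Fin L.n) (Fin L.n) B[T;T⁻¹]) (hX : MGE 0 X)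
    (hX1 : X.det = 1) : (Module.End B (Jx L →₀ B))ˣ where
  val := vtoep X
  inv := vtoep X.adjugate
  val_inv := by rw [← vtoep_pos_mul hX, self_mul_adjugate hX1, vtoep_one]
  inv_val := by rw [← vtoep_pos_mul hX.adjugate, adjugate_mul_self hX1, vtoep_one]

/-- The Toeplitz operator of a matrix in `SL_N(B[z⁻¹])`, as a unit. -/
def negU {B : Type} [CommRing B] (Y : Matrix (Fin L.n) (Fin L.n) B[T;T⁻¹]) (hY : MLE 0 Y)
    (hY1 : Y.det = 1) : (Module.End B (Jx L →₀ B))ˣ where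
  val := vtoep Y
  inv := vtoep Y.adjugate
  val_inv := by rw [← vtoep_mul_neg _ hY.adjugate, self_mul_adjugate hY1, vtoep_one]
  inv_val := by rw [← vtoep_mul_neg _ hY, adjugate_mul_self hY1, vtoep_one]

/-- The Toeplitz operator of the one-parameter group, as a unit. -/
def tauU (B : Type) [CommRing B] (mu : Fin L.n → ℤ) :
    (Module.End B[T;T⁻¹] (Jx L →₀ B[T;T⁻¹]))ˣ where
  val := vtoep (tau B mu)
  inv := vtoep (tau B (-mu))
  val_inv := by rw [← vtoep_pos_mul (MGE.tau mu), tau_mul_neg, vtoep_one]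
  inv_val := by rw [← vtoep_pos_mul (MGE.tau (-mu)), tau_neg_mul, vtoep_one]

/-- A cartesian complex is acyclic at a nontrivial split bundle, if the twist is irrational. -/
theorem acyclic_split {s : ℂ} (hs : ∀ m : ℤ, m ≠ 0 → ∀ k : ℤ, (k : ℂ) + s * m ≠ 0)
    {K : TCx (Bun L) s} (hK : Cartesian K) (X : BunObj L) (lam : Fin L.n → ℤ)
    (hlam : lam ≠ 0) (hsum : ∑ i, lam i = 0) (U V : Matrix (Fin L.n) (Fin L.n) (X.A.R)[T;T⁻¹])
    (hU : SplitData X.g lam U V) (j : ℤ) (z : K.obj j X)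
    (hz : K.Cyc X j z) : K.Bd X j z := by
  rcases subsingleton_or_nontrivial X.A.R with hB | hB
  · have h1 : (1 : X.A.R) • z = (0 : X.A.R) • z := by rw [Subsingleton.elim (1 : X.A.R) 0]
    have h2 : z = 0 := by
      have h3 : (1 : X.A.R) • z = z := one_smul (X.A.R) z
      have h4 : (0 : X.A.R) • z = 0 := zero_smul (X.A.R) z
      rw [← h3, h1, h4]
    rw [h2]
    exact ⟨0, map_zero _⟩
  obtain ⟨m, hm, H⟩ := torus_weight lam hlam hsum
  have hUG : MGE 0 (al lam U) := by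
    have := ((MGE.mp' (LaurentPolynomial.C : X.A.R →+* (X.A.R)[T;T⁻¹]) hU.hX).mul (MGE.tau lam)).mul (MGE.mp' (LaurentPolynomial.C : X.A.R →+* (X.A.R)[T;T⁻¹]) hU.hX).adjugate
    rw [add_zero, add_zero] at this
    exact this
  have hVL : MLE 0 (al lam V) := by
    have := ((MLE.mp' (LaurentPolynomial.C : X.A.R →+* (X.A.R)[T;T⁻¹]) hU.hY).mul (MLE.tau lam)).mul (MLE.mp' (LaurentPolynomial.C : X.A.R →+* (X.A.R)[T;T⁻¹]) hU.hY).adjugate
    rw [add_zero, add_zero] at this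
    exact this
  obtain ⟨a, ha⟩ := exists_pos (al lam U) hUG (det_al hU hU.hX1) hU.al_aut
  obtain ⟨b, hb⟩ := exists_neg (al lam V) hVL (det_al hU hU.hY1) hU.al_aut'
  have ht : GmGlue X a b := by
    apply SG.ext'
    rw [SG.m_mul, SG.m_mul, ha, hb]
    exact hU.glue
  refine acyclic_of_torus hK X a b ht m ?_ (hs m hm) j z hz
  -- the units
  let ι : X.A.R →+* (X.A.R)[T;T⁻¹] := LaurentPolynomial.C
  let uX := posU U hU.hX hU.hX1
  let uY := negU V hU.hY hU.hY1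
  let S' := bcU L ι X.S
  let uX' := bcU L ι uX
  let uY' := bcU L ι uY
  let t := tauU X.A.R lam
  let S0 : (Module.End X.A.R (Jx L →₀ X.A.R))ˣ := uX⁻¹ * X.S * uY
  let S0' := bcU L ι S0
  have hS0' : S0' = uX'⁻¹ * S' * uY' := by
    simp only [S0', S0, map_mul, map_inv, uX', S', uY']
  have hS0 : FinRank ((S0 : Module.End X.A.R (Jx L →₀ X.A.R)) - vtoep (mono lam)) := by
    have h1 : (mono lam : Matrix (Fin L.n) (Fin L.n) (X.A.R)[T;T⁻¹]) =
        U.adjugate * (X.g.m * V) := by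
      rw [hU.hg, ← Matrix.mul_assoc, adjugate_mul_self hU.hX1, Matrix.one_mul]
    have h2 : (S0 : Module.End X.A.R (Jx L →₀ X.A.R)) - vtoep (mono lam) =
        vtoep U.adjugate * ((X.S : Module.End X.A.R (Jx L →₀ X.A.R)) - toep X.g) * vtoep V := by
      rw [h1, vtoep_pos_mul hU.hX.adjugate, vtoep_mul_neg _ hU.hY]
      exact ring_aux₁ (vtoep U.adjugate) (X.S : Module.End X.A.R (Jx L →₀ X.A.R))
        (vtoep X.g.m) (vtoep V)
    rw [h2]
    exact (X.framing.mul_left _).mul_right _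
  have hA : toepPos L (X.A.R)[T;T⁻¹] a = uX' * t * uX'⁻¹ := by
    apply Units.ext
    change vtoep (pos L (X.A.R)[T;T⁻¹] a).m = bc ι (vtoep U) * vtoep (tau X.A.R lam) *
      bc ι (vtoep U.adjugate)
    rw [ha, bc_vtoep, bc_vtoep, al, vtoep_mul_assoc_pos (MGE.mp' _ hU.hX) (MGE.tau lam)]
    congr 2
    exact (mp_adjugate _ _).symm
  have hBinv : toepNeg L (X.A.R)[T;T⁻¹] b = uY' * t * uY'⁻¹ := by
    apply Units.ext
    change vtoep (neg L (X.A.R)[T;T⁻¹] b).m = bc ι (vtoep V) * vtoep (tau X.A.R lam) *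
      bc ι (vtoep V.adjugate)
    rw [hb, bc_vtoep, bc_vtoep, al, vtoep_mul_assoc_neg _ (MLE.tau lam)
      (MLE.mp' (LaurentPolynomial.C : X.A.R →+* (X.A.R)[T;T⁻¹]) hU.hY).adjugate]
    congr 2
    exact (mp_adjugate _ _).symm
  have hfr := gmSigma_finRank X a b ht
  rw [gmSigma_dl]
  have hkey : toepPos L (X.A.R)[T;T⁻¹] a * bcU L (LaurentPolynomial.C : X.A.R →+* (X.A.R)[T;T⁻¹]) X.S *
      (toepNeg L (X.A.R)[T;T⁻¹] b)⁻¹ *
      (bcU L (LaurentPolynomial.C : X.A.R →+* (X.A.R)[T;T⁻¹]) X.S)⁻¹ =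
      uX' * (t * S0' * t⁻¹ * S0'⁻¹) * uX'⁻¹ := by
    rw [hA, hBinv, hS0']
    change uX' * t * uX'⁻¹ * S' * (uY' * t * uY'⁻¹)⁻¹ * S'⁻¹ = _
    group
  rw [hkey] at hfr ⊢
  have h9 : t * S0' * t⁻¹ * S0'⁻¹ = uX'⁻¹ * (uX' * (t * S0' * t⁻¹ * S0'⁻¹) * uX'⁻¹) * uX'⁻¹⁻¹ := by
    group
  have h10 := fdet_conj uX'⁻¹ hfr
  have h11 : fdet ((t * S0' * t⁻¹ * S0'⁻¹ : (Module.End (X.A.R)[T;T⁻¹] (Jx L →₀ (X.A.R)[T;T⁻¹]))ˣ) :
      Module.End (X.A.R)[T;T⁻¹] (Jx L →₀ (X.A.R)[T;T⁻¹])) = T m := H X.A.R S0 hS0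
  rw [← h10]
  rw [h9] at h11
  exact h11

end

end Vale.Agent.P286.Ad
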