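import Vale.Agent.P286.Ad.JFun
import Vale.Agent.P286.Ad.Torus

/-! The bracket in the basis formed by the columns of a matrix. -/

namespace Vale.Agent.P286.Ad

open LaurentPolynomial Matrix

noncomputable section

variable {L : LieC} {A B : Type} [CommRing A] [CommRing B]

/-- The matrix of `ad (X e_i)` in the basis `X e_j`. -/
def trb (L : LieC) (X : Matrix (Fin L.n) (Fin L.n) A) (i : Fin L.n) :
    Matrix (Fin L.n) (Fin L.n) A := X.adjugate * (L.adv (fun p => X p i) * X)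

theorem mul_trb {X : Matrix (Fin L.n) (Fin L.n) A} (hX : X.det = 1) (i : Fin L.n) :
    X * trb L X i = L.adv (fun p => X p i) * X := by
  rw [trb, ← Matrix.mul_assoc, self_mul_adjugate hX, Matrix.one_mul]

theorem trb_mul_left {g Y : Matrix (Fin L.n) (Fin L.n) A} (hg : L.IsAut g) (hg1 : g.det = 1)
    (i : Fin L.n) : trb L (g * Y) i = trb L Y i := by
  have h1 : (fun p => (g * Y) p i) = g *ᵥ fun p => Y p i := rfl
  unfold trb
  rw [h1, Matrix.adjugate_mul_distrib]
  calc Y.adjugate * g.adjugate * (L.adv (g *ᵥ fun p => Y p i) * (g * Y)) =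
      Y.adjugate * g.adjugate * ((L.adv (g *ᵥ fun p => Y p i) * g) * Y) := by
        simp only [Matrix.mul_assoc]
    _ = Y.adjugate * (g.adjugate * g) * (L.adv (fun p => Y p i) * Y) := by
        rw [← hg.mul_adv]; simp only [Matrix.mul_assoc]
    _ = _ := by rw [adjugate_mul_self hg1, Matrix.mul_one]

theorem isAut_iff_trb {X : Matrix (Fin L.n) (Fin L.n) A} (hX : X.det = 1)
    (h : ∀ i, trb L X i = L.ad A i) : L.IsAut X := fun i => by
  rw [← mul_trb hX, h]

theorem GE.intCast (m : ℤ) : GE 0 ((m : ℤ) : A[T;T⁻¹]) := by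
  rw [← map_intCast (LaurentPolynomial.C : A →+* A[T;T⁻¹])]
  exact GE.C _

theorem LE.intCast (m : ℤ) : LE 0 ((m : ℤ) : A[T;T⁻¹]) := by
  rw [← map_intCast (LaurentPolynomial.C : A →+* A[T;T⁻¹])]
  exact LE.C _

theorem adv_MGE {k : ℤ} {v : Fin L.n → A[T;T⁻¹]} (h : VGE k v) : MGE k (L.adv v) := by
  intro p q
  rw [L.adv_apply]
  refine GE.sum _ fun r _ => ?_
  have := (h r).mul (GE.intCast (A := A) (L.c r q p))
  rwa [add_zero] at this

theorem adv_MLE {k : ℤ} {v : Fin L.n → A[T;T⁻¹]} (h : VLE k v) : MLE k (L.adv v) := by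
  intro p q
  rw [L.adv_apply]
  refine LE.sum _ fun r _ => ?_
  have := (h r).mul (LE.intCast (A := A) (L.c r q p))
  rwa [add_zero] at this

theorem cf_adv (k : ℤ) (v : Fin L.n → A[T;T⁻¹]) : cf k (L.adv v) = L.adv fun p => (v p).coeff k := by
  ext i j
  rw [cf_apply, L.adv_apply, L.adv_apply, AddMonoidAlgebra.coeff_sum, Finsupp.finsetSum_apply]
  refine Finset.sum_congr rfl fun p _ => ?_
  rw [← map_intCast (LaurentPolynomial.C : A →+* A[T;T⁻¹]), mul_comm,
    ← LaurentPolynomial.smul_eq_C_mul, AddMonoidAlgebra.coeff_smul, Finsupp.smul_apply, smul_eq_mul,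
    mul_comm]

theorem trb_MGE {X : Matrix (Fin L.n) (Fin L.n) A[T;T⁻¹]} (hX : MGE 0 X) (i : Fin L.n) :
    MGE 0 (trb L X i) := by
  have h1 : VGE 0 (fun p => X p i) := fun p => hX p i
  have := hX.adjugate.mul ((adv_MGE h1).mul hX)
  simpa [trb] using this

theorem trb_MLE {X : Matrix (Fin L.n) (Fin L.n) A[T;T⁻¹]} (hX : MLE 0 X) (i : Fin L.n) :
    MLE 0 (trb L X i) := by
  have h1 : VLE 0 (fun p => X p i) := fun p => hX p i
  have := hX.adjugate.mul ((adv_MLE h1).mul hX)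
  simpa [trb] using this

theorem ad_eq_map_C (i : Fin L.n) : L.ad A[T;T⁻¹] i = (L.ad A i).map LaurentPolynomial.C :=
  (LieC.ad_map (L := L) (LaurentPolynomial.C : A →+* A[T;T⁻¹]) i).symm

/-- A matrix without poles and zeros is constant. -/
theorem eq_map_C {X : Matrix (Fin L.n) (Fin L.n) A[T;T⁻¹]} (h1 : MLE 0 X) (h2 : MGE 0 X) :
    X = (cf 0 X).map LaurentPolynomial.C := by
  ext1 i j
  rw [eq_C_of_LE_GE (h1 i j) (h2 i j)]
  rfl

end

end Vale.Agent.P286.Ad
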