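import Vale.Agent.P286.Ad.BunAx

/-!
# The categories of test objects of `Bun_G(ℙ¹)` and `BG`
-/

namespace Vale.Agent.P286.Ad

open CategoryTheory

noncomputable section

instance (L : LieC) : Category.{0} (BunObj L) where
  id_comp := BunHom.id_comp'
  comp_id := BunHom.comp_id'
  assoc := BunHom.assoc'

instance (L : LieC) : Category.{0} (BGObj L) where
  id_comp := BGHom.id_comp'
  comp_id := BGHom.comp_id'
  assoc := BGHom.assoc'

end

end Vale.Agent.P286.Ad
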