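import Vale.Agent.P286.Ad.LieC

/-!
# The type of a Lie algebra given by structure constants
-/

namespace Vale.Agent.P286.Ad

/-- The bracket of two vectors of `𝔤 = ℤⁿ`. -/
def LieC.bk (L : LieC) (v w : Fin L.n → ℤ) : Fin L.n → ℤ :=
  fun k => ∑ i, ∑ j, v i * w j * L.c i j k

/-- `𝔤` contains nonzero `h i` and `e i`, `f i` with the relations of the Cartan matrix `A`, in the
convention of the construction of Serre in Mathlib (`Matrix.ToLieAlgebra`), and the `e i` and
`f i` generate the Lie algebra `𝔤 ⊗ ℚ`: each subgroup `W` of `𝔤` which is closed under the bracket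
and contains them contains a nonzero multiple of each element of `𝔤`. -/
def LieC.HasCartan (L : LieC) {l : ℕ} (A : Matrix (Fin l) (Fin l) ℤ) : Prop :=
  ∃ h e f : Fin l → Fin L.n → ℤ,
    (∀ i, h i ≠ 0) ∧
    (∀ i j, L.bk (h i) (h j) = 0) ∧
    (∀ i j, L.bk (e i) (f j) = if i = j then h i else 0) ∧
    (∀ i j, L.bk (h i) (e j) = A i j • e j) ∧
    (∀ i j, L.bk (h i) (f j) = -(A i j • f j)) ∧
    ∀ W : (Fin L.n → ℤ) → Prop, W 0 → (∀ i, W (e i) ∧ W (f i)) →
      (∀ v w, W v → W w → W (v - w) ∧ W (L.bk v w)) → ∀ v, ∃ m : ℤ, m ≠ 0 ∧ W (m • v)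

end Vale.Agent.P286.Ad
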