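import Mathlib

/-! P286: the Lie algebra of type `G₂` by integer structure constants in a Chevalley basis
(h_a, h_b, e_a, e_b, e_(a+b), e_(2a+b), e_(3a+b), e_(3a+2b), and the f's, a short, b long):
antisymmetry, Jacobi identity, and the Killing form is nondegenerate. -/

namespace Vale.Agent.P286.Ad.GTwo

/-- The table: `tbl[i][j]` lists the pairs `(k, c i j k)` with `c i j k ≠ 0`. -/
def tbl : List (List (List (ℕ × ℤ))) := [
  [[], [], [(2, 2)], [(3, -3)], [(4, -1)], [(5, 1)], [(6, 3)], [], [(8, -2)], [(9, 3)], [(10, 1)], [(11, -1)], [(12, -3)], []],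
  [[], [], [(2, -1)], [(3, 2)], [(4, 1)], [], [(6, -1)], [(7, 1)], [(8, 1)], [(9, -2)], [(10, -1)], [], [(12, 1)], [(13, -1)]],
  [[(2, -2)], [(2, 1)], [], [(4, -1)], [(5, 2)], [(6, 3)], [], [], [(0, 1)], [], [(9, 3)], [(10, -2)], [(11, -1)], []],
  [[(3, 3)], [(3, -2)], [(4, 1)], [], [], [], [(7, 1)], [], [], [(1, 1)], [(8, -1)], [], [], [(12, -1)]],
  [[(4, 1)], [(4, -1)], [(5, -2)], [], [], [(7, 3)], [], [], [(3, 3)], [(2, -1)], [(0, 1), (1, 3)], [(8, 2)], [], [(11, -1)]],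
  [[(5, -1)], [], [(6, -3)], [], [(7, -3)], [], [], [], [(4, -2)], [], [(2, 2)], [(0, 2), (1, 3)], [(8, 1)], [(10, 1)]],
  [[(6, -3)], [(6, 1)], [], [(7, -1)], [], [], [], [], [(5, -1)], [], [], [(2, 1)], [(0, 1), (1, 1)], [(9, 1)]],
  [[], [(7, -1)], [], [], [], [], [], [], [], [(6, -1)], [(5, -1)], [(4, 1)], [(3, 1)], [(0, 1), (1, 2)]],
  [[(8, 2)], [(8, -1)], [(0, -1)], [], [(3, -3)], [(4, 2)], [(5, 1)], [], [], [(10, 1)], [(11, -2)], [(12, -3)], [], []],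
  [[(9, -3)], [(9, 2)], [], [(1, -1)], [(2, 1)], [], [], [(6, 1)], [(10, -1)], [], [], [], [(13, -1)], []],
  [[(10, -1)], [(10, 1)], [(9, -3)], [(8, 1)], [(0, -1), (1, -3)], [(2, -2)], [], [(5, 1)], [(11, 2)], [], [], [(13, -3)], [], []],
  [[(11, 1)], [], [(10, 2)], [], [(8, -2)], [(0, -2), (1, -3)], [(2, -1)], [(4, -1)], [(12, 3)], [], [(13, 3)], [], [], []],
  [[(12, 3)], [(12, -1)], [(11, 1)], [], [], [(8, -1)], [(0, -1), (1, -1)], [(3, -1)], [], [(13, 1)], [], [], [], []],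
  [[], [(13, 1)], [], [(12, 1)], [(11, 1)], [(10, -1)], [(9, -1)], [(0, -1), (1, -2)], [], [], [], [], [], []]]

/-- The list of nonzero coefficients of `[x_i, x_j]`. -/
def L (i j : ℕ) : List (ℕ × ℤ) := (tbl.getD i []).getD j []

/-- Coefficient of `k` in a list. -/
def co (l : List (ℕ × ℤ)) (k : ℕ) : ℤ := (l.map fun x => if x.1 = k then x.2 else 0).sum

/-- `[x_i, x_j] = ∑ k, c i j k x_k`. -/
def c (i j k : Fin 14) : ℤ := co (L i j) k

/-- `∑ p, (coefficient of p) * c p k l`. -/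
def ev (s : List (ℕ × ℤ)) (k l : ℕ) : ℤ := (s.map fun x => x.2 * co (L x.1 k) l).sum

theorem sum_co (s : List (ℕ × ℤ)) (hs : ∀ x ∈ s, x.1 < 14) (f : ℕ → ℤ) :
    ∑ p : Fin 14, co s p * f p = (s.map fun x => x.2 * f x.1).sum := by
  induction s with
  | nil => simp [co]
  | cons a s ih =>
    have h1 : ∀ p : Fin 14, co (a :: s) p * f p
        = (if a.1 = (p : ℕ) then a.2 * f a.1 else 0) + co s p * f p := by
      intro p
      simp only [co, List.map_cons, List.sum_cons, add_mul]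
      split_ifs with h
      · rw [h]
      · simp
    have h2 : ∑ p : Fin 14, (if a.1 = (p : ℕ) then a.2 * f a.1 else 0) = a.2 * f a.1 := by
      have ha : a.1 < 14 := hs a (by simp)
      rw [Finset.sum_eq_single (⟨a.1, ha⟩ : Fin 14)]
      · simp
      · intro b _ hb
        rw [if_neg]
        intro h
        exact hb (Fin.ext h.symm)
      · simp
    rw [Finset.sum_congr rfl fun p _ => h1 p, Finset.sum_add_distrib, h2,
      ih fun x hx => hs x (by simp [hx])]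
    simp

theorem lt_all : (List.range 14).all fun i => (List.range 14).all fun j =>
    (L i j).all fun x => decide (x.1 < 14) := by
  decide +kernel

theorem L_lt {i j : ℕ} (hi : i < 14) (hj : j < 14) : ∀ x ∈ L i j, x.1 < 14 := by
  have h := lt_all
  simp only [List.all_eq_true, List.mem_range, decide_eq_true_eq] at h
  exact h i hi j hj

theorem sum_c (i j : Fin 14) (f : ℕ → ℤ) :
    ∑ p : Fin 14, c i j p * f p = ((L i j).map fun x => x.2 * f x.1).sum :=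
  sum_co _ (L_lt i.2 j.2) f

theorem c_anti : ∀ i j k, c i j k = - c j i k := by decide +kernel

theorem jac_all : (List.range 14).all fun i => (List.range 14).all fun j =>
    (List.range 14).all fun k => (List.range 14).all fun l =>
      decide (ev (L i j) k l + ev (L j k) i l + ev (L k i) j l = 0) := by
  decide +kernel

/-- The Jacobi identity. -/
theorem jacobi (i j k l : Fin 14) :
    ∑ p, (c i j p * c p k l + c j k p * c p i l + c k i p * c p j l) = 0 := by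
  have h := jac_all
  simp only [List.all_eq_true, List.mem_range, decide_eq_true_eq] at h
  have h1 := h i i.2 j j.2 k k.2 l l.2
  rw [Finset.sum_add_distrib, Finset.sum_add_distrib]
  have e : ∀ a b k' l' : Fin 14, ∑ p, c a b p * c p k' l' = ev (L a b) k' l' :=
    fun a b k' l' => sum_c a b fun p => co (L p k') l'
  rw [e, e, e]
  exact h1

/-- The Killing form. -/
def kt : List (List ℤ) := [
  [48, -24, 0, 0, 0, 0, 0, 0, 0, 0, 0, 0, 0, 0],
  [-24, 16, 0, 0, 0, 0, 0, 0, 0, 0, 0, 0, 0, 0],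
  [0, 0, 0, 0, 0, 0, 0, 0, 24, 0, 0, 0, 0, 0],
  [0, 0, 0, 0, 0, 0, 0, 0, 0, 8, 0, 0, 0, 0],
  [0, 0, 0, 0, 0, 0, 0, 0, 0, 0, 24, 0, 0, 0],
  [0, 0, 0, 0, 0, 0, 0, 0, 0, 0, 0, 24, 0, 0],
  [0, 0, 0, 0, 0, 0, 0, 0, 0, 0, 0, 0, 8, 0],
  [0, 0, 0, 0, 0, 0, 0, 0, 0, 0, 0, 0, 0, 8],
  [0, 0, 24, 0, 0, 0, 0, 0, 0, 0, 0, 0, 0, 0],
  [0, 0, 0, 8, 0, 0, 0, 0, 0, 0, 0, 0, 0, 0],
  [0, 0, 0, 0, 24, 0, 0, 0, 0, 0, 0, 0, 0, 0],
  [0, 0, 0, 0, 0, 24, 0, 0, 0, 0, 0, 0, 0, 0],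
  [0, 0, 0, 0, 0, 0, 8, 0, 0, 0, 0, 0, 0, 0],
  [0, 0, 0, 0, 0, 0, 0, 8, 0, 0, 0, 0, 0, 0]]

/-- `24` times the inverse of the Killing form. -/
def ki : List (List ℤ) := [
  [2, 3, 0, 0, 0, 0, 0, 0, 0, 0, 0, 0, 0, 0],
  [3, 6, 0, 0, 0, 0, 0, 0, 0, 0, 0, 0, 0, 0],
  [0, 0, 0, 0, 0, 0, 0, 0, 1, 0, 0, 0, 0, 0],
  [0, 0, 0, 0, 0, 0, 0, 0, 0, 3, 0, 0, 0, 0],
  [0, 0, 0, 0, 0, 0, 0, 0, 0, 0, 1, 0, 0, 0],
  [0, 0, 0, 0, 0, 0, 0, 0, 0, 0, 0, 1, 0, 0],
  [0, 0, 0, 0, 0, 0, 0, 0, 0, 0, 0, 0, 3, 0],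
  [0, 0, 0, 0, 0, 0, 0, 0, 0, 0, 0, 0, 0, 3],
  [0, 0, 1, 0, 0, 0, 0, 0, 0, 0, 0, 0, 0, 0],
  [0, 0, 0, 3, 0, 0, 0, 0, 0, 0, 0, 0, 0, 0],
  [0, 0, 0, 0, 1, 0, 0, 0, 0, 0, 0, 0, 0, 0],
  [0, 0, 0, 0, 0, 1, 0, 0, 0, 0, 0, 0, 0, 0],
  [0, 0, 0, 0, 0, 0, 3, 0, 0, 0, 0, 0, 0, 0],
  [0, 0, 0, 0, 0, 0, 0, 3, 0, 0, 0, 0, 0, 0]]

def K (i j : Fin 14) : ℤ := (kt.getD i []).getD j 0

def K' (i j : Fin 14) : ℤ := (ki.getD i []).getD j 0

theorem kap_all : (List.range 14).all fun i => (List.range 14).all fun j =>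
    decide (((List.range 14).map fun p => ((L i p).map fun x => x.2 * co (L j x.1) p).sum).sum
      = (kt.getD i []).getD j 0) := by
  decide +kernel

theorem kap_eq (i j : Fin 14) : ∑ p, ∑ q, c i p q * c j q p = K i j := by
  have h := kap_all
  simp only [List.all_eq_true, List.mem_range, decide_eq_true_eq] at h
  have h1 := h i i.2 j j.2
  have e : ∀ p : Fin 14, ∑ q, c i p q * c j q p
      = ((L i p).map fun x => x.2 * co (L j x.1) p).sum :=
    fun p => sum_c i p fun q => co (L j q) p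
  rw [Finset.sum_congr rfl fun p _ => e p, K, ← h1]
  refine (Fin.sum_univ_eq_sum_range (fun p => ((L i p).map fun x => x.2 * co (L j x.1) p).sum)
    14).trans ?_
  rfl

theorem K_mul : ∀ i j, ∑ k, K i k * K' k j = if i = j then 24 else 0 := by decide +kernel

theorem K_mul' : Matrix.of K * Matrix.of K' = (24 : ℤ) • (1 : Matrix (Fin 14) (Fin 14) ℤ) := by
  ext i j
  rw [Matrix.mul_apply, Matrix.smul_apply, Matrix.one_apply]
  simp only [Matrix.of_apply, smul_eq_mul, mul_ite, mul_one, mul_zero]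
  exact K_mul i j

/-- The Killing form of `G₂` is nondegenerate. -/
theorem killing_det :
    (Matrix.of fun i j => ∑ p, ∑ q, c i p q * c j q p : Matrix (Fin 14) (Fin 14) ℤ).det ≠ 0 := by
  have h0 : (Matrix.of fun i j => ∑ p, ∑ q, c i p q * c j q p : Matrix (Fin 14) (Fin 14) ℤ)
      = Matrix.of K := by
    ext i j
    exact kap_eq i j
  rw [h0]
  intro h
  have h1 := congrArg Matrix.det K_mul'
  rw [Matrix.det_mul, h, zero_mul, Matrix.det_smul, Matrix.det_one] at h1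
  norm_num at h1

end Vale.Agent.P286.Ad.GTwo
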