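import Vale.Agent.P286.Ad.Pre
import Vale.Agent.P286.Ad.GTwo
import Mathlib.LinearAlgebra.Matrix.Cartan

/-!
# The type of a Lie algebra given by structure constants
-/

namespace Vale.Agent.P286.Ad

open Matrix

/-- The bracket of two vectors of `𝔤 = ℤⁿ`. -/
def LieC.br (L : LieC) (v w : Fin L.n → ℤ) : Fin L.n → ℤ := (L.adv v : Matrix _ _ ℤ) *ᵥ w

/-- `𝔤` contains nonzero `h i` and `e i`, `f i` with the relations of the Cartan matrix `A`, in the
convention of the construction of Serre in Mathlib (`Matrix.ToLieAlgebra`), and the `e i` and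
`f i` generate the Lie algebra `𝔤 ⊗ ℚ`. -/
def LieC.HasType (L : LieC) {ι : Type} [DecidableEq ι] (A : Matrix ι ι ℤ) : Prop :=
  ∃ h e f : ι → Fin L.n → ℤ,
    (∀ i, h i ≠ 0) ∧
    (∀ i j, L.br (h i) (h j) = 0) ∧
    (∀ i j, L.br (e i) (f j) = if i = j then h i else 0) ∧
    (∀ i j, L.br (h i) (e j) = A i j • e j) ∧
    (∀ i j, L.br (h i) (f j) = -(A i j • f j)) ∧
    ∀ W : AddSubgroup (Fin L.n → ℤ), (∀ i, e i ∈ W) → (∀ i, f i ∈ W) →
      (∀ v ∈ W, ∀ w ∈ W, L.br v w ∈ W) → ∀ v, ∃ m : ℤ, m ≠ 0 ∧ m • v ∈ W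

variable (L : LieC)

theorem LieC.br_single (i j : Fin L.n) :
    L.br (Pi.single i 1) (Pi.single j 1) = fun k => L.c i j k := by
  funext k
  unfold LieC.br
  rw [Matrix.mulVec_single_one, Matrix.col_apply, L.adv_apply, Finset.sum_eq_single i]
  · rw [Pi.single_eq_same, one_mul]
    rfl
  · intro p _ hp
    rw [Pi.single_eq_of_ne hp, zero_mul]
  · intro h
    exact absurd (Finset.mem_univ i) h

theorem LieC.br_smul_left (m : ℤ) (v w : Fin L.n → ℤ) : L.br (m • v) w = m • L.br v w := by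
  unfold LieC.br LieC.adv
  rw [← Matrix.smul_mulVec, Finset.smul_sum]
  congr 1
  refine Finset.sum_congr rfl fun p _ => ?_
  rw [Pi.smul_apply, smul_eq_mul, mul_smul]

theorem LieC.br_smul_right (m : ℤ) (v w : Fin L.n → ℤ) : L.br v (m • w) = m • L.br v w := by
  unfold LieC.br
  rw [Matrix.mulVec_smul]

/-- The elements of the basis are generated up to integer multiples: enough for the generation. -/
theorem gen_of_basis (W : AddSubgroup (Fin L.n → ℤ))
    (h : ∀ k, ∃ m : ℤ, m ≠ 0 ∧ m • (Pi.single k 1 : Fin L.n → ℤ) ∈ W) (v : Fin L.n → ℤ) :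
    ∃ m : ℤ, m ≠ 0 ∧ m • v ∈ W := by
  choose m hm hW using h
  refine ⟨∏ k, m k, Finset.prod_ne_zero_iff.2 fun k _ => hm k, ?_⟩
  have hv : v = ∑ k, v k • (Pi.single k 1 : Fin L.n → ℤ) := by
    rw [← Finset.univ_sum_single v]
    refine Finset.sum_congr rfl fun k _ => ?_
    rw [Finset.univ_sum_single v, ← Pi.single_smul, smul_eq_mul, mul_one]
  rw [hv, Finset.smul_sum]
  refine W.sum_mem fun k _ => ?_
  rw [← Finset.mul_prod_erase Finset.univ m (Finset.mem_univ k), smul_smul,
    show (m k * ∏ x ∈ Finset.univ.erase k, m x) * v k =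
      ((∏ x ∈ Finset.univ.erase k, m x) * v k) * m k by ring, mul_smul]
  exact W.zsmul_mem (hW k) _

/-- A chain of brackets: each `(i, j, k, m)` says `[x_i, x_j] = m x_k`, and at the end all the
elements of the basis are reached. -/
def chk {n : ℕ} (c : Fin n → Fin n → Fin n → ℤ) :
    List (Fin n) → List (Fin n × Fin n × Fin n × ℤ) → Bool
  | s, [] => decide (∀ k, k ∈ s)
  | s, (i, j, k, m) :: l => decide (i ∈ s) && decide (j ∈ s) && decide (m ≠ 0) &&
      decide (∀ q, c i j q = if q = k then m else 0) && chk c (k :: s) l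

theorem gen_of_chk (W : AddSubgroup (Fin L.n → ℤ)) (hW : ∀ v ∈ W, ∀ w ∈ W, L.br v w ∈ W)
    (l : List (Fin L.n × Fin L.n × Fin L.n × ℤ)) : ∀ s : List (Fin L.n),
    (∀ k ∈ s, ∃ m : ℤ, m ≠ 0 ∧ m • (Pi.single k 1 : Fin L.n → ℤ) ∈ W) → chk L.c s l = true →
      ∀ k, ∃ m : ℤ, m ≠ 0 ∧ m • (Pi.single k 1 : Fin L.n → ℤ) ∈ W := by
  induction l with
  | nil =>
    intro s hs h k
    exact hs k (of_decide_eq_true h k)
  | cons t l ih =>
    obtain ⟨i, j, k, m⟩ := t
    intro s hs h
    simp only [chk, Bool.and_eq_true, decide_eq_true_eq] at h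
    obtain ⟨⟨⟨⟨hi, hj⟩, hm⟩, hc⟩, h⟩ := h
    refine ih (k :: s) ?_ h
    intro q hq
    rcases List.mem_cons.1 hq with rfl | hq
    · obtain ⟨mi, hmi, hWi⟩ := hs i hi
      obtain ⟨mj, hmj, hWj⟩ := hs j hj
      refine ⟨mi * mj * m, mul_ne_zero (mul_ne_zero hmi hmj) hm, ?_⟩
      have h1 := hW _ hWi _ hWj
      rw [L.br_smul_left, L.br_smul_right, L.br_single] at h1
      have h2 : (fun k => L.c i j k) = m • (Pi.single q 1 : Fin L.n → ℤ) := by
        funext p
        rw [hc p, Pi.smul_apply, Pi.single_apply, smul_eq_mul]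
        split_ifs <;> simp
      rw [h2, smul_smul, smul_smul] at h1
      exact h1
    · exact hs q hq

/-- The type, from a table in which the Chevalley generators belong to the basis. -/
theorem hasType_of_chk {r : ℕ} (A : Matrix (Fin r) (Fin r) ℤ) (h e f : Fin r → Fin L.n)
    (l : List (Fin L.n × Fin L.n × Fin L.n × ℤ))
    (h1 : ∀ i j k, L.c (h i) (h j) k = 0)
    (h2 : ∀ i j k, L.c (e i) (f j) k = if i = j ∧ k = h i then 1 else 0)
    (h3 : ∀ i j k, L.c (h i) (e j) k = if k = e j then A i j else 0)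
    (h4 : ∀ i j k, L.c (h i) (f j) k = if k = f j then -A i j else 0)
    (h5 : chk L.c (List.ofFn e ++ List.ofFn f) l = true) : L.HasType A := by
  refine ⟨fun i => Pi.single (h i) 1, fun i => Pi.single (e i) 1, fun i => Pi.single (f i) 1,
    ?_, ?_, ?_, ?_, ?_, ?_⟩
  · intro i hi
    have h0 : (Pi.single (h i) 1 : Fin L.n → ℤ) (h i) = 0 := congrFun hi (h i)
    rw [Pi.single_eq_same] at h0
    exact one_ne_zero h0
  · intro i j
    rw [L.br_single]
    funext k
    exact h1 i j k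
  · intro i j
    rw [L.br_single]
    funext k
    rw [h2]
    by_cases hij : i = j
    · rw [if_pos hij]
      simp only [hij, true_and, Pi.single_apply]
    · rw [if_neg hij, if_neg (fun h => hij h.1)]
      rfl
  · intro i j
    rw [L.br_single]
    funext k
    rw [h3]
    show _ = A i j • (Pi.single (e j) 1 : Fin L.n → ℤ) k
    rw [Pi.single_apply]
    split_ifs <;> simp
  · intro i j
    rw [L.br_single]
    funext k
    rw [h4]
    show _ = -(A i j • (Pi.single (f j) 1 : Fin L.n → ℤ) k)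
    rw [Pi.single_apply]
    split_ifs <;> simp
  · intro W he hf hW
    refine gen_of_basis L W (gen_of_chk L W hW l _ ?_ h5)
    intro k hk
    rcases List.mem_append.1 hk with hk | hk
    · obtain ⟨i, rfl⟩ := (List.mem_ofFn' _ _).1 hk
      exact ⟨1, one_ne_zero, by rw [one_smul]; exact he i⟩
    · obtain ⟨i, rfl⟩ := (List.mem_ofFn' _ _).1 hk
      exact ⟨1, one_ne_zero, by rw [one_smul]; exact hf i⟩

end Vale.Agent.P286.Ad
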