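import Vale.Agent.P286.Ad.Cartan
import Vale.Agent.P286.Ad.Typ

/-!
# The two forms of the type of a Lie algebra
-/

namespace Vale.Agent.P286.Ad

open Matrix

theorem LieC.br_eq_bk (L : LieC) (v w : Fin L.n → ℤ) : L.br v w = L.bk v w := by
  funext k
  unfold LieC.br LieC.bk
  show ∑ j, L.adv v k j * w j = _
  rw [Finset.sum_comm]
  refine Finset.sum_congr rfl fun j _ => ?_
  rw [L.adv_apply, Finset.sum_mul]
  refine Finset.sum_congr rfl fun i _ => ?_
  rw [Int.cast_id]
  ring

theorem LieC.HasType.hasCartan {L : LieC} {l : ℕ} {A : Matrix (Fin l) (Fin l) ℤ}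
    (hA : L.HasType A) : L.HasCartan A := by
  obtain ⟨h, e, f, h1, h2, h3, h4, h5, h6⟩ := hA
  simp only [L.br_eq_bk] at h2 h3 h4 h5 h6
  refine ⟨h, e, f, h1, h2, h3, h4, h5, ?_⟩
  intro W h0 hef hW
  have hneg : ∀ v, W v → W (-v) := fun v hv => by
    have := (hW 0 v h0 hv).1
    rwa [zero_sub] at this
  let S : AddSubgroup (Fin L.n → ℤ) :=
    { carrier := Set.ofPred W
      zero_mem' := h0
      add_mem' := fun {v w} hv hw => by
        have := (hW v (-w) hv (hneg w hw)).1
        rw [sub_neg_eq_add] at this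
        exact this
      neg_mem' := fun {v} hv => hneg v hv }
  exact h6 S (fun i => (hef i).1) (fun i => (hef i).2) fun v hv w hw => (hW v w hv hw).2

end Vale.Agent.P286.Ad
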