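import Vale.Agent.P286.St.TD
import Vale.Agent.P286.Ad.Bun

/-!
# The test categories of `Bun_G(ℙ¹)` with its canonical bundle, and of `BG`
-/

namespace Vale.Agent.P286.Ad

open CategoryTheory

noncomputable section

/-- The stack `Bun_G(ℙ¹)` with its canonical bundle `ω` and the twist `s`, given by its
test objects. -/
def BunAd (L : LieC) (s : ℂ) : St.TSite where
  C := BunObj L
  A := BunObj.A
  f := BunHom.f
  dl {X Y} φ := delta (BunHom.f φ).r (BunHom.a φ) (BunHom.b φ) X.S Y.S
  cen X := {𝟙 X}
  s := s

/-- The classifying stack of `G` (without twist), given by its test objects. -/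
def BAd (L : LieC) : St.TSite where
  C := BGObj L
  A := BGObj.A
  f := BGHom.f
  dl _ := 1
  cen X := {𝟙 X}
  s := 0

end

end Vale.Agent.P286.Ad
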