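import Vale.Agent.P286.Defs
import Vale.Agent.P286.St.ToT
import Vale.Agent.P286.Ad.Sites

/-!
# The sites of `Bun_G(ℙ¹)` and of `BG`
-/

namespace Vale.Agent.P286.Ad

open CategoryTheory LaurentPolynomial

noncomputable section

section Framing

variable {L : LieC} {A B : Type} [CommRing A] [CommRing B]

theorem pos_MGE (a : SG L (Polynomial A)) : MGE 0 (pos L A a).m := by
  intro p q m hm
  show (Polynomial.toLaurent (a.m p q)).coeff m = 0
  rw [LaurentPolynomial.coeff_toLaurent]
  apply Finsupp.mapDomain_of_notMem_range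
  rintro ⟨l, hl⟩
  have hl' : (l : ℤ) = _ := hl
  omega

theorem neg_MLE (a : SG L (Polynomial A)) : MLE 0 (neg L A a).m := by
  intro p q m hm
  show (invert (Polynomial.toLaurent (a.m p q))).coeff m = 0
  rw [invert_apply, LaurentPolynomial.coeff_toLaurent]
  apply Finsupp.mapDomain_of_notMem_range
  rintro ⟨l, hl⟩
  have hl' : (l : ℤ) = _ := hl
  omega

theorem toep_one : toep (1 : SG L A[T;T⁻¹]) = 1 := vtoep_one

theorem toep_pos_mul (a : SG L (Polynomial A)) (g : SG L A[T;T⁻¹]) :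
    toep (pos L A a * g) = toep (pos L A a) * toep g := vtoep_pos_mul (pos_MGE a) g.m

theorem toep_mul_neg (g : SG L A[T;T⁻¹]) (b : SG L (Polynomial A)) :
    toep (g * neg L A b) = toep g * toep (neg L A b) := vtoep_mul_neg g.m (neg_MLE b)

theorem bc_toep (f : A →+* B) (g : SG L A[T;T⁻¹]) :
    bc f (toep g) = toep (som L (lmap f) g) := bc_vtoep f g.m

/-- `G(A[z])` acts on `so_N(A[z⁻¹]) = so_N(A[z,z⁻¹])/z so_N(A[z])` by conjugation. -/
def toepPos (L : LieC) (A : Type) [CommRing A] :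
    SG L (Polynomial A) →* (Module.End A (Jx L →₀ A))ˣ :=
  MonoidHom.toHomUnits
    { toFun := fun a => toep (pos L A a)
      map_one' := by rw [map_one, toep_one]
      map_mul' := fun a a' => by rw [map_mul, toep_pos_mul] }

/-- `G(A[z⁻¹])` acts on `so_N(A[z⁻¹])` by conjugation. -/
def toepNeg (L : LieC) (A : Type) [CommRing A] :
    SG L (Polynomial A) →* (Module.End A (Jx L →₀ A))ˣ :=
  MonoidHom.toHomUnits
    { toFun := fun b => toep (neg L A b)
      map_one' := by rw [map_one, toep_one]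
      map_mul' := fun b b' => by rw [map_mul, toep_mul_neg] }

/-- Base change of invertible operators. -/
def bcU (L : LieC) (f : A →+* B) : (Module.End A (Jx L →₀ A))ˣ →* (Module.End B (Jx L →₀ B))ˣ :=
  Units.map (bcHom (Jx L) f)

/-- The framing of `g' = a f(g) b⁻¹` induced by a framing of `g`. -/
def transport (f : A →+* B) (a b : SG L (Polynomial B))
    (S : (Module.End A (Jx L →₀ A))ˣ) : (Module.End B (Jx L →₀ B))ˣ :=
  toepPos L B a * bcU L f S * (toepNeg L B b)⁻¹

theorem IsFraming.transport {g : SG L A[T;T⁻¹]}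
    {S : (Module.End A (Jx L →₀ A))ˣ} (h : IsFraming g S) (f : A →+* B)
    {a b : SG L (Polynomial B)} {g' : SG L B[T;T⁻¹]}
    (e : g' * neg L B b = pos L B a * som L (lmap f) g) :
    IsFraming g' (Ad.transport f a b S) := by
  have e1 : g' = pos L B a * (som L (lmap f) g * neg L B b⁻¹) := by
    rw [← mul_assoc, ← e, mul_assoc, ← map_mul, mul_inv_cancel, map_one, mul_one]
  have e2 : ((Ad.transport f a b S : (Module.End B (Jx L →₀ B))ˣ) : Module.End B (Jx L →₀ B)) -
      toep g' = toep (pos L B a) * bc f ((S : Module.End A (Jx L →₀ A)) - toep g) *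
        toep (neg L B b⁻¹) := by
    rw [e1, toep_pos_mul, toep_mul_neg, ← bc_toep, bc_sub]
    exact ring_aux₁ (toep (pos L B a)) (bc f S) (bc f (toep g)) (toep (neg L B b⁻¹))
  unfold IsFraming
  rw [e2]
  exact ((h.bc f).mul_left _).mul_right _

theorem IsFraming.div {g : SG L A[T;T⁻¹]}
    {S S' : (Module.End A (Jx L →₀ A))ˣ} (h : IsFraming g S) (h' : IsFraming g S') :
    FinRank (((S * S'⁻¹ : (Module.End A (Jx L →₀ A))ˣ) : Module.End A (Jx L →₀ A)) - 1) := by
  have e : ((S * S'⁻¹ : (Module.End A (Jx L →₀ A))ˣ) : Module.End A (Jx L →₀ A)) - 1 =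
      (((S : Module.End A (Jx L →₀ A)) - toep g) - ((S' : Module.End A (Jx L →₀ A)) - toep g)) *
        ((S'⁻¹ : (Module.End A (Jx L →₀ A))ˣ) : Module.End A (Jx L →₀ A)) :=
    ring_aux₂ (S : Module.End A (Jx L →₀ A)) (S' : Module.End A (Jx L →₀ A)) (toep g)
      ((S'⁻¹ : (Module.End A (Jx L →₀ A))ˣ) : Module.End A (Jx L →₀ A)) (Units.mul_inv S')
  rw [e]
  exact (h.sub h').mul_right _

theorem bcU_toepPos (f : A →+* B) (a : SG L (Polynomial A)) :
    bcU L f (toepPos L A a) = toepPos L B (som L (Polynomial.mapRingHom f) a) := by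
  apply Units.ext
  change bc f (toep (pos L A a)) = toep (pos L B (som L (Polynomial.mapRingHom f) a))
  rw [bc_toep, map_pos]

theorem bcU_toepNeg (f : A →+* B) (b : SG L (Polynomial A)) :
    bcU L f (toepNeg L A b) = toepNeg L B (som L (Polynomial.mapRingHom f) b) := by
  apply Units.ext
  change bc f (toep (neg L A b)) = toep (neg L B (som L (Polynomial.mapRingHom f) b))
  rw [bc_toep, map_neg]

theorem bcU_bcU {D : Type} [CommRing D] (f : A →+* B) (g : B →+* D)
    (S : (Module.End A (Jx L →₀ A))ˣ) : bcU L g (bcU L f S) = bcU L (g.comp f) S := by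
  apply Units.ext
  exact bc_bc f g _

theorem bcU_id (S : (Module.End A (Jx L →₀ A))ˣ) : bcU L (RingHom.id A) S = S := by
  apply Units.ext
  exact bc_id _

theorem transport_transport {D : Type} [CommRing D] (f : A →+* B) (g : B →+* D)
    (a b : SG L (Polynomial B)) (a' b' : SG L (Polynomial D)) (S : (Module.End A (Jx L →₀ A))ˣ) :
    transport g a' b' (transport f a b S) =
      transport (g.comp f) (a' * som L (Polynomial.mapRingHom g) a)
        (b' * som L (Polynomial.mapRingHom g) b) S := by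
  simp only [transport, map_mul, map_inv, bcU_toepPos, bcU_toepNeg, bcU_bcU, mul_assoc,
    mul_inv_rev]

/-- The unit `δ` with `t_{S'} = δ • t_S`, for two framings `S, S'` of the same determinant line. -/
def ratio (S S' : (Module.End A (Jx L →₀ A))ˣ)
    (h : FinRank (((S * S'⁻¹ : (Module.End A (Jx L →₀ A))ˣ) : Module.End A (Jx L →₀ A)) - 1)) :
    Aˣ :=
  (isUnit_fdet h (Units.isUnit _)).unit

theorem ratio_val (S S' : (Module.End A (Jx L →₀ A))ˣ)
    (h : FinRank (((S * S'⁻¹ : (Module.End A (Jx L →₀ A))ˣ) : Module.End A (Jx L →₀ A)) - 1)) :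
    (ratio S S' h : A) =
      fdet ((S * S'⁻¹ : (Module.End A (Jx L →₀ A))ˣ) : Module.End A (Jx L →₀ A)) := rfl

/-- The cocycle property of the Fredholm determinant. -/
theorem fdet_cocycle (f : A →+* B) (a b : SG L (Polynomial B))
    (U S : (Module.End A (Jx L →₀ A))ˣ) (S' : (Module.End B (Jx L →₀ B))ˣ)
    (h : FinRank (((U * S⁻¹ : (Module.End A (Jx L →₀ A))ˣ) : Module.End A (Jx L →₀ A)) - 1))
    (h' : FinRank (((transport f a b S * S'⁻¹ : (Module.End B (Jx L →₀ B))ˣ) :
      Module.End B (Jx L →₀ B)) - 1)) :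
    fdet ((transport f a b U * S'⁻¹ : (Module.End B (Jx L →₀ B))ˣ) : Module.End B (Jx L →₀ B)) =
      fdet ((transport f a b S * S'⁻¹ : (Module.End B (Jx L →₀ B))ˣ) : Module.End B (Jx L →₀ B)) *
        f (fdet ((U * S⁻¹ : (Module.End A (Jx L →₀ A))ˣ) : Module.End A (Jx L →₀ A))) := by
  have e : transport f a b U * S'⁻¹ = (toepPos L B a * bcU L f (U * S⁻¹) * (toepPos L B a)⁻¹) *
      (transport f a b S * S'⁻¹) := by
    simp only [transport, map_mul, map_inv]
    group
  have hb : FinRank (((bcU L f (U * S⁻¹) : (Module.End B (Jx L →₀ B))ˣ) :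
      Module.End B (Jx L →₀ B)) - 1) := by
    have := FinRank.bc f h
    rwa [bc_sub, bc_one] at this
  have hc : FinRank (((toepPos L B a * bcU L f (U * S⁻¹) * (toepPos L B a)⁻¹ :
      (Module.End B (Jx L →₀ B))ˣ) : Module.End B (Jx L →₀ B)) - 1) := by
    have e1 : ((toepPos L B a * bcU L f (U * S⁻¹) * (toepPos L B a)⁻¹ :
      (Module.End B (Jx L →₀ B))ˣ) : Module.End B (Jx L →₀ B)) - 1 =
      (toepPos L B a : Module.End B (Jx L →₀ B)) *
        (((bcU L f (U * S⁻¹) : (Module.End B (Jx L →₀ B))ˣ) : Module.End B (Jx L →₀ B)) - 1) *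
        (((toepPos L B a)⁻¹ : (Module.End B (Jx L →₀ B))ˣ) : Module.End B (Jx L →₀ B)) :=
      ring_aux₃ (toepPos L B a : Module.End B (Jx L →₀ B))
        (((toepPos L B a)⁻¹ : (Module.End B (Jx L →₀ B))ˣ) : Module.End B (Jx L →₀ B))
        ((bcU L f (U * S⁻¹) : (Module.End B (Jx L →₀ B))ˣ) : Module.End B (Jx L →₀ B))
        (Units.mul_inv (toepPos L B a))
    rw [e1]
    exact (hb.mul_left _).mul_right _
  rw [e, Units.val_mul, fdet_mul hc h', mul_comm]
  congr 1
  rw [Units.val_mul, Units.val_mul, fdet_conj _ hb]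
  exact fdet_bc f h

end Framing

/-- The classifying stack of `G`, given by its test objects (with the trivial line bundle). -/
abbrev BG (L : LieC) : Site where
  C := BGObj L
  R X := X.A.R
  res φ := BGHom.f φ
  res_id _ := rfl
  res_comp _ _ := rfl
  dl _ := 1
  dl_comp φ ψ := by simp
  cen X := {𝟙 X}

theorem BunHom.eq {L : LieC} {X Y : BunObj L} (φ : BunHom X Y) :
    Y.g * neg L Y.A.R φ.b = pos L Y.A.R φ.a * som L (lmap (φ.f : X.A.R →+* Y.A.R)) X.g := φ.glue

theorem BunHom.finRank {L : LieC} {X Y : BunObj L} (φ : BunHom X Y) :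
    FinRank (((transport (φ.f : X.A.R →+* Y.A.R) φ.a φ.b X.S * Y.S⁻¹ :
      (Module.End Y.A.R (Jx L →₀ Y.A.R))ˣ) : Module.End Y.A.R (Jx L →₀ Y.A.R)) - 1) :=
  (X.framing.transport _ φ.eq).div Y.framing

/-- The unit `δ` with `t_Y = δ • φ_* t_X`. -/
def BunHom.dl {L : LieC} {X Y : BunObj L} (φ : BunHom X Y) : (Y.A.R)ˣ :=
  ratio (transport (φ.f : X.A.R →+* Y.A.R) φ.a φ.b X.S) Y.S φ.finRank

/-- The stack `Bun_G(ℙ¹)` with its canonical bundle `ω`, given by its test objects. -/
abbrev Bun (L : LieC) : Site where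
  C := BunObj L
  R X := X.A.R
  res φ := BunHom.f φ
  res_id _ := rfl
  res_comp _ _ := rfl
  dl φ := BunHom.dl φ
  dl_comp {X Y Z} φ ψ := by
    apply Units.ext
    change fdet ((transport ((BunHom.f ψ : Y.A.R →+* Z.A.R).comp (BunHom.f φ : X.A.R →+* Y.A.R))
        (BunHom.a ψ * som L (Polynomial.mapRingHom (BunHom.f ψ : Y.A.R →+* Z.A.R)) (BunHom.a φ))
        (BunHom.b ψ * som L (Polynomial.mapRingHom (BunHom.f ψ : Y.A.R →+* Z.A.R)) (BunHom.b φ))
          X.S * Z.S⁻¹ :
          (Module.End Z.A.R (Jx L →₀ Z.A.R))ˣ) : Module.End Z.A.R (Jx L →₀ Z.A.R)) = _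
    rw [← transport_transport]
    exact fdet_cocycle _ _ _ _ _ _ (BunHom.finRank φ) (BunHom.finRank ψ)
  cen X := {𝟙 X}

theorem toT_Bun (L : LieC) (s : ℂ) : (Bun L).toT s = BunAd L s := rfl

theorem toT_BG (L : LieC) : (BG L).toT 0 = BAd L := by
  unfold Site.toT BAd
  rfl

end

end Vale.Agent.P286.Ad
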