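import Vale.Agent.P286.Ad.Acyc

/-!
# The two natural transformations
-/

namespace Vale.Agent.P286.Ad

open CategoryTheory LaurentPolynomial

noncomputable section

variable {L : LieC}

/-- A matrix which is polynomial both in `z` and in `z⁻¹` is constant. -/
theorem eq_const_of_pos_eq_neg {A : Type} [CommRing A] {a b : SG L (Polynomial A)}
    (h : pos L A a = neg L A b) : a = cst L A (som L Polynomial.constantCoeff a) ∧ b = a := by
  have h' : posGL L.n A a.sl = negGL L.n A b.sl := by
    apply Units.ext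
    exact congrArg SG.m h
  obtain ⟨h1, h2⟩ := P286.eq_const_of_pos_eq_neg h'
  exact ⟨SG.ext' (congrArg (fun x : Matrix.SpecialLinearGroup (Fin L.n) (Polynomial A) => x.1) h1),
    SG.ext' (congrArg (fun x : Matrix.SpecialLinearGroup (Fin L.n) (Polynomial A) => x.1) h2)⟩

theorem eq_of_triv {B : Type} [CommRing B]
    {a b a' b' : SG L (Polynomial B)}
    {G : SG L B[T;T⁻¹]} (e : 1 * neg L B b = pos L B a * G)
    (e' : 1 * neg L B b' = pos L B a' * G) (h0 : ev0 L B a = ev0 L B a') :
    a = a' ∧ b = b' := by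
  have h : pos L B (a * a'⁻¹) = neg L B (b * b'⁻¹) := by
    rw [one_mul] at e e'
    rw [map_mul, map_mul, map_inv, map_inv, e, e']
    group
  obtain ⟨h1, h2⟩ := eq_const_of_pos_eq_neg h
  have h3 : som L Polynomial.constantCoeff (a * a'⁻¹) = 1 := by
    change ev0 L B (a * a'⁻¹) = 1
    rw [map_mul, map_inv, h0, mul_inv_cancel]
  rw [h3, map_one] at h1
  rw [h1] at h2
  exact ⟨mul_inv_eq_one.1 h1, mul_inv_eq_one.1 h2⟩

/-- Two morphisms to a trivial bundle are equal if they agree at `z = 0`. -/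
theorem hom_triv_ext {X : BunObj L} {Z : BGObj L} {φ ψ : X ⟶ triv Z}
    (hf : BunHom.f φ = BunHom.f ψ)
    (h0 : ev0 L Z.A.R (BunHom.a φ) = ev0 L Z.A.R (BunHom.a ψ)) : φ = ψ := by
  have e1 := BunHom.eq φ
  have e2 := BunHom.eq ψ
  rw [← hf] at e2
  obtain ⟨h1, h2⟩ := eq_of_triv e1 e2 h0
  exact BunHom.ext hf h1 h2

theorem isUnit_toep {A B : Type} [CommRing A] [CommRing B] (f : A →+* B)
    (g : SG L A[T;T⁻¹]) (S : (Module.End A (Jx L →₀ A))ˣ)
    (h : IsFraming g S) (hu : IsUnit (f (theta g S))) :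
    IsUnit (toep (som L (lmap f) g)) := by
  have h1 := theta_finRank h
  have h2 := FinRank.bc_sub_one f h1
  have h3 := fdet_bc f h1
  have h4 : IsUnit (bc f (toep g * ((S⁻¹ : (Module.End A (Jx L →₀ A))ˣ) :
      Module.End A (Jx L →₀ A)))) := by
    apply isUnit_of_isUnit_fdet h2
    rw [h3]
    exact hu
  rw [bc_mul, bc_toep] at h4
  have h5 : bc f ((S⁻¹ : (Module.End A (Jx L →₀ A))ˣ) : Module.End A (Jx L →₀ A)) =
      ((bcU L f S⁻¹ : (Module.End B (Jx L →₀ B))ˣ) : Module.End B (Jx L →₀ B)) := rfl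
  rw [h5] at h4
  exact (Units.isUnit_mul_units _ _).1 h4

theorem exists_split (X : BunObj L) :
    ∃ a b : SG L (Polynomial (Lo X.th)),
      1 * neg L (Lo X.th) b = pos L (Lo X.th) a *
        som L (lmap (algebraMap X.A.R (Lo X.th))) X.g ∧
      ev0 L (Lo X.th) a = 1 := by
  obtain ⟨a, b, hab, ha⟩ := exists_fact
    (som L (lmap (algebraMap X.A.R (Lo X.th))) X.g)
    (isUnit_toep _ X.g X.S X.framing (IsLocalization.Away.algebraMap_isUnit X.th))
  refine ⟨a⁻¹, b⁻¹, ?_, ?_⟩
  · rw [one_mul, map_inv, map_inv, ← hab]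
    group
  · have : ev0 L (Lo X.th) a = 1 := ha
    rw [map_inv, this, inv_one]

/-- the trivialization of the bundle over the locus `θ ≠ 0` -/
def phi (X : BunObj L) :
    X ⟶ triv X.lo :=
  ({ f := IsScalarTower.toAlgHom ℂ X.A.R (Lo X.th)
     a := (exists_split X).choose
     b := (exists_split X).choose_spec.choose
     glue := (exists_split X).choose_spec.choose_spec.1 } :
      BunHom X (triv X.lo))

theorem ev0_phi (X : BunObj L) :
    ev0 L (Lo X.th) (BunHom.a (phi X)) = 1 :=
  (exists_split X).choose_spec.choose_spec.2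

theorem phi_f (X : BunObj L) :
    BunHom.f (phi X) = IsScalarTower.toAlgHom ℂ X.A.R (Lo X.th) := rfl

theorem phi_dl (X : BunObj L) :
    (BunHom.dl (phi X) : Lo X.th) * algebraMap X.A.R (Lo X.th) X.th = 1 := by
  have h := BunObj.th_map (phi X)
  rw [triv_th] at h
  exact h.symm

theorem phi_dl_inv (X : BunObj L) :
    (((BunHom.dl (phi X))⁻¹ : (Lo X.th)ˣ) : Lo X.th) = algebraMap X.A.R (Lo X.th) X.th := by
  have h := phi_dl X
  rw [Units.inv_eq_of_mul_eq_one_right h]

theorem phi_dl_val (X : BunObj L) :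
    (BunHom.dl (phi X) : Lo X.th) = IsLocalization.Away.invSelf X.th := by
  have h := phi_dl X
  have h2 := mul_invSelf X
  linear_combination (IsLocalization.Away.invSelf X.th) * h -
    (BunHom.dl (phi X) : Lo X.th) * h2

theorem phi_nat {X Y : BunObj L} (φ : X ⟶ Y) :
    φ ≫ phi Y = phi X ≫ jmap (Lmap φ) := by
  apply hom_triv_ext
  · apply AlgHom.ext
    intro a
    exact (locMap_algebraMap (BunHom.f φ) (BunObj.isUnit_map φ) a).symm
  · change ev0 L (Lo Y.th) (BunHom.a (phi Y) *
      som L (Polynomial.mapRingHom (algebraMap Y.A.R (Lo Y.th))) (BunHom.a φ)) =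
      ev0 L (Lo Y.th) (cst L (Lo Y.th)
        (som L (algebraMap Y.A.R (Lo Y.th)) (ev0 L Y.A.R (BunHom.a φ))) *
        som L (Polynomial.mapRingHom (locMap (BunHom.f φ) (BunObj.isUnit_map φ) : Lo X.th →+* Lo Y.th))
          (BunHom.a (phi X)))
    rw [map_mul, map_mul, ev0_phi, ev0_constSL, ev0_slm, ev0_slm, ev0_phi, map_one, one_mul,
      mul_one]

instance modTrivLo {s : ℂ} (F : TDMod (Bun L) s) (X : BunObj L) :
    Module (Lo X.th) (F.M (triv X.lo)) :=
  F.mod (triv X.lo)

instance modLoTriv {s : ℂ} (G : TDMod (BG L) s) (X : BGObj L) :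
    Module (Lo (triv X).th) (G.M (triv X).lo) :=
  G.mod (triv X).lo

theorem phi_act {s : ℂ} (F : TDMod (Bun L) s) (X : BunObj L)
    (v : Derivation ℂ X.A.R X.A.R) (m : F.M X) :
    F.map (phi X) (F.act X v m) =
      F.act (triv X.lo) (locDer X.th v) (F.map (phi X) m) -
        tw X s v • F.map (phi X) m := by
  have h := F.map_act (phi X) (locDer X.th v) 1 ![1] ![v] (by
    intro a
    rw [Fin.sum_univ_one]
    change locDer X.th v (algebraMap X.A.R (Lo X.th) a) = 1 * algebraMap X.A.R (Lo X.th) (v a)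
    rw [one_mul, locDer_algebraMap]) m
  rw [Fin.sum_univ_one] at h
  have h1 : (algebraMap ℂ (Lo X.th) s * (((BunHom.dl (phi X))⁻¹ : (Lo X.th)ˣ) : Lo X.th) *
      locDer X.th v (BunHom.dl (phi X) : Lo X.th)) = - tw X s v := by
    rw [phi_dl_inv, phi_dl_val, der_invSelf, tw]
    have h2 := mul_invSelf X
    linear_combination (-(algebraMap ℂ (Lo X.th) s * IsLocalization.Away.invSelf X.th *
      algebraMap X.A.R (Lo X.th) (v X.th))) * h2
  have h3 : F.act (triv X.lo) (locDer X.th v)
      (F.map (phi X) m) = (1 : Lo X.th) • F.map (phi X) (F.act X v m) -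
        (algebraMap ℂ (Lo X.th) s * (((BunHom.dl (phi X))⁻¹ : (Lo X.th)ˣ) : Lo X.th) *
      locDer X.th v (BunHom.dl (phi X) : Lo X.th)) • F.map (phi X) m := h
  rw [h1, one_smul, neg_smul, sub_neg_eq_add] at h3
  rw [h3, add_sub_cancel_right]

/-- The unit `𝟭 ⟶ J ⋙ B`. -/
def eps1 (s : ℂ) :
    𝟭 (TDMod (Bun L) s) ⟶ Jfun L s ⋙ Bfun L s where
  app F :=
    { app := fun X =>
        { toFun := F.map (phi X)
          map_add' := map_add (F.map (phi X))
          map_smul' := fun (a : X.A.R) (m : F.M X) => F.map_smul (phi X) a m }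
      act := fun X v (m : F.M X) => phi_act F X v m
      nat := fun {X Y} φ (m : F.M X) => by
        change F.map (phi Y) (F.map φ m) =
          F.map (jmap (Lmap φ)) (F.map (phi X) m)
        rw [← F.map_comp, ← F.map_comp, phi_nat] }
  naturality F F' f := by
    apply TDMod.hom_ext
    intro X m
    exact (TDMod.Hom.nat f (phi X) m).symm

/-- `X ⟶ (triv X).lo` -/
def psi (X : BGObj L) : X ⟶ (triv X).lo :=
  (⟨IsScalarTower.toAlgHom ℂ X.A.R (Lo (triv X).th), 1⟩ : BGHom X (triv X).lo)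

theorem psi_nat {X Y : BGObj L} (φ : X ⟶ Y) :
    φ ≫ psi Y = psi X ≫ Lmap (jmap φ) := by
  apply BGHom.ext
  · apply AlgHom.ext
    intro a
    exact (locMap_algebraMap (BunHom.f (jmap φ)) (BunObj.isUnit_map (jmap φ)) a).symm
  · change 1 * som L (algebraMap Y.A.R (Lo (triv Y).th)) (BGHom.h φ) =
      som L (algebraMap Y.A.R (Lo (triv Y).th))
        (ev0 L Y.A.R (cst L Y.A.R (BGHom.h φ))) * som L _ 1
    rw [ev0_constSL, map_one, one_mul, mul_one]

theorem triv_unit (X : BGObj L) : IsUnit (triv X).th := by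
  rw [triv_th]
  exact isUnit_one

/-- the inverse of `psi` -/
def psi' (X : BGObj L) : (triv X).lo ⟶ X :=
  (⟨IsLocalization.liftAlgHom (M := Submonoid.powers (triv X).th) (f := AlgHom.id ℂ X.A.R) (by
      rintro ⟨_, k, rfl⟩
      exact (triv_unit X).pow k), 1⟩ : BGHom (triv X).lo X)

theorem psi_psi' (X : BGObj L) : psi X ≫ psi' X = 𝟙 X := by
  apply BGHom.ext
  · apply AlgHom.ext
    intro a
    change IsLocalization.liftAlgHom (M := Submonoid.powers (triv X).th) (f := AlgHom.id ℂ X.A.R)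
      _ (algebraMap X.A.R (Lo (triv X).th) a) = a
    simp
  · change 1 * som L _ 1 = 1
    rw [map_one, mul_one]

theorem psi'_psi (X : BGObj L) : psi' X ≫ psi X = 𝟙 _ := by
  apply BGHom.ext
  · apply lo_hom_ext
    intro a
    change algebraMap X.A.R (Lo (triv X).th) (IsLocalization.liftAlgHom
      (M := Submonoid.powers (triv X).th) (f := AlgHom.id ℂ X.A.R)
      _ (algebraMap X.A.R (Lo (triv X).th) a)) = algebraMap X.A.R (Lo (triv X).th) a
    simp
  · change 1 * som L _ 1 = 1
    rw [map_one, mul_one]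

theorem tw_triv (X : BGObj L) (s : ℂ) (v : Derivation ℂ X.A.R X.A.R) :
    tw (triv X) s v = 0 := by
  have h : v (triv X).th = 0 := by
    rw [triv_th]
    exact Derivation.map_one_eq_zero v
  rw [tw, h, map_zero, mul_zero, mul_zero]

theorem psi_act (s : ℂ) (G : TDMod (BG L) 0) (X : BGObj L)
    (v : Derivation ℂ X.A.R X.A.R) (m : G.M X) :
    G.map (psi X) (G.act X v m) =
      G.act (triv X).lo (locDer (triv X).th v) (G.map (psi X) m) -
        tw (triv X) s v • G.map (psi X) m := by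
  have h := G.map_act (psi X) (locDer (triv X).th v) 1 ![1] ![v] (by
    intro a
    rw [Fin.sum_univ_one]
    change locDer (triv X).th v (algebraMap X.A.R (Lo (triv X).th) a) =
      1 * algebraMap X.A.R (Lo (triv X).th) (v a)
    rw [one_mul, locDer_algebraMap]) m
  rw [Fin.sum_univ_one, map_zero, zero_mul, zero_mul, zero_smul, sub_zero] at h
  have h3 : G.act (triv X).lo (locDer (triv X).th v)
      (G.map (psi X) m) = (1 : Lo (triv X).th) • G.map (psi X) (G.act X v m) := h
  rw [one_smul] at h3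
  rw [h3, tw_triv, zero_smul, sub_zero]

/-- The unit `𝟭 ⟶ B ⋙ J`. -/
def eps2 (L : LieC) (s : ℂ) :
    𝟭 (TDMod (BG L) 0) ⟶ Bfun L s ⋙ Jfun L s where
  app G :=
    { app := fun X =>
        { toFun := G.map (psi X)
          map_add' := map_add (G.map (psi X))
          map_smul' := fun (a : X.A.R) (m : G.M X) => G.map_smul (psi X) a m }
      act := fun X v (m : G.M X) => psi_act s G X v m
      nat := fun {X Y} φ (m : G.M X) => by
        change G.map (psi Y) (G.map φ m) =
          G.map (Lmap (jmap φ)) (G.map (psi X) m)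
        rw [← G.map_comp, ← G.map_comp, psi_nat] }
  naturality G G' f := by
    apply TDMod.hom_ext
    intro X m
    exact (TDMod.Hom.nat f (psi X) m).symm

theorem eps2_qis (L : LieC) (s : ℂ) (K : TCx (BG L) 0) :
    qis (BG L) 0 ((unitCx (Bfun L s) (Jfun L s) (eps2 L s)).app K) := by
  have e1 : ∀ (X : BGObj L) (i : ℤ) (x : K.obj i X),
      K.map (psi' X) i (K.map (psi X) i x) = x := by
    intro X i x
    rw [← K.map_comp, psi_psi', K.map_id]
  have e2 : ∀ (X : BGObj L) (i : ℤ) (x : K.obj i (triv X).lo),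
      K.map (psi X) i (K.map (psi' X) i x) = x := by
    intro X i x
    rw [← K.map_comp, psi'_psi, K.map_id]
  intro X i j k _ _
  constructor
  · rintro x hx ⟨y, hy⟩
    refine ⟨K.map (psi' X) i y, ?_⟩
    have hy' : K.d (triv X).lo i j y = K.map (psi X) j x := hy
    exact (K.d_map (psi' X) i j y).trans ((congrArg (K.map (psi' X) j) hy').trans (e1 X j x))
  · intro y hy
    have hy' : K.d (triv X).lo j k y = 0 := hy
    refine ⟨K.map (psi' X) j y, ?_, 0, ?_⟩
    · exact (K.d_map (psi' X) j k y).trans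
        ((congrArg (K.map (psi' X) k) hy').trans (map_zero _))
    · rw [map_zero, eq_comm, sub_eq_zero]
      exact (e2 X j y).symm

end

end Vale.Agent.P286.Ad
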