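import Mathlib.LinearAlgebra.Matrix.Block
import Mathlib.Algebra.Algebra.Rat
import Mathlib.Tactic

/-!
# P286: diagonalisation of a filtered matrix with a given symbol

A matrix `H` which is lower triangular for the weights `lam`, with the diagonal blocks
`lam j`, is conjugate to the diagonal matrix of the `lam j` by a matrix `1 + (strictly lower)`
whose entries stay in the given filtration.
-/

namespace Vale.Agent.P286.Ad

open Matrix

variable {R : Type} [CommRing R] [Algebra ℚ R] {n : ℕ}

/-- The part of a row of the product which comes from smaller weights. -/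
noncomputable def dgS (lam : Fin n → ℤ) (H W : Matrix (Fin n) (Fin n) R) (k j : Fin n) : R :=
  ∑ i, if lam i < lam k then H k i * W i j else 0

/-- One step of the recursion for the columns of eigenvectors. -/
noncomputable def dgPhi (lam : Fin n → ℤ) (H W : Matrix (Fin n) (Fin n) R) :
    Matrix (Fin n) (Fin n) R := fun k j =>
  if k = j then 1 else if lam j < lam k then
    (((lam k - lam j : ℤ) : ℚ)⁻¹) • (-dgS lam H W k j) else 0

/-- The iterates. -/
noncomputable def dgW (lam : Fin n → ℤ) (H : Matrix (Fin n) (Fin n) R) :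
    ℕ → Matrix (Fin n) (Fin n) R
  | 0 => 1
  | d + 1 => dgPhi lam H (dgW lam H d)

theorem dgW_stable (lam : Fin n → ℤ) (H : Matrix (Fin n) (Fin n) R) (d : ℕ) :
    ∀ k j, lam k - lam j ≤ d → dgW lam H (d + 1) k j = dgW lam H d k j := by
  induction d with
  | zero =>
    intro k j h
    have h' : ¬ lam j < lam k := by
      have : lam k - lam j ≤ 0 := by simpa using h
      omega
    simp only [dgW, dgPhi, if_neg h', Matrix.one_apply]
  | succ d ih =>
    intro k j h
    show dgPhi lam H (dgW lam H (d + 1)) k j = dgPhi lam H (dgW lam H d) k j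
    unfold dgPhi
    by_cases hkj : k = j
    · rw [if_pos hkj, if_pos hkj]
    · rw [if_neg hkj, if_neg hkj]
      by_cases hl : lam j < lam k
      · rw [if_pos hl, if_pos hl]
        have : dgS lam H (dgW lam H (d + 1)) k j = dgS lam H (dgW lam H d) k j := by
          unfold dgS
          refine Finset.sum_congr rfl fun i _ => ?_
          by_cases hi : lam i < lam k
          · rw [if_pos hi, if_pos hi, ih i j (by push_cast at h; omega)]
          · rw [if_neg hi, if_neg hi]
        rw [this]
      · rw [if_neg hl, if_neg hl]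

theorem dgW_diag (lam : Fin n → ℤ) (H : Matrix (Fin n) (Fin n) R) (d : ℕ) (k : Fin n) :
    dgW lam H d k k = 1 := by
  cases d with
  | zero => simp [dgW]
  | succ d => simp [dgW, dgPhi]

theorem dgW_zero (lam : Fin n → ℤ) (H : Matrix (Fin n) (Fin n) R) (d : ℕ) {k j : Fin n}
    (hkj : k ≠ j) (h : lam k ≤ lam j) : dgW lam H d k j = 0 := by
  cases d with
  | zero => simp [dgW, hkj]
  | succ d =>
    show dgPhi lam H (dgW lam H d) k j = 0
    unfold dgPhi
    rw [if_neg hkj, if_neg (by omega)]

theorem dgW_mem (lam : Fin n → ℤ) (F : ℤ → Submodule ℚ R)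
    (hF : ∀ r s x y, x ∈ F r → y ∈ F s → x * y ∈ F (r + s)) (H : Matrix (Fin n) (Fin n) R)
    (hH : ∀ k j, H k j ∈ F (lam k - lam j)) (d : ℕ) :
    ∀ k j, k ≠ j → dgW lam H d k j ∈ F (lam k - lam j) := by
  induction d with
  | zero =>
    intro k j h
    rw [dgW, Matrix.one_apply_ne h]
    exact Submodule.zero_mem _
  | succ d ih =>
    intro k j h
    show dgPhi lam H (dgW lam H d) k j ∈ _
    unfold dgPhi
    rw [if_neg h]
    split_ifs with hl
    · refine Submodule.smul_mem _ _ (Submodule.neg_mem _ ?_)
      unfold dgS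
      refine Submodule.sum_mem _ fun i _ => ?_
      split_ifs with hi
      · by_cases hij : i = j
        · subst hij
          rw [dgW_diag, mul_one]
          exact hH k i
        · have := hF _ _ _ _ (hH k i) (ih i j hij)
          rwa [sub_add_sub_cancel] at this
      · exact Submodule.zero_mem _
    · exact Submodule.zero_mem _

omit [Algebra ℚ R] in
/-- A row of the product. -/
theorem dg_mul_apply (lam : Fin n → ℤ) (H U : Matrix (Fin n) (Fin n) R)
    (h1 : ∀ k j, lam k < lam j → H k j = 0)
    (h2 : ∀ k j, lam k = lam j → H k j = if k = j then ((lam j : ℤ) : R) else 0) (k j : Fin n) :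
    (H * U) k j = dgS lam H U k j + ((lam k : ℤ) : R) * U k j := by
  rw [Matrix.mul_apply, dgS]
  have hk : ((lam k : ℤ) : R) * U k j =
      ∑ i, if i = k then ((lam k : ℤ) : R) * U k j else 0 := by
    rw [Finset.sum_ite_eq' Finset.univ k]
    simp
  rw [hk, ← Finset.sum_add_distrib]
  refine Finset.sum_congr rfl fun i _ => ?_
  rcases lt_trichotomy (lam i) (lam k) with hi | hi | hi
  · have hik : i ≠ k := by
      rintro rfl
      exact lt_irrefl _ hi
    rw [if_pos hi, if_neg hik, add_zero]
  · rw [if_neg (by omega), zero_add, h2 k i hi.symm]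
    by_cases hik : i = k
    · subst hik
      simp
    · rw [if_neg hik, if_neg (fun h => hik h.symm), zero_mul]
  · have hik : i ≠ k := by
      rintro rfl
      exact lt_irrefl _ hi
    rw [if_neg (by omega), if_neg hik, h1 k i hi, zero_mul, add_zero]

theorem exists_diag {R : Type} [CommRing R] [Algebra ℚ R] {n : ℕ} (lam : Fin n → ℤ)
    (F : ℤ → Submodule ℚ R) (hF : ∀ r s x y, x ∈ F r → y ∈ F s → x * y ∈ F (r + s))
    (H : Matrix (Fin n) (Fin n) R) (hH : ∀ k j, H k j ∈ F (lam k - lam j))
    (h1 : ∀ k j, lam k < lam j → H k j = 0)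
    (h2 : ∀ k j, lam k = lam j → H k j = if k = j then ((lam j : ℤ) : R) else 0) :
    ∃ U : Matrix (Fin n) (Fin n) R, H * U = U * Matrix.diagonal (fun i => ((lam i : ℤ) : R)) ∧
      U.det = 1 ∧ (∀ k, U k k = 1) ∧ (∀ k j, k ≠ j → U k j ∈ F (lam k - lam j)) ∧
      (∀ k j, lam k < lam j → U k j = 0) := by
  classical
  obtain ⟨d, hd⟩ : ∃ d : ℕ, ∀ k j, lam k - lam j ≤ d := by
    refine ⟨Finset.univ.sup fun p : Fin n × Fin n => (lam p.1 - lam p.2).toNat, fun k j => ?_⟩
    have := Finset.le_sup (f := fun p : Fin n × Fin n => (lam p.1 - lam p.2).toNat)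
      (Finset.mem_univ (k, j))
    have h3 : (lam k - lam j).toNat ≤
      Finset.univ.sup fun p : Fin n × Fin n => (lam p.1 - lam p.2).toNat := this
    omega
  set U := dgW lam H d with hU
  have hfix : ∀ k j, U k j = dgPhi lam H U k j := fun k j => (dgW_stable lam H d k j (hd k j)).symm
  have hz : ∀ k j, k ≠ j → lam k ≤ lam j → U k j = 0 := fun k j h h' => dgW_zero lam H d h h'
  have hz' : ∀ k j, lam k < lam j → U k j = 0 := fun k j h => hz k j (by
    rintro rfl
    exact lt_irrefl _ h) h.le
  refine ⟨U, ?_, ?_, dgW_diag lam H d, dgW_mem lam F hF H hH d, hz'⟩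
  · ext k j
    rw [dg_mul_apply lam H U h1 h2, Matrix.mul_diagonal]
    by_cases hl : lam j < lam k
    · have hkj : k ≠ j := by
        rintro rfl
        exact lt_irrefl _ hl
      have h3 := hfix k j
      unfold dgPhi at h3
      rw [if_neg hkj, if_pos hl] at h3
      have hne : ((lam k - lam j : ℤ) : ℚ) ≠ 0 := by
        have : lam k - lam j ≠ 0 := by omega
        exact_mod_cast this
      have h4 : ((lam k - lam j : ℤ) : ℚ) • U k j = -dgS lam H U k j := by
        conv_lhs => rw [h3]
        rw [smul_smul, mul_inv_cancel₀ hne, one_smul]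
      have h5 : ((lam k - lam j : ℤ) : ℚ) • U k j =
          ((lam k : ℤ) : R) * U k j - ((lam j : ℤ) : R) * U k j := by
        rw [Algebra.smul_def, map_intCast, Int.cast_sub, sub_mul]
      rw [h5] at h4
      linear_combination h4
    · have hS : dgS lam H U k j = 0 := by
        unfold dgS
        refine Finset.sum_eq_zero fun i _ => ?_
        split_ifs with hi
        · rw [hz' i j (by omega), mul_zero]
        · rfl
      rw [hS, zero_add]
      rcases (not_lt.mp hl).lt_or_eq with h3 | h3
      · rw [hz' k j h3, mul_zero, zero_mul]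
      · rw [h3, mul_comm]
  · have hbt : U.BlockTriangular fun i => OrderDual.toDual (lam i) := by
      intro i j hij
      exact hz' i j (OrderDual.toDual_lt_toDual.mp hij)
    rw [hbt.det]
    refine Finset.prod_eq_one fun a _ => ?_
    have : U.toSquareBlock (fun i => OrderDual.toDual (lam i)) a = 1 := by
      ext i j
      rw [Matrix.toSquareBlock_def, Matrix.of_apply, Matrix.one_apply]
      have hij : lam i.1 = lam j.1 := OrderDual.toDual.injective (i.2.trans j.2.symm)
      by_cases h3 : i = j
      · subst h3
        rw [if_pos rfl]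
        exact dgW_diag lam H d _
      · rw [if_neg h3]
        exact hz _ _ (fun h4 => h3 (Subtype.ext h4)) hij.le
    rw [this, Matrix.det_one]

end Vale.Agent.P286.Ad
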