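import Vale.Agent.P286.Ad.FFourTab

/-!
# P286: the Lie algebra of type F_4, the Jacobi identity, second part
-/

set_option maxRecDepth 100000

namespace Vale.Agent.P286.Ad.FFour

open Vale.Agent.P286.Ad.Sparse

theorem okJ_b : ((List.range 10).all fun i => okJ L (i + 42)) = true := by decide +kernel

end Vale.Agent.P286.Ad.FFour
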