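import Vale.Agent.P286.Ad.Sparse

/-!
# P286: sparse tables, the Killing form with weights
-/

namespace Vale.Agent.P286.Ad.Sparse

/-- The weights `w` are additive. -/
def okW (n : ℕ) (L : ℕ → ℕ → List (ℕ × ℤ)) (w : ℕ → ℤ) : Bool :=
  (List.range n).all fun i => (List.range n).all fun p => (L i p).all fun t =>
    w t.1 == w i + w p

/-- The Killing form is given by the sparse rows `K`; only opposite weights are computed. -/
def okG (n : ℕ) (L : ℕ → ℕ → List (ℕ × ℤ)) (K : ℕ → List (ℕ × ℤ)) (w : ℕ → ℤ) (i : ℕ) : Bool :=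
  (List.range n).all fun j => bif w i + w j == 0 then kap n L i j == co (K i) j
    else co (K i) j == 0

variable {n : ℕ} {L : ℕ → ℕ → List (ℕ × ℤ)}

theorem wt_eq {w : ℕ → ℤ} (hW : okW n L w = true) {i p : ℕ} (hi : i < n) (hp : p < n) {q : ℕ}
    (h : co (L i p) q ≠ 0) : w q = w i + w p := by
  have h1 : ∃ t ∈ L i p, t.1 = q := by
    by_contra hc
    push Not at hc
    refine h ?_
    rw [co_eq]
    refine List.sum_eq_zero fun x hx => ?_
    obtain ⟨t, ht, rfl⟩ := List.mem_map.mp hx
    rw [if_neg (hc t ht)]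
  obtain ⟨t, ht, rfl⟩ := h1
  have h2 := List.all_eq_true.mp hW i (List.mem_range.mpr hi)
  have h3 := List.all_eq_true.mp h2 p (List.mem_range.mpr hp)
  exact eq_of_beq (List.all_eq_true.mp h3 t ht)

theorem kap_zero (hB : okB n L = true) {w : ℕ → ℤ} (hW : okW n L w = true) {i j : ℕ} (hi : i < n)
    (hj : j < n) (h : w i + w j ≠ 0) : kap n L i j = 0 := by
  have h0 := kap_eq hB ⟨i, hi⟩ ⟨j, hj⟩
  rw [h0]
  refine Finset.sum_eq_zero fun p _ => Finset.sum_eq_zero fun q _ => ?_
  by_contra hc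
  have h1 : co (L i p) q ≠ 0 := left_ne_zero_of_mul hc
  have h2 : co (L j q) p ≠ 0 := right_ne_zero_of_mul hc
  have h3 := wt_eq hW hi p.2 h1
  have h4 := wt_eq hW hj q.2 h2
  omega

/-- The check with weights implies the full check. -/
theorem okK_of_okG (hB : okB n L = true) {w : ℕ → ℤ} (hW : okW n L w = true)
    {K : ℕ → List (ℕ × ℤ)} {i : ℕ} (hi : i < n) (hG : okG n L K w i = true) :
    okK n L K i = true := by
  refine List.all_eq_true.mpr fun j hj => ?_
  have h1 := List.all_eq_true.mp hG j hj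
  rw [List.mem_range] at hj
  rcases hb : (w i + w j == 0) with _ | _
  · rw [hb] at h1
    have h2 : w i + w j ≠ 0 := by
      intro h3
      rw [h3] at hb
      exact absurd hb (by decide)
    rw [kap_zero hB hW hi hj h2]
    have h4 : co (K i) j = 0 := eq_of_beq h1
    rw [h4]
    rfl
  · rw [hb] at h1
    exact h1

end Vale.Agent.P286.Ad.Sparse
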