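import Vale.Agent.P286.Ad.FFourJa
import Vale.Agent.P286.Ad.FFourJb
import Vale.Agent.P286.Ad.SparseK

/-!
# P286: the Lie algebra of type F_4 over the integers
-/

set_option maxRecDepth 100000

namespace Vale.Agent.P286.Ad.FFour

open Vale.Agent.P286.Ad.Sparse

theorem okJ_L (i : ℕ) (hi : i < 52) : okJ L i = true := by
  rcases Nat.lt_or_ge i 42 with h | h
  · exact List.all_eq_true.mp okJ_a i (List.mem_range.mpr h)
  · have h1 := List.all_eq_true.mp okJ_b (i - 42) (List.mem_range.mpr (by omega))
    have h2 : i - 42 + 42 = i := by omega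
    rw [h2] at h1
    exact h1

theorem okW_L : okW 52 L wt = true := by decide +kernel

theorem okG_all : ((List.range 52).all fun i => okG 52 L K wt i) = true := by decide +kernel

theorem okI_K : okI 52 K K' 36 = true := by decide +kernel

theorem okK_L (i : ℕ) (hi : i < 52) : okK 52 L K i = true :=
  okK_of_okG okB_L okW_L hi (List.all_eq_true.mp okG_all i (List.mem_range.mpr hi))

/-- The structure constants of the Lie algebra of type `F_4`. -/
def c : Fin 52 → Fin 52 → Fin 52 → ℤ := cst 52 L

theorem c_anti (i j k : Fin 52) : c i j k = - c j i k := cst_anti okA_L i j k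

theorem jacobi (i j k l : Fin 52) :
    ∑ p, (c i j p * c p k l + c j k p * c p i l + c k i p * c p j l) = 0 :=
  cst_jacobi okB_L okA_L okJ_L i j k l

theorem killing : (Matrix.of fun i j : Fin 52 => ∑ p, ∑ q, c i p q * c j q p) *
    (Matrix.of fun i j : Fin 52 => co (K' i) j) = (36 : ℤ) • (1 : Matrix (Fin 52) (Fin 52) ℤ) :=
  cst_killing okB_L okK_L okI_K

theorem killing_det :
    (Matrix.of fun i j : Fin 52 => ∑ p, ∑ q, c i p q * c j q p).det ≠ 0 :=
  cst_killing_det okB_L (by norm_num) okK_L okI_K

end Vale.Agent.P286.Ad.FFour
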