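import Vale.Agent.P286.Ad.Pre
import Vale.Agent.P286.Ad.GTwo
import Vale.Agent.P286.Ad.FFour
import Vale.Agent.P286.Ad.H163.Count

/-!
# Semisimple Lie algebras from tables of structure constants
-/

namespace Vale.Agent.P286.Ad

open Matrix

/-- Antisymmetry, the Jacobi identity and the Killing determinant in elementary form give
`LieC.IsSemisimple`. -/
theorem LieC.IsSemisimple.of_table (L : LieC)
    (anti : ∀ i j k, L.c i j k = - L.c j i k)
    (jac : ∀ i j k l, ∑ p, (L.c i j p * L.c p k l + L.c j k p * L.c p i l +
      L.c k i p * L.c p j l) = 0)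
    (kil : (Matrix.of fun i j => ∑ p, ∑ q, L.c i p q * L.c j q p).det ≠ 0) :
    L.IsSemisimple where
  alt i k := by
    have := anti i i k
    omega
  anti := anti
  jac := jac
  kil := kil

/-- The same for `⟨n, c⟩`. -/
theorem isSemisimple_mk {n : ℕ} (c : Fin n → Fin n → Fin n → ℤ)
    (anti : ∀ i j k, c i j k = - c j i k)
    (jac : ∀ i j k l, ∑ p, (c i j p * c p k l + c j k p * c p i l + c k i p * c p j l) = 0)
    (kil : (Matrix.of fun i j => ∑ p, ∑ q, c i p q * c j q p).det ≠ 0) :
    LieC.IsSemisimple ⟨n, c⟩ :=
  LieC.IsSemisimple.of_table ⟨n, c⟩ anti jac kil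

/-- The Lie algebra of type `G₂`, of dimension 14, in a Chevalley basis. -/
def gTwo : LieC := ⟨14, GTwo.c⟩

theorem gTwo_isSemisimple : gTwo.IsSemisimple :=
  isSemisimple_mk GTwo.c GTwo.c_anti GTwo.jacobi GTwo.killing_det

/-- The Lie algebra of type `F₄`, of dimension 52: the fixed points of the automorphism of the
diagram on the Lie algebra of type `E₆`. -/
def fFour : LieC := ⟨52, FFour.c⟩

theorem fFour_isSemisimple : fFour.IsSemisimple :=
  isSemisimple_mk FFour.c FFour.c_anti FFour.jacobi FFour.killing_det

/-- The Lie algebra of type `E₈`, of dimension 248: the basis consists of the simple coroots and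
of one vector for each of the 240 vectors of norm two of the `E₈` lattice. -/
noncomputable def eEight : LieC := ⟨248, H163.c⟩

theorem eEight_isSemisimple : eEight.IsSemisimple :=
  isSemisimple_mk H163.c H163.c_anti H163.jacobi8 H163.killing_det

end Vale.Agent.P286.Ad
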