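import Vale.Agent.P286.Ad.FFour
import Vale.Agent.P286.Ad.Tables
import Vale.Agent.P286.Ad.Typ

/-!
# P286: Chevalley generators of the Lie algebra of type F_4

The table `FFour.c` has the Cartan matrix `CartanMatrix.F₄` of Mathlib, and the Chevalley generators
`e_i`, `f_i` generate it over the rational numbers.
-/

set_option maxRecDepth 100000

namespace Vale.Agent.P286.Ad

theorem br_neg (L : LieC) (v w : Fin L.n → ℤ) : L.br v (-w) = -L.br v w := by
  have h := L.br_smul_right (-1) v w
  rwa [neg_one_smul, neg_one_smul] at h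

/-- The type, from a table in which `h_i`, `e_i` and `-f_i` belong to the basis. -/
theorem hasType_of_chk_neg (L : LieC) {r : ℕ} (A : Matrix (Fin r) (Fin r) ℤ)
    (h e f : Fin r → Fin L.n) (l : List (Fin L.n × Fin L.n × Fin L.n × ℤ))
    (h1 : ∀ i j k, L.c (h i) (h j) k = 0)
    (h2 : ∀ i j k, L.c (e i) (f j) k = if i = j ∧ k = h i then -1 else 0)
    (h3 : ∀ i j k, L.c (h i) (e j) k = if k = e j then A i j else 0)
    (h4 : ∀ i j k, L.c (h i) (f j) k = if k = f j then -A i j else 0)
    (h5 : chk L.c (List.ofFn e ++ List.ofFn f) l = true) : L.HasType A := by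
  refine ⟨fun i => Pi.single (h i) 1, fun i => Pi.single (e i) 1, fun i => -Pi.single (f i) 1,
    ?_, ?_, ?_, ?_, ?_, ?_⟩
  · intro i hi
    have h0 : (Pi.single (h i) 1 : Fin L.n → ℤ) (h i) = 0 := congrFun hi (h i)
    rw [Pi.single_eq_same] at h0
    exact one_ne_zero h0
  · intro i j
    rw [L.br_single]
    funext k
    exact h1 i j k
  · intro i j
    rw [br_neg, L.br_single]
    funext k
    rw [Pi.neg_apply, h2]
    by_cases hij : i = j
    · rw [if_pos hij]
      show _ = (Pi.single (h i) 1 : Fin L.n → ℤ) k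
      by_cases hk : k = h i
      · rw [if_pos ⟨hij, hk⟩, hk, Pi.single_eq_same, neg_neg]
      · rw [if_neg (fun h => hk h.2), Pi.single_eq_of_ne hk, neg_zero]
    · rw [if_neg hij, if_neg (fun h => hij h.1), neg_zero]
      rfl
  · intro i j
    rw [L.br_single]
    funext k
    rw [h3]
    show _ = A i j • (Pi.single (e j) 1 : Fin L.n → ℤ) k
    by_cases hk : k = e j
    · rw [if_pos hk, hk, Pi.single_eq_same, smul_eq_mul, mul_one]
    · rw [if_neg hk, Pi.single_eq_of_ne hk, smul_zero]
  · intro i j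
    rw [br_neg, L.br_single]
    funext k
    rw [Pi.neg_apply, h4]
    show _ = -(A i j • -(Pi.single (f j) 1 : Fin L.n → ℤ) k)
    by_cases hk : k = f j
    · rw [if_pos hk, hk, Pi.single_eq_same, smul_eq_mul]
      ring
    · rw [if_neg hk, Pi.single_eq_of_ne hk, neg_zero, smul_zero]
      rfl
  · intro W hE hF hW
    refine gen_of_basis L W (gen_of_chk L W hW l _ ?_ h5)
    intro k hk
    rcases List.mem_append.1 hk with hk | hk
    · obtain ⟨i, rfl⟩ := (List.mem_ofFn' _ _).1 hk
      exact ⟨1, one_ne_zero, by rw [one_smul]; exact hE i⟩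
    · obtain ⟨i, rfl⟩ := (List.mem_ofFn' _ _).1 hk
      exact ⟨-1, by norm_num, by rw [neg_one_smul]; exact hF i⟩

namespace FFour

open Vale.Agent.P286.Ad.Sparse

/-- The indices of the coroots. -/
def gH : Fin 4 → Fin 52 := ![2, 3, 0, 1]

/-- The indices of the simple root vectors. -/
def gE : Fin 4 → Fin 52 := ![5, 6, 7, 4]

/-- The indices of the opposite simple root vectors. -/
def gF : Fin 4 → Fin 52 := ![29, 30, 31, 28]

/-- The list has only terms at `r`, with the sum `m`. -/
def one (l : List (ℕ × ℤ)) (r : ℕ) (m : ℤ) : Bool :=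
  (l.all fun t => Nat.beq t.1 r) && co l r == m

theorem co_one {l : List (ℕ × ℤ)} {r : ℕ} {m : ℤ} (h : one l r m = true) (k : ℕ) :
    co l k = if k = r then m else 0 := by
  rw [one, Bool.and_eq_true, List.all_eq_true, beq_iff_eq] at h
  by_cases hk : k = r
  · rw [if_pos hk, hk, h.2]
  · rw [if_neg hk, co_eq]
    refine List.sum_eq_zero fun x hx => ?_
    obtain ⟨t, ht, rfl⟩ := List.mem_map.mp hx
    have := Nat.eq_of_beq_eq_true (h.1 t ht)
    rw [if_neg]
    omega

theorem c_one {i j r : Fin 52} {m : ℤ} (h : one (L i j) r m = true) (k : Fin 52) :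
    c i j k = if k = r then m else 0 := by
  have h1 := co_one h (k : ℕ)
  simp only [Fin.val_inj] at h1
  exact h1

theorem chk_hh : ∀ i j : Fin 4, one (L (gH i) (gH j)) 0 0 = true := by decide +kernel

theorem chk_he : ∀ i j : Fin 4, one (L (gH i) (gE j)) (gE j) (CartanMatrix.F₄ i j) = true := by
  decide +kernel

theorem chk_hf : ∀ i j : Fin 4, one (L (gH i) (gF j)) (gF j) (-CartanMatrix.F₄ i j) = true := by
  decide +kernel

theorem chk_ef : ∀ i j : Fin 4, one (L (gE i) (gF j)) (gH i) (if i = j then -1 else 0) = true := by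
  decide +kernel

theorem hh (i j : Fin 4) (k : Fin 52) : c (gH i) (gH j) k = 0 := by
  have h := co_one (chk_hh i j) (k : ℕ)
  rw [ite_self] at h
  exact h

theorem he (i j : Fin 4) (k : Fin 52) :
    c (gH i) (gE j) k = if k = gE j then CartanMatrix.F₄ i j else 0 :=
  c_one (chk_he i j) k

theorem hf (i j : Fin 4) (k : Fin 52) :
    c (gH i) (gF j) k = if k = gF j then -CartanMatrix.F₄ i j else 0 :=
  c_one (chk_hf i j) k

theorem ef (i j : Fin 4) (k : Fin 52) :
    c (gE i) (gF j) k = if i = j ∧ k = gH i then -1 else 0 := by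
  rw [c_one (chk_ef i j) k]
  by_cases h : i = j <;> by_cases h' : k = gH i <;> simp [h, h']

/-- A chain of brackets `(i, j, k, m)`, `[x_i, x_j] = m x_k`, which reaches all the basis. -/
def chain : List (Fin 52 × Fin 52 × Fin 52 × ℤ) :=
  [(5, 29, 2, -1), (6, 30, 3, -1), (7, 31, 0, -1), (4, 28, 1, -1), (5, 6, 8, -1), (7, 4, 9, 1),
    (6, 7, 10, -1), (6, 9, 11, -1), (5, 10, 12, -1), (6, 10, 13, -2), (5, 11, 14, -1),
    (6, 11, 15, -2), (5, 13, 16, -1), (5, 15, 17, -1), (7, 15, 18, -1), (5, 16, 19, -2),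
    (5, 18, 20, -1), (5, 17, 21, -2), (6, 20, 22, -1), (5, 20, 23, -2), (5, 22, 24, -1),
    (6, 24, 25, -2), (7, 25, 26, 1), (4, 26, 27, 1), (29, 30, 32, -1), (31, 28, 33, 1),
    (30, 31, 34, -1), (30, 33, 35, -1), (29, 34, 36, -1), (30, 34, 37, -2), (29, 35, 38, -1),
    (30, 35, 39, -2), (29, 37, 40, -1), (29, 39, 41, -1), (31, 39, 42, -1), (29, 40, 43, -2),
    (29, 42, 44, -1), (29, 41, 45, -2), (30, 44, 46, -1), (29, 44, 47, -2), (29, 46, 48, -1),
    (30, 48, 49, -2), (31, 49, 50, 1), (28, 50, 51, 1)]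

theorem chk_chain : chk c (List.ofFn gE ++ List.ofFn gF) chain = true := by decide +kernel

end FFour

/-- The type of `fFour`. -/
theorem fFour_hasType : fFour.HasType CartanMatrix.F₄ :=
  hasType_of_chk_neg ⟨52, FFour.c⟩ CartanMatrix.F₄ FFour.gH FFour.gE FFour.gF FFour.chain
    FFour.hh FFour.ef FFour.he FFour.hf FFour.chk_chain

end Vale.Agent.P286.Ad
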