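import Vale.Agent.P286.Ad.FFourTab

/-!
# P286: the Lie algebra of type F_4, the Jacobi identity, first part
-/

set_option maxRecDepth 100000

namespace Vale.Agent.P286.Ad.FFour

open Vale.Agent.P286.Ad.Sparse

theorem okB_L : okB 52 L = true := by decide +kernel

theorem okA_L : okA 52 L = true := by decide +kernel

theorem okJ_a : ((List.range 42).all fun i => okJ L i) = true := by decide +kernel

end Vale.Agent.P286.Ad.FFour
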