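import Vale.Agent.P286.Ad.Br

/-! Canonical factorisation of `G`-bundles where the Toeplitz operator is invertible. -/

namespace Vale.Agent.P286.Ad

open LaurentPolynomial Matrix

noncomputable section

variable {L : LieC} {A B : Type} [CommRing A] [CommRing B]

/-- The underlying element of `GL_N`. -/
def SG.gl (g : SG L A) : Matrix.GeneralLinearGroup (Fin L.n) A := Matrix.SpecialLinearGroup.toGL g.sl

theorem SG.gl_val (g : SG L A) : (g.gl : Matrix (Fin L.n) (Fin L.n) A) = g.m := rfl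

theorem mp_lmap (f : A →+* B) (g : SG L A[T;T⁻¹]) : (som L (lmap f) g).m = mp f g.m := rfl

theorem exists_pos (X : Matrix (Fin L.n) (Fin L.n) A[T;T⁻¹]) (h : MGE 0 X) (hd : X.det = 1)
    (ho : L.IsAut X) : ∃ a : SG L (Polynomial A), (pos L A a).m = X := by
  obtain ⟨a, ha⟩ := exists_posGL X h hd
  have ha' : (a : Matrix (Fin L.n) (Fin L.n) (Polynomial A)).map (Polynomial.toLaurent (R := A)) = X := ha
  refine ⟨⟨a.1, a.2, ?_⟩, ha'⟩
  show L.IsAut (a : Matrix (Fin L.n) (Fin L.n) (Polynomial A))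
  refine LieC.IsAut.of_map (Polynomial.toLaurent (R := A)) Polynomial.toLaurent_injective ?_
  rw [ha']
  exact ho

theorem exists_neg (X : Matrix (Fin L.n) (Fin L.n) A[T;T⁻¹]) (h : MLE 0 X) (hd : X.det = 1)
    (ho : L.IsAut X) : ∃ a : SG L (Polynomial A), (neg L A a).m = X := by
  obtain ⟨a, ha⟩ := exists_negGL X h hd
  have ha' : (a : Matrix (Fin L.n) (Fin L.n) (Polynomial A)).map (ringNeg A) = X := ha
  refine ⟨⟨a.1, a.2, ?_⟩, ha'⟩
  show L.IsAut (a : Matrix (Fin L.n) (Fin L.n) (Polynomial A))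
  refine LieC.IsAut.of_map (ringNeg A) ringNeg_injective ?_
  rw [ha']
  exact ho

theorem ev0_m (a : SG L (Polynomial A)) : (ev0 L A a).m = cf 0 (pos L A a).m := by
  ext i j
  show Polynomial.constantCoeff (a.m i j) = (Polynomial.toLaurent (a.m i j)).coeff 0
  rw [LaurentPolynomial.coeff_toLaurent]
  exact (Finsupp.mapDomain_apply (Nat.castEmbedding (R := ℤ)).injective
    (a.m i j).toFinsupp.coeff 0).symm

theorem exists_solution (g : Matrix (Fin L.n) (Fin L.n) B[T;T⁻¹]) (hu : IsUnit (vtoep g)) :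
    ∃ x : Fin L.n → Jx L →₀ B, ∀ j, vpart L B (g *ᵥ toVec L B (x j)) =
      vpart L B (Pi.single j 1) := by
  obtain ⟨u, hu⟩ := hu
  refine ⟨fun j => ((u⁻¹ : (Module.End B (Jx L →₀ B))ˣ) : Module.End B (Jx L →₀ B))
      (vpart L B (Pi.single j 1)), fun j => ?_⟩
  have h := LinearMap.congr_fun (Units.mul_inv u) (vpart L B (Pi.single j 1))
  rw [hu] at h
  simp only
  rw [← vtoep_apply]
  exact h

theorem exists_columns (g : Matrix (Fin L.n) (Fin L.n) B[T;T⁻¹]) (hu : IsUnit (vtoep g)) :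
    ∃ Y : Matrix (Fin L.n) (Fin L.n) B[T;T⁻¹], MLE 0 Y ∧ MGE 1 (g * Y - 1) := by
  obtain ⟨x, hx⟩ := exists_solution g hu
  refine ⟨Matrix.of fun i j => toVec L B (x j) i, fun i j => toVec_VLE (x j) i, ?_⟩
  intro i j
  have h2 : VLE 0 (Pi.single j 1 : Fin L.n → B[T;T⁻¹]) := by
    intro p
    rw [Pi.single_apply]
    split_ifs
    · exact LE.one
    · exact LE.zero _
  have h3 := sub_toVec_vpart (g *ᵥ toVec L B (x j)) i
  rw [hx, toVec_vpart h2] at h3
  have h4 : (g * (Matrix.of fun i j => toVec L B (x j) i) - 1) i j =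
      (g *ᵥ toVec L B (x j) - (Pi.single j 1 : Fin L.n → B[T;T⁻¹])) i := by
    rw [Matrix.sub_apply, Pi.sub_apply, Pi.single_apply, Matrix.one_apply]
    rfl
  rw [h4]
  exact h3

theorem cf_adjugate {X : Matrix (Fin L.n) (Fin L.n) B[T;T⁻¹]} (hX : MGE 0 X) (hX1 : X.det = 1)
    (hX0 : cf 0 X = 1) : cf 0 X.adjugate = 1 := by
  have h6 := hX.adjugate.cf_mul hX
  rw [adjugate_mul_self hX1, add_zero, cf_one, hX0, Matrix.mul_one] at h6
  exact h6.symm

theorem cf_trb {X : Matrix (Fin L.n) (Fin L.n) B[T;T⁻¹]} (hX : MGE 0 X) (i : Fin L.n) :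
    cf 0 (trb L X i) = cf 0 X.adjugate * ((L.adv fun p => cf 0 X p i) * cf 0 X) := by
  have h3 : VGE 0 (fun p => X p i) := fun p => hX p i
  have h7 := (adv_MGE h3).cf_mul hX
  have h8 := hX.adjugate.cf_mul ((adv_MGE h3).mul hX)
  rw [add_zero, add_zero] at h8
  rw [add_zero] at h7
  rw [trb, h8, h7, cf_adv]
  rfl

theorem cf_trb_one {X : Matrix (Fin L.n) (Fin L.n) B[T;T⁻¹]} (hX : MGE 0 X) (hX1 : X.det = 1)
    (hX0 : cf 0 X = 1) (i : Fin L.n) : cf 0 (trb L X i) = L.ad B i := by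
  rw [cf_trb hX, cf_adjugate hX hX1 hX0, hX0, Matrix.one_mul, Matrix.mul_one]
  exact L.adv_single i

theorem isAut_of_pos {X : Matrix (Fin L.n) (Fin L.n) B[T;T⁻¹]} (hX : MGE 0 X) (hX1 : X.det = 1)
    (hX0 : cf 0 X = 1) (h : ∀ i, MLE 0 (trb L X i)) (i : Fin L.n) :
    trb L X i = L.ad B[T;T⁻¹] i := by
  rw [eq_map_C (h i) (trb_MGE hX i), cf_trb_one hX hX1 hX0, ad_eq_map_C]

/-- Where the Toeplitz operator of `Ad g` is invertible the bundle is trivial, with a
canonical trivialisation. -/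
theorem exists_fact (g : SG L B[T;T⁻¹]) (hu : IsUnit (toep g)) :
    ∃ a b : SG L (Polynomial B), g * neg L B b = pos L B a ∧ ev0 L B a = 1 := by
  obtain ⟨Y, hYL, h1⟩ := exists_columns g.m hu
  obtain ⟨X, hX⟩ : ∃ X, X = g.m * Y := ⟨_, rfl⟩
  rw [← hX] at h1
  have hXG : MGE 0 X := by
    have := (h1.mono (show (0 : ℤ) ≤ 1 by norm_num)).add MGE.one
    simpa using this
  have hX0 : cf 0 X = 1 := by
    have := h1.cf_eq (show (0 : ℤ) < 1 by norm_num)
    rw [cf_sub, cf_one, sub_eq_zero] at this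
    exact this
  have hdet : X.det = Y.det := by rw [hX, Matrix.det_mul, SG.det_m, one_mul]
  have hdX : X.det = 1 := by
    have h2 : LE 0 X.det := by rw [hdet]; exact hYL.det.1
    rw [eq_C_of_LE_GE h2 hXG.det.1, hXG.det.2, hX0, Matrix.det_one, map_one]
  have hdY : Y.det = 1 := by rw [← hdet, hdX]
  have htr : ∀ i, trb L X i = trb L Y i := fun i => by
    rw [hX]
    exact trb_mul_left g.aut g.det_m i
  have hc : ∀ i, trb L X i = L.ad B[T;T⁻¹] i := isAut_of_pos hXG hdX hX0 fun i => by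
    rw [htr]
    exact trb_MLE hYL i
  obtain ⟨a, ha⟩ := exists_pos X hXG hdX (isAut_iff_trb hdX hc)
  obtain ⟨b, hb⟩ := exists_neg Y hYL hdY (isAut_iff_trb hdY fun i => by rw [← htr, hc])
  refine ⟨a, b, ?_, ?_⟩
  · apply SG.ext'
    rw [SG.m_mul, ha, hb, hX]
  · apply SG.ext'
    rw [ev0_m, ha, hX0, SG.m_one]

end

end Vale.Agent.P286.Ad
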