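import Vale.Agent.P286.Ad.Tables
import Vale.Agent.P286.Ad.Typ

/-!
# The Lie algebra `gTwo` is of type `G₂`
-/

namespace Vale.Agent.P286.Ad

open Matrix

/-- A chain of brackets from the generators `x_2, x_3, x_8, x_9`. -/
def gTwoChain : List (Fin 14 × Fin 14 × Fin 14 × ℤ) :=
  [(2, 8, 0, 1), (3, 9, 1, 1), (2, 3, 4, -1), (2, 4, 5, 2), (2, 5, 6, 3), (3, 6, 7, 1),
    (8, 9, 10, 1), (8, 10, 11, -2), (8, 11, 12, -3), (9, 12, 13, -1)]

theorem gTwo_hasType : gTwo.HasType CartanMatrix.G₂ := by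
  refine hasType_of_chk gTwo CartanMatrix.G₂ (![0, 1] : Fin 2 → Fin 14) (![2, 3] : Fin 2 → Fin 14)
    (![8, 9] : Fin 2 → Fin 14) gTwoChain ?_ ?_ ?_ ?_ ?_
  · exact (by decide +kernel : ∀ (i j : Fin 2) (k : Fin 14),
      GTwo.c ((![0, 1] : Fin 2 → Fin 14) i) ((![0, 1] : Fin 2 → Fin 14) j) k = 0)
  · exact (by decide +kernel : ∀ (i j : Fin 2) (k : Fin 14),
      GTwo.c ((![2, 3] : Fin 2 → Fin 14) i) ((![8, 9] : Fin 2 → Fin 14) j) k =
        if i = j ∧ k = (![0, 1] : Fin 2 → Fin 14) i then 1 else 0)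
  · exact (by decide +kernel : ∀ (i j : Fin 2) (k : Fin 14),
      GTwo.c ((![0, 1] : Fin 2 → Fin 14) i) ((![2, 3] : Fin 2 → Fin 14) j) k =
        if k = (![2, 3] : Fin 2 → Fin 14) j then CartanMatrix.G₂ i j else 0)
  · exact (by decide +kernel : ∀ (i j : Fin 2) (k : Fin 14),
      GTwo.c ((![0, 1] : Fin 2 → Fin 14) i) ((![8, 9] : Fin 2 → Fin 14) j) k =
        if k = (![8, 9] : Fin 2 → Fin 14) j then -CartanMatrix.G₂ i j else 0)
  · exact (by decide +kernel : chk GTwo.c (List.ofFn (![2, 3] : Fin 2 → Fin 14) ++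
      List.ofFn (![8, 9] : Fin 2 → Fin 14)) gTwoChain = true)

end Vale.Agent.P286.Ad
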