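import Mathlib

/-!
# P286: the grading derivation of a graded Lie algebra with unimodular Killing form is inner

`γ i` is the matrix of `ad e_i`; the entry `γ i k j` is the coefficient of `e_k` in `[e_i, e_j]`.
-/

open Matrix

namespace Vale.Agent.P286.Ad

variable {R : Type} [CommRing R] {n : ℕ}

/-- A derivation which is orthogonal to all `ad e_j` vanishes. -/
theorem der_zero (γ : Fin n → Matrix (Fin n) (Fin n) R)
    (hJ : ∀ i j, γ i * γ j - γ j * γ i = ∑ k, γ i k j • γ k)
    (hK : IsUnit (Matrix.of fun i j => (γ i * γ j).trace).det) (D : Matrix (Fin n) (Fin n) R)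
    (hD : ∀ i, D * γ i - γ i * D = ∑ k, D k i • γ k) (h0 : ∀ j, (D * γ j).trace = 0) : D = 0 := by
  set κ : Matrix (Fin n) (Fin n) R := Matrix.of fun i j => (γ i * γ j).trace with hκ
  have h1 : Dᵀ * κ = 0 := by
    ext i j
    have h2 : (Dᵀ * κ) i j = ((D * γ i - γ i * D) * γ j).trace := by
      rw [hD i, Matrix.mul_apply, Finset.sum_mul, Matrix.trace_sum]
      refine Finset.sum_congr rfl fun k _ => ?_
      rw [Matrix.transpose_apply, Matrix.smul_mul, Matrix.trace_smul, smul_eq_mul]
      rfl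
    have h3 : ((D * γ i - γ i * D) * γ j).trace = (D * (γ i * γ j - γ j * γ i)).trace := by
      rw [Matrix.sub_mul, Matrix.mul_sub, Matrix.trace_sub, Matrix.trace_sub, Matrix.mul_assoc,
        Matrix.mul_assoc (γ i), Matrix.trace_mul_comm (γ i), Matrix.mul_assoc D (γ j)]
    rw [h2, h3, hJ i j, Matrix.mul_sum, Matrix.trace_sum, Matrix.zero_apply]
    refine Finset.sum_eq_zero fun k _ => ?_
    rw [Matrix.mul_smul, Matrix.trace_smul, h0 k, smul_zero]
  have h2 : Dᵀ = 0 := by
    calc Dᵀ = Dᵀ * κ * κ⁻¹ := by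
          rw [Matrix.mul_assoc, Matrix.mul_nonsing_inv κ hK, Matrix.mul_one]
      _ = 0 := by rw [h1, Matrix.zero_mul]
  rw [← Matrix.transpose_transpose D, h2, Matrix.transpose_zero]

/-- Every derivation is inner. -/
theorem der_inner (γ : Fin n → Matrix (Fin n) (Fin n) R)
    (hJ : ∀ i j, γ i * γ j - γ j * γ i = ∑ k, γ i k j • γ k)
    (hK : IsUnit (Matrix.of fun i j => (γ i * γ j).trace).det) (D : Matrix (Fin n) (Fin n) R)
    (hD : ∀ i, D * γ i - γ i * D = ∑ k, D k i • γ k) :
    ∃ h : Fin n → R, ∑ i, h i • γ i = D := by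
  set κ : Matrix (Fin n) (Fin n) R := Matrix.of fun i j => (γ i * γ j).trace with hκ
  set φ : Fin n → R := fun j => (D * γ j).trace with hφ
  refine ⟨φ ᵥ* κ⁻¹, ?_⟩
  set h : Fin n → R := φ ᵥ* κ⁻¹ with hh
  have hhκ : h ᵥ* κ = φ := by
    rw [hh, Matrix.vecMul_vecMul, Matrix.nonsing_inv_mul κ hK, Matrix.vecMul_one]
  have h1 : D - ∑ i, h i • γ i = 0 := by
    refine der_zero γ hJ hK _ (fun i => ?_) (fun j => ?_)
    · rw [Matrix.sub_mul, Matrix.mul_sub, Finset.sum_mul, Finset.mul_sum]
      have h2 : (D * γ i - ∑ l, h l • γ l * γ i) - (γ i * D - ∑ l, γ i * h l • γ l) =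
          (D * γ i - γ i * D) - ∑ l, h l • (γ l * γ i - γ i * γ l) := by
        simp only [Matrix.smul_mul, Matrix.mul_smul, smul_sub, Finset.sum_sub_distrib]
        abel
      rw [h2, hD i]
      simp only [hJ, Matrix.sub_apply, Matrix.sum_apply, Matrix.smul_apply, sub_smul,
        Finset.sum_sub_distrib, Finset.smul_sum, Finset.sum_smul, smul_eq_mul, mul_smul]
      rw [Finset.sum_comm]
    · rw [Matrix.sub_mul, Matrix.trace_sub, Finset.sum_mul, Matrix.trace_sum]
      have h2 : ∑ i, (h i • γ i * γ j).trace = (h ᵥ* κ) j := by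
        rw [Matrix.vecMul, dotProduct]
        refine Finset.sum_congr rfl fun i _ => ?_
        rw [Matrix.smul_mul, Matrix.trace_smul, smul_eq_mul]
        rfl
      rw [h2, hhκ, hφ, sub_self]
  exact (sub_eq_zero.1 h1).symm

/-- **The grading derivation is inner.** -/
theorem inner_grading {R : Type} [CommRing R] {n : ℕ} (γ : Fin n → Matrix (Fin n) (Fin n) R)
    (hJ : ∀ i j, γ i * γ j - γ j * γ i = ∑ k, γ i k j • γ k)
    (hK : IsUnit (Matrix.of fun i j => (γ i * γ j).trace).det) (lam : Fin n → ℤ)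
    (hgr : ∀ i k j, lam k ≠ lam i + lam j → γ i k j = 0) :
    ∃ h : Fin n → R, (∀ i, lam i ≠ 0 → h i = 0) ∧
      ∑ i, h i • γ i = Matrix.diagonal fun i => ((lam i : ℤ) : R) := by
  classical
  have hD : ∀ i, (Matrix.diagonal fun i => ((lam i : ℤ) : R)) * γ i -
      γ i * (Matrix.diagonal fun i => ((lam i : ℤ) : R)) =
      ∑ k, (Matrix.diagonal fun i => ((lam i : ℤ) : R)) k i • γ k := by
    intro i
    have h1 : ∑ k, (Matrix.diagonal fun i => ((lam i : ℤ) : R)) k i • γ k =
        ((lam i : ℤ) : R) • γ i := by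
      rw [Finset.sum_eq_single i]
      · rw [Matrix.diagonal_apply_eq]
      · intro k _ hk
        rw [Matrix.diagonal_apply_ne _ hk, zero_smul]
      · intro h2
        exact absurd (Finset.mem_univ i) h2
    rw [h1]
    ext k j
    rw [Matrix.sub_apply, Matrix.diagonal_mul, Matrix.mul_diagonal, Matrix.smul_apply,
      smul_eq_mul]
    by_cases h2 : lam k = lam i + lam j
    · rw [h2]
      push_cast
      ring
    · rw [hgr i k j h2]
      ring
  obtain ⟨h, hh⟩ := der_inner γ hJ hK _ hD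
  refine ⟨fun i => if lam i = 0 then h i else 0, fun i hi => if_neg hi, ?_⟩
  ext k j
  have h1 := congrFun (congrFun hh k) j
  rw [Matrix.sum_apply] at h1 ⊢
  simp only [Matrix.smul_apply, smul_eq_mul] at h1 ⊢
  by_cases hkj : lam k = lam j
  · rw [← h1]
    refine Finset.sum_congr rfl fun i _ => ?_
    split_ifs with h2
    · rfl
    · rw [hgr i k j (by omega), mul_zero, mul_zero]
  · rw [Matrix.diagonal_apply_ne _ (fun h2 => hkj (by rw [h2]))]
    refine Finset.sum_eq_zero fun i _ => ?_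
    split_ifs with h2
    · rw [hgr i k j (by omega), mul_zero]
    · rw [zero_mul]

end Vale.Agent.P286.Ad
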