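import Vale.Agent.P286.H211.Laurent
import Vale.Agent.P286.Ad.InnerGrading
import Vale.Agent.P286.Ad.ExistsDiag

/-!
# P286: a filtered Lie algebra with unimodular Killing form is graded

`C i` is the matrix of the bracket with the `i`-th basis vector; its entries are polynomials in
`z` of degree at most `lam k - lam i - lam j`.  There is a matrix `U` (filtered, unipotent) such
that the bracket is graded in the basis of the columns of `U`.
-/

namespace Vale.Agent.P286.Ad

open LaurentPolynomial Matrix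

section Fl

variable {A : Type} [CommRing A]

/-- `x` is a polynomial in `z` of degree at most `r` (`0` if `r < 0`). -/
def Fl (r : ℤ) (x : A[T;T⁻¹]) : Prop := GE 0 x ∧ LE r x

theorem Fl.zero (r : ℤ) : Fl r (0 : A[T;T⁻¹]) := ⟨GE.zero _, LE.zero _⟩

theorem Fl.one : Fl 0 (1 : A[T;T⁻¹]) := ⟨GE.one, LE.one⟩

theorem Fl.const (a : A) : Fl 0 (LaurentPolynomial.C a) := ⟨GE.C a, LE.C a⟩

theorem Fl.add {r : ℤ} {x y : A[T;T⁻¹]} (hx : Fl r x) (hy : Fl r y) : Fl r (x + y) :=
  ⟨hx.1.add hy.1, hx.2.add hy.2⟩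

theorem Fl.sum {ι : Type*} (s : Finset ι) {r : ℤ} {x : ι → A[T;T⁻¹]} (hx : ∀ i ∈ s, Fl r (x i)) :
    Fl r (∑ i ∈ s, x i) := ⟨GE.sum s fun i hi => (hx i hi).1, LE.sum s fun i hi => (hx i hi).2⟩

theorem Fl.mul {r s : ℤ} {x y : A[T;T⁻¹]} (hx : Fl r x) (hy : Fl s y) : Fl (r + s) (x * y) :=
  ⟨by simpa using hx.1.mul hy.1, hx.2.mul hy.2⟩

theorem Fl.eq_zero {r : ℤ} {x : A[T;T⁻¹]} (hx : Fl r x) (hr : r < 0) : x = 0 := by
  ext m
  rw [AddMonoidAlgebra.coeff_zero, Finsupp.zero_apply]
  rcases lt_or_ge m 0 with h | h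
  · exact hx.1 m h
  · exact hx.2 m (by omega)

theorem Fl.eq_C {x : A[T;T⁻¹]} (hx : Fl 0 x) : x = LaurentPolynomial.C (x.coeff 0) :=
  eq_C_of_LE_GE hx.2 hx.1

/-- The filtration. -/
def flS (A : Type) [CommRing A] [Algebra ℚ A] (r : ℤ) : Submodule ℚ A[T;T⁻¹] where
  carrier := {x | Fl r x}
  zero_mem' := Fl.zero r
  add_mem' hx hy := hx.add hy
  smul_mem' q x hx := by
    have h : q • x = LaurentPolynomial.C (algebraMap ℚ A q) * x := by
      rw [Algebra.smul_def]
      rfl
    show Fl r (q • x)
    rw [h]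
    have h2 := (Fl.const (algebraMap ℚ A q)).mul hx
    rwa [zero_add] at h2

end Fl

section Det

variable {R : Type} [CommRing R] {n : ℕ}

/-- A matrix `M` with `M i j = 0` for `lam i + lam j > 0`, `∑ lam = 0`, has the determinant of
its part of degree `0`. -/
theorem det_symbol (lam : Fin n → ℤ) (hs : ∑ i, lam i = 0) (M : Matrix (Fin n) (Fin n) R)
    (hM : ∀ i j, 0 < lam i + lam j → M i j = 0) :
    M.det = (Matrix.of fun i j => if lam i + lam j = 0 then M i j else 0).det := by
  classical
  rw [Matrix.det_apply, Matrix.det_apply]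
  refine Finset.sum_congr rfl fun σ _ => ?_
  congr 1
  by_cases h : ∀ i, lam (σ i) + lam i = 0
  · refine Finset.prod_congr rfl fun i _ => ?_
    rw [Matrix.of_apply, if_pos (h i)]
  · push Not at h
    obtain ⟨i0, hi0⟩ := h
    have hsum : ∑ i, (lam (σ i) + lam i) = 0 := by
      rw [Finset.sum_add_distrib, Equiv.sum_comp σ lam, hs, add_zero]
    have hpos : ∃ i, 0 < lam (σ i) + lam i := by
      by_contra hcon
      push Not at hcon
      have := (Finset.sum_eq_zero_iff_of_nonpos (s := Finset.univ)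
        (f := fun i => lam (σ i) + lam i) (fun i _ => hcon i)).1 hsum i0 (Finset.mem_univ _)
      exact hi0 this
    obtain ⟨i1, hi1⟩ := hpos
    have e1 : ∏ i, M (σ i) i = 0 := Finset.prod_eq_zero (Finset.mem_univ i1) (hM _ _ hi1)
    have e2 : ∏ i, (Matrix.of fun i j => if lam i + lam j = 0 then M i j else 0) (σ i) i = 0 :=
      Finset.prod_eq_zero (Finset.mem_univ i0) (by rw [Matrix.of_apply, if_neg hi0])
    exact e1.trans e2.symm

end Det

section Ad

variable {R : Type} [CommRing R] {n : ℕ}

/-- The matrix of the bracket with `u`. -/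
def adv (C : Fin n → Matrix (Fin n) (Fin n) R) (u : Fin n → R) : Matrix (Fin n) (Fin n) R :=
  ∑ p, u p • C p

theorem adv_add (C : Fin n → Matrix (Fin n) (Fin n) R) (u v : Fin n → R) :
    adv C (u + v) = adv C u + adv C v := by
  unfold adv
  simp only [Pi.add_apply, add_smul, Finset.sum_add_distrib]

theorem adv_smul (C : Fin n → Matrix (Fin n) (Fin n) R) (a : R) (u : Fin n → R) :
    adv C (a • u) = a • adv C u := by
  unfold adv
  rw [Finset.smul_sum]
  simp only [Pi.smul_apply, smul_eq_mul, mul_smul]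

theorem adv_sum {ι : Type*} (s : Finset ι) (C : Fin n → Matrix (Fin n) (Fin n) R)
    (u : ι → Fin n → R) : adv C (∑ i ∈ s, u i) = ∑ i ∈ s, adv C (u i) := by
  unfold adv
  rw [Finset.sum_comm]
  refine Finset.sum_congr rfl fun p _ => ?_
  rw [Finset.sum_apply, Finset.sum_smul]

/-- The Jacobi identity for vectors. -/
theorem jac (C : Fin n → Matrix (Fin n) (Fin n) R)
    (hJ : ∀ i j, C i * C j - C j * C i = ∑ k, C i k j • C k) (u v : Fin n → R) :
    adv C u * adv C v - adv C v * adv C u = adv C (adv C u *ᵥ v) := by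
  have h1 : adv C u *ᵥ v = ∑ i, ∑ j, (u i * v j) • fun k => C i k j := by
    ext k
    simp only [Matrix.mulVec, dotProduct, adv, Matrix.sum_apply, Matrix.smul_apply, smul_eq_mul,
      Finset.sum_apply, Pi.smul_apply, Finset.sum_mul]
    rw [Finset.sum_comm]
    refine Finset.sum_congr rfl fun i _ => Finset.sum_congr rfl fun j _ => ?_
    ring
  rw [h1, adv_sum]
  simp only [adv_sum, adv_smul]
  have h2 : ∀ i j, adv C (fun k => C i k j) = C i * C j - C j * C i := fun i j => (hJ i j).symm
  simp only [h2, smul_sub, Finset.sum_sub_distrib]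
  congr 1
  · unfold adv
    rw [Finset.sum_mul]
    refine Finset.sum_congr rfl fun i _ => ?_
    rw [Finset.mul_sum]
    refine Finset.sum_congr rfl fun j _ => ?_
    rw [Matrix.smul_mul, Matrix.mul_smul, smul_smul]
  · unfold adv
    rw [Finset.sum_mul, Finset.sum_comm]
    refine Finset.sum_congr rfl fun j _ => ?_
    rw [Finset.mul_sum]
    refine Finset.sum_congr rfl fun i _ => ?_
    rw [Matrix.smul_mul, Matrix.mul_smul, smul_smul, mul_comm]

end Ad

variable {A : Type} [CommRing A] {n : ℕ}

/-- The constant term of a product of degrees `a`, `b` with `a + b = 0`. -/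
theorem coeff_zero_mul {a b : ℤ} {x y : A[T;T⁻¹]} (hx : Fl a x) (hy : Fl b y) (hab : a + b = 0) :
    x * y = (if a = 0 then x else 0) * (if b = 0 then y else 0) := by
  by_cases h : a = 0
  · rw [if_pos h, if_pos (by omega)]
  · rw [if_neg h, zero_mul]
    rcases lt_or_gt_of_ne h with h1 | h1
    · rw [hx.eq_zero h1, zero_mul]
    · rw [hy.eq_zero (by omega), mul_zero]

variable (lam : Fin n → ℤ) (C : Fin n → Matrix (Fin n) (Fin n) A[T;T⁻¹])

/-- The symbol. -/
noncomputable def sym (i : Fin n) : Matrix (Fin n) (Fin n) A[T;T⁻¹] := fun k j =>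
  if lam k = lam i + lam j then C i k j else 0

variable {lam C}

theorem sym_mul (hC : ∀ i k j, Fl (lam k - lam i - lam j) (C i k j)) {i i' k p j : Fin n}
    (h : lam k = lam i + lam i' + lam j) :
    C i k p * C i' p j = sym lam C i k p * sym lam C i' p j := by
  rw [coeff_zero_mul (hC i k p) (hC i' p j) (by omega)]
  unfold sym
  congr 1
  · by_cases h1 : lam k = lam i + lam p
    · rw [if_pos h1, if_pos (by omega)]
    · rw [if_neg h1, if_neg (by omega)]
  · by_cases h1 : lam p = lam i' + lam j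
    · rw [if_pos h1, if_pos (by omega)]
    · rw [if_neg h1, if_neg (by omega)]

theorem sym_mul' (hC : ∀ i k j, Fl (lam k - lam i - lam j) (C i k j)) {i i' k p j : Fin n}
    (h : lam k = lam i + lam i' + lam j) :
    C i p i' * C p k j = sym lam C i p i' * sym lam C p k j := by
  rw [coeff_zero_mul (hC i p i') (hC p k j) (by omega)]
  unfold sym
  congr 1
  · by_cases h1 : lam p = lam i + lam i'
    · rw [if_pos h1, if_pos (by omega)]
    · rw [if_neg h1, if_neg (by omega)]
  · by_cases h1 : lam k = lam p + lam j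
    · rw [if_pos h1, if_pos (by omega)]
    · rw [if_neg h1, if_neg (by omega)]

theorem sym_mul_zero {i i' k p j : Fin n} (h : lam k ≠ lam i + lam i' + lam j) :
    sym lam C i k p * sym lam C i' p j = 0 := by
  unfold sym
  by_cases h1 : lam k = lam i + lam p
  · rw [if_neg (show ¬ lam p = lam i' + lam j by omega), mul_zero]
  · rw [if_neg h1, zero_mul]

theorem sym_mul_zero' {i i' k p j : Fin n} (h : lam k ≠ lam i + lam i' + lam j) :
    sym lam C i p i' * sym lam C p k j = 0 := by
  unfold sym
  by_cases h1 : lam p = lam i + lam i'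
  · rw [if_neg (show ¬ lam k = lam p + lam j by omega), mul_zero]
  · rw [if_neg h1, zero_mul]

/-- The symbol satisfies the Jacobi identity. -/
theorem sym_jac (hJ : ∀ i j, C i * C j - C j * C i = ∑ k, C i k j • C k)
    (hC : ∀ i k j, Fl (lam k - lam i - lam j) (C i k j)) (i j : Fin n) :
    sym lam C i * sym lam C j - sym lam C j * sym lam C i =
      ∑ k, sym lam C i k j • sym lam C k := by
  ext1 k l
  have h0 := congrFun (congrFun (hJ i j) k) l
  simp only [Matrix.sub_apply, Matrix.mul_apply, Matrix.sum_apply, Matrix.smul_apply,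
    smul_eq_mul] at h0 ⊢
  by_cases h : lam k = lam i + lam j + lam l
  · rw [← Finset.sum_congr rfl fun p _ => sym_mul hC h,
      ← Finset.sum_congr rfl fun p _ => sym_mul hC (show lam k = lam j + lam i + lam l by omega),
      ← Finset.sum_congr rfl fun p _ => sym_mul' hC h]
    exact h0
  · rw [Finset.sum_eq_zero fun p _ => sym_mul_zero h,
      Finset.sum_eq_zero fun p _ => sym_mul_zero (show lam k ≠ lam j + lam i + lam l by omega),
      Finset.sum_eq_zero fun p _ => sym_mul_zero' h, sub_zero]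

theorem sym_killing (hC : ∀ i k j, Fl (lam k - lam i - lam j) (C i k j)) (i j : Fin n) :
    (sym lam C i * sym lam C j).trace = if lam i + lam j = 0 then (C i * C j).trace else 0 := by
  unfold Matrix.trace
  split_ifs with h
  · refine Finset.sum_congr rfl fun q _ => ?_
    rw [Matrix.diag_apply, Matrix.diag_apply, Matrix.mul_apply, Matrix.mul_apply]
    exact Finset.sum_congr rfl fun p _ => (sym_mul hC (by omega)).symm
  · refine Finset.sum_eq_zero fun q _ => ?_
    rw [Matrix.diag_apply, Matrix.mul_apply]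
    exact Finset.sum_eq_zero fun p _ => sym_mul_zero (by omega)

theorem killing_fl (hC : ∀ i k j, Fl (lam k - lam i - lam j) (C i k j)) (i j : Fin n) :
    Fl (- lam i - lam j) (C i * C j).trace := by
  unfold Matrix.trace
  refine Fl.sum _ fun q _ => ?_
  rw [Matrix.diag_apply, Matrix.mul_apply]
  refine Fl.sum _ fun p _ => ?_
  have := (hC i q p).mul (hC j p q)
  rwa [show lam q - lam i - lam p + (lam p - lam j - lam q) = - lam i - lam j by ring] at this

theorem sym_unit (hK : IsUnit (Matrix.of fun i j => (C i * C j).trace).det)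
    (hs : ∑ i, lam i = 0) (hC : ∀ i k j, Fl (lam k - lam i - lam j) (C i k j)) :
    IsUnit (Matrix.of fun i j => (sym lam C i * sym lam C j).trace).det := by
  rw [det_symbol lam hs] at hK
  · simp only [sym_killing hC]
    simpa only [Matrix.of_apply] using hK
  · intro i j h
    rw [Matrix.of_apply]
    exact (killing_fl hC i j).eq_zero (by omega)

/-- **A filtered Lie algebra with unimodular Killing form is graded.** -/
theorem exists_graded [Algebra ℚ A] (C : Fin n → Matrix (Fin n) (Fin n) A[T;T⁻¹])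
    (hJ : ∀ i j, C i * C j - C j * C i = ∑ k, C i k j • C k)
    (hK : IsUnit (Matrix.of fun i j => (C i * C j).trace).det) (lam : Fin n → ℤ)
    (hs : ∑ i, lam i = 0) (hC : ∀ i k j, Fl (lam k - lam i - lam j) (C i k j)) :
    ∃ U : Matrix (Fin n) (Fin n) A[T;T⁻¹], U.det = 1 ∧ (∀ k, U k k = 1) ∧
      (∀ k j, Fl (lam k - lam j) (U k j)) ∧ (∀ k j, lam k < lam j → U k j = 0) ∧
      ∀ i j k, lam k ≠ lam i + lam j →
        (U.adjugate *ᵥ ((∑ p, U p i • C p) *ᵥ fun q => U q j)) k = 0 := by
  classical
  obtain ⟨h0, hh0, hh1⟩ := inner_grading (sym lam C) (sym_jac hJ hC) (sym_unit hK hs hC) lam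
    (fun i k j h => if_neg h)
  -- constants
  set h : Fin n → A[T;T⁻¹] := fun i => LaurentPolynomial.C ((h0 i).coeff 0) with hh
  have hz : ∀ i, lam i ≠ 0 → h i = 0 := by
    intro i hi
    rw [hh]
    simp only
    rw [hh0 i hi, AddMonoidAlgebra.coeff_zero, Finsupp.zero_apply, map_zero]
  have hsymC : ∀ i k j, sym lam C i k j = LaurentPolynomial.C ((sym lam C i k j).coeff 0) := by
    intro i k j
    apply Fl.eq_C
    unfold sym
    split_ifs with h1
    · have := hC i k j
      rwa [show lam k - lam i - lam j = 0 by omega] at this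
    · exact Fl.zero _
  have hsum : ∀ k j, ∑ i, h i * sym lam C i k j =
      if k = j then ((lam j : ℤ) : A[T;T⁻¹]) else 0 := by
    intro k j
    have h1 := congrFun (congrFun hh1 k) j
    rw [Matrix.sum_apply] at h1
    simp only [Matrix.smul_apply, smul_eq_mul] at h1
    have h2 : ∀ i, (h0 i * sym lam C i k j).coeff 0 =
        (h0 i).coeff 0 * (sym lam C i k j).coeff 0 := by
      intro i
      rw [hsymC i k j, mul_comm, ← LaurentPolynomial.smul_eq_C_mul,
        AddMonoidAlgebra.coeff_smul, Finsupp.smul_apply, smul_eq_mul, mul_comm]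
      congr 1
      rw [← hsymC i k j]
    have h3 : ∑ i, (h0 i).coeff 0 * (sym lam C i k j).coeff 0 =
        (Matrix.diagonal (fun i => ((lam i : ℤ) : A[T;T⁻¹])) k j).coeff 0 := by
      rw [← h1, AddMonoidAlgebra.coeff_sum, Finsupp.finsetSum_apply]
      exact Finset.sum_congr rfl fun i _ => (h2 i).symm
    have h4 : ∑ i, h i * sym lam C i k j =
        LaurentPolynomial.C (∑ i, (h0 i).coeff 0 * (sym lam C i k j).coeff 0) := by
      rw [map_sum]
      refine Finset.sum_congr rfl fun i _ => ?_
      rw [map_mul, ← hsymC i k j]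
    rw [h4, h3]
    by_cases hkj : k = j
    · subst hkj
      rw [Matrix.diagonal_apply_eq, if_pos rfl]
      have : Fl 0 ((lam k : ℤ) : A[T;T⁻¹]) := by
        have := Fl.const ((lam k : ℤ) : A)
        rwa [map_intCast] at this
      exact this.eq_C.symm
    · rw [Matrix.diagonal_apply_ne _ hkj, if_neg hkj, AddMonoidAlgebra.coeff_zero,
        Finsupp.zero_apply, map_zero]
  -- the operator
  set H : Matrix (Fin n) (Fin n) A[T;T⁻¹] := adv C h with hH
  have hHa : ∀ k j, H k j = ∑ i, h i * C i k j := by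
    intro k j
    rw [hH, adv, Matrix.sum_apply]
    simp only [Matrix.smul_apply, smul_eq_mul]
  have hHF : ∀ k j, H k j ∈ flS A (lam k - lam j) := by
    intro k j
    show Fl _ _
    rw [hHa]
    refine Fl.sum _ fun i _ => ?_
    by_cases hi : lam i = 0
    · have := (Fl.const ((h0 i).coeff 0)).mul (hC i k j)
      rwa [show 0 + (lam k - lam i - lam j) = lam k - lam j by omega] at this
    · rw [hz i hi, zero_mul]
      exact Fl.zero _
  obtain ⟨U, hHU, hU1, hUd, hUF, hUz⟩ := exists_diag lam (flS A)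
    (fun r s x y hx hy => Fl.mul hx hy) H hHF
    (fun k j hkj => Fl.eq_zero (hHF k j) (by omega))
    (fun k j hkj => by
      rw [hHa, ← hsum k j]
      refine Finset.sum_congr rfl fun i _ => ?_
      by_cases hi : lam i = 0
      · unfold sym
        rw [if_pos (by omega)]
      · rw [hz i hi, zero_mul, zero_mul])
  refine ⟨U, hU1, hUd, ?_, hUz, ?_⟩
  · intro k j
    by_cases hkj : k = j
    · subst hkj
      rw [hUd, sub_self]
      exact Fl.one
    · exact hUF k j hkj
  · intro i j k hkij
    -- eigenvectors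
    have hcol : ∀ i, H *ᵥ (fun q => U q i) = ((lam i : ℤ) : A[T;T⁻¹]) • fun q => U q i := by
      intro i
      ext q
      have h1 := congrFun (congrFun hHU q) i
      rw [Matrix.mul_diagonal] at h1
      rw [Pi.smul_apply, smul_eq_mul, mul_comm, ← h1]
      rfl
    set b := adv C (fun q => U q i) *ᵥ fun q => U q j with hb
    have hHb : H *ᵥ b = (((lam i + lam j : ℤ)) : A[T;T⁻¹]) • b := by
      have h1 := jac C hJ h (fun q => U q i)
      rw [← hH, hcol i, adv_smul, sub_eq_iff_eq_add] at h1
      rw [hb, Matrix.mulVec_mulVec, h1, Matrix.add_mulVec, Matrix.smul_mulVec,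
        ← Matrix.mulVec_mulVec, hcol j, Matrix.mulVec_smul, ← add_smul]
      push_cast
      rfl
    show (U.adjugate *ᵥ b) k = 0
    have h1 : U.adjugate * U = 1 := by rw [Matrix.adjugate_mul, hU1, one_smul]
    have h2 : U * U.adjugate = 1 := by rw [Matrix.mul_adjugate, hU1, one_smul]
    have h3 : U.adjugate * H = Matrix.diagonal (fun i => ((lam i : ℤ) : A[T;T⁻¹])) * U.adjugate := by
      calc U.adjugate * H = U.adjugate * H * (U * U.adjugate) := by rw [h2, Matrix.mul_one]
        _ = U.adjugate * (H * U) * U.adjugate := by simp only [Matrix.mul_assoc]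
        _ = (U.adjugate * U) * Matrix.diagonal (fun i => ((lam i : ℤ) : A[T;T⁻¹])) *
            U.adjugate := by rw [hHU]; simp only [Matrix.mul_assoc]
        _ = _ := by rw [h1, Matrix.one_mul]
    have h4 : ((lam k : ℤ) : A[T;T⁻¹]) * (U.adjugate *ᵥ b) k =
        ((lam i + lam j : ℤ) : A[T;T⁻¹]) * (U.adjugate *ᵥ b) k := by
      have h50 : ∀ v : Fin n → A[T;T⁻¹], U.adjugate *ᵥ (H *ᵥ v) =
          Matrix.diagonal (fun i => ((lam i : ℤ) : A[T;T⁻¹])) *ᵥ (U.adjugate *ᵥ v) := fun v => by
        rw [Matrix.mulVec_mulVec, h3, ← Matrix.mulVec_mulVec]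
      have h5 := h50 b
      rw [hHb, Matrix.mulVec_smul] at h5
      have h6 := congrFun h5 k
      rw [Matrix.mulVec_diagonal, Pi.smul_apply, smul_eq_mul] at h6
      exact h6.symm
    have h5 : ((lam k - (lam i + lam j) : ℤ) : A[T;T⁻¹]) * (U.adjugate *ᵥ b) k = 0 := by
      rw [Int.cast_sub, sub_mul, h4, sub_self]
    have hne : ((lam k - (lam i + lam j) : ℤ) : ℚ) ≠ 0 := by
      have : lam k - (lam i + lam j) ≠ 0 := by omega
      exact_mod_cast this
    have h6 : ((lam k - (lam i + lam j) : ℤ) : ℚ) • (U.adjugate *ᵥ b) k = 0 := by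
      rw [Algebra.smul_def, map_intCast]
      exact h5
    have h7 := congrArg (fun x => (((lam k - (lam i + lam j) : ℤ) : ℚ)⁻¹) • x) h6
    simpa only [smul_smul, inv_mul_cancel₀ hne, one_smul, smul_zero] using h7

end Vale.Agent.P286.Ad
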