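import Vale.Agent.P286.Ad.GrpPre

/-!
# The moduli stack of `G`-bundles on the projective line and its canonical bundle

Let `𝔤` be a semisimple Lie algebra given by integer structure constants (`LieC`), of dimension `n`,
and let `G` be the group `G(A) = {x ∈ SL_n(A) : x preserves the bracket of 𝔤 ⊗ A}`.  If `𝔤` is simple
of type `E_8`, `F_4` or `G_2` then all automorphisms of `𝔤` are inner, and `G = Aut 𝔤` is the
connected group of this type, which is both adjoint and simply connected.  Étale locally on the base,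
a `G`-bundle on `ℙ¹_A` is trivial on the two charts `Spec A[z]`, `Spec A[z⁻¹]`, i.e. it is given by a
transition matrix `g ∈ G(A[z,z⁻¹])`; an isomorphism from the bundle of `g` to the bundle of `g'` is a
pair `a ∈ G(A[z])`, `b ∈ G(A[z⁻¹])` with `g' b = a g`.  So the stack `Bun_G(ℙ¹)` is the
stackification of the prestack of these data.

The adjoint action of `g ∈ G` on `𝔤` is `v ↦ g v`.  The canonical bundle `ω` has the fibre
`det RΓ(ℙ¹, 𝔤_E) = det RΓ(ℙ¹, 𝔤_E(-1))` (as `det Ad = 1`), which is the determinant line of the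
Toeplitz operator `toep g : v ↦ (g v)_{≤0}` on `𝔤(A[z⁻¹])`.  A generator of this line is given
by an invertible operator `S` such that `S - toep g` has finite rank, and the generators `t_S` of two
such operators are related by `t_{S'} = fdet (S * S'⁻¹) • t_S` (Fredholm determinant).
-/

namespace Vale.Agent.P286.Ad

open CategoryTheory LaurentPolynomial Matrix

noncomputable section

/-- The group `G(A) = {x ∈ SL_n(A) : x preserves the bracket}`. -/
structure SG (L : LieC) (A : Type) [CommRing A] where
  /-- the matrix -/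
  m : Matrix (Fin L.n) (Fin L.n) A
  det : m.det = 1
  aut : L.IsAut m

/-- The group `G(A[z])`. -/
abbrev SGp (L : LieC) (A : Type) [CommRing A] : Type := SG L (Polynomial A)

/-- The group `G(A[z,z⁻¹])`. -/
abbrev SGl (L : LieC) (A : Type) [CommRing A] : Type := SG L A[T;T⁻¹]

variable {L : LieC} {A B : Type} [CommRing A] [CommRing B]

/-- The product in `G(A)`. -/
def SG.mul (x y : SG L A) : SG L A := ⟨x.m * y.m, mul_det x.det y.det, mul_aut x.aut y.aut⟩

/-- The unit of `G(A)`. -/
def SG.one (L : LieC) (A : Type) [CommRing A] : SG L A := ⟨1, Matrix.det_one, one_aut L A⟩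

/-- The inverse in `G(A)`. -/
def SG.inv (x : SG L A) : SG L A := ⟨x.m.adjugate, inv_det x.det, inv_aut x.det x.aut⟩

/-- The map `G(A) → G(B)` defined by a ring homomorphism `A → B`. -/
def somf (f : A →+* B) (x : SG L A) : SG L B := ⟨x.m.map f, map_det f x.det, map_aut f x.aut⟩

/-- `G(A[z]) → G(A[z,z⁻¹])` -/
def posf (x : SGp L A) : SGl L A := somf (Polynomial.toLaurent (R := A)) x

/-- `G(A[z⁻¹]) → G(A[z,z⁻¹])`; the variable of the polynomial ring is `z⁻¹`. -/
def negf (x : SGp L A) : SGl L A :=
  somf ((invert (R := A)).toRingEquiv.toRingHom.comp (Polynomial.toLaurent (R := A))) x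

/-- The unit of `G(A[z])`. -/
def SGp.one (L : LieC) (A : Type) [CommRing A] : SGp L A := SG.one L (Polynomial A)

/-- The basis `e_p z^{-l}` of `𝔤(A[z⁻¹])`, indexed by `(l, p)`. -/
abbrev Jx (L : LieC) : Type := ℕ × Fin L.n

/-- The nonpositive part of a Laurent vector; see `vpartFun_apply`. -/
def vpartFun (L : LieC) (A : Type) [CommRing A] (v : Fin L.n → A[T;T⁻¹]) : Jx L →₀ A :=
  ∑ p : Fin L.n, ((v p).coeff.comapDomain (fun l : ℕ => -(l : ℤ))
      (fun x _ y _ h => by simpa using h)).mapDomain (fun l : ℕ => ((l, p) : Jx L))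

/-- The Toeplitz operator `v ↦ (g v)_{≤ 0}` on `𝔤(A[z⁻¹]) = A[z⁻¹]ⁿ`, defined on the basis
`e_p z^{-l}`. -/
def vtoep (g : Matrix (Fin L.n) (Fin L.n) A[T;T⁻¹]) : Module.End A (Jx L →₀ A) :=
  Finsupp.linearCombination A fun i : Jx L =>
    vpartFun L A (g *ᵥ Pi.single i.2 (T (-(i.1 : ℤ))))

/-- The Toeplitz operator `v ↦ (g v)_{≤ 0}` on `𝔤(A[z⁻¹])`.  Its kernel and cokernel are
`H⁰` and `H¹` of `𝔤_E(-1)` on `ℙ¹_A`, where `E` is the bundle with transition matrix `g` and
`𝔤_E` is its adjoint bundle. -/
def toep (g : SGl L A) : Module.End A (Jx L →₀ A) := vtoep g.m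

/-- operators on `𝔤(A[z⁻¹])` -/
abbrev Opr (L : LieC) (A : Type) [CommRing A] : Type := Module.End A (Jx L →₀ A)

/-- invertible operators -/
abbrev OprU (L : LieC) (A : Type) [CommRing A] : Type := (Opr L A)ˣ

/-- `S` is a framing of the determinant line of the Toeplitz operator of `g`. -/
def IsFraming (g : SGl L A) (S : OprU L A) : Prop := FinRank ((S : Opr L A) - toep g)

/-- The pair `(a, b)` is an isomorphism from the bundle `f(g)` to the bundle `g'`. -/
def Glue (f : A →+* B) (g : SGl L A) (g' : SGl L B) (a b : SGp L B) : Prop :=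
  SG.mul g' (negf b) = SG.mul (posf a) (somf (lmap f) g)

/-- The composition. -/
def cmp (f : A →+* B) (x : SGp L B) (y : SGp L A) : SGp L B :=
  SG.mul x (somf (Polynomial.mapRingHom f) y)

/-- The product `p s q u⁻¹`. -/
def mul₄ {E : Type} [Monoid E] (p s q : E) (u : Eˣ) : E := p * s * q * ((u⁻¹ : Eˣ) : E)

/-- The element `δ` with `t_{S'} = δ • (a, b)_* f_* t_S`. -/
def delta (f : A →+* B) (a b : SGp L B) (S : OprU L A) (S' : OprU L B) : B :=
  fdet (mul₄ (toep (posf a)) (bc f (S : Opr L A)) (toep (negf (SG.inv b))) S')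

/-- Test objects of `Bun_G(ℙ¹)` with a generator of `ω`. -/
structure BunObj (L : LieC) : Type 1 where
  A : SmAlg
  /-- the transition matrix -/
  g : SGl L A.R
  /-- the framing of the determinant line of `RΓ(𝔤_E(-1))` -/
  S : OprU L A.R
  framing : IsFraming g S

/-- Morphisms of test objects of `Bun_G(ℙ¹)`. -/
structure BunHom {L : LieC} (X Y : BunObj L) : Type where
  f : X.A.Hm Y.A
  a : SGp L Y.A.R
  b : SGp L Y.A.R
  glue : Glue f.r X.g Y.g a b

/-- Test objects of `BG`: the trivial `G`-torsor over a smooth algebra. -/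
structure BGObj (L : LieC) : Type 1 where
  A : SmAlg

/-- The composition. -/
def gcmp (f : A →+* B) (x : SG L B) (y : SG L A) : SG L B := SG.mul x (somf f y)

/-- Morphisms of test objects of `BG`. -/
@[ext]
structure BGHom {L : LieC} (X Y : BGObj L) : Type where
  f : X.A.Hm Y.A
  h : SG L Y.A.R

end

end Vale.Agent.P286.Ad
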