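import Vale.Agent.P286.Ad.Pre

/-!
# The closure properties used in the definition of the group
-/

namespace Vale.Agent.P286.Ad

open Matrix

variable {L : LieC} {A B : Type} [CommRing A] [CommRing B] {x y : Matrix (Fin L.n) (Fin L.n) A}

theorem one_aut (L : LieC) (A : Type) [CommRing A] : L.IsAut (1 : Matrix _ _ A) := LieC.isAut_one

theorem mul_det (hx : x.det = 1) (hy : y.det = 1) : (x * y).det = 1 := by
  rw [Matrix.det_mul, hx, hy, one_mul]

theorem mul_aut (hx : L.IsAut x) (hy : L.IsAut y) : L.IsAut (x * y) := hx.mul hy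

theorem inv_det (hx : x.det = 1) : x.adjugate.det = 1 := by
  rw [Matrix.det_adjugate, hx, one_pow]

theorem inv_aut (hx : x.det = 1) (h : L.IsAut x) : L.IsAut x.adjugate :=
  h.of_mul_eq_one (by rw [Matrix.mul_adjugate, hx, one_smul])

theorem map_det (f : A →+* B) (hx : x.det = 1) : (x.map f).det = 1 := det_map_one f hx

theorem map_aut (f : A →+* B) (h : L.IsAut x) : L.IsAut (x.map f) := h.map f

end Vale.Agent.P286.Ad
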