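import Vale.Agent.P286.Ad.Split
import Vale.Agent.P286.Ad.Graded

/-! Graded splitting of a `G`-bundle whose adjoint bundle is split as a vector bundle. -/

namespace Vale.Agent.P286.Ad

open LaurentPolynomial Matrix

noncomputable section

variable {L : LieC}

section Bracket

variable {R : Type} [CommRing R]

theorem LieC.IsSemisimple.jacobi' (hL : L.IsSemisimple) (i j : Fin L.n) :
    L.ad R i * L.ad R j - L.ad R j * L.ad R i = ∑ k, L.ad R i k j • L.ad R k := by
  have h := congrArg (Int.castRingHom R).mapMatrix (hL.jacobi i j)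
  have e : ∀ i, (Int.castRingHom R).mapMatrix (L.ad ℤ i) = L.ad R i := fun i =>
    LieC.ad_map (Int.castRingHom R) i
  rw [map_sub, map_mul, map_mul, map_sum, e, e] at h
  rw [h]
  refine Finset.sum_congr rfl fun k _ => ?_
  ext a b
  rw [Matrix.smul_apply, L.ad_apply, L.ad_apply]
  show ((L.c i j k • L.c k b a : ℤ) : R) = (L.c i j k : R) * (L.c k b a : R)
  rw [smul_eq_mul, Int.cast_mul]

theorem adv_eq (v : Fin L.n → R) : L.adv v = adv (L.ad R) v := rfl

theorem adv_jac (hL : L.IsSemisimple) (u v : Fin L.n → R) :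
    L.adv u * L.adv v - L.adv v * L.adv u = L.adv (L.adv u *ᵥ v) :=
  jac (L.ad R) hL.jacobi' u v

/-- The Killing form. -/
def kil (L : LieC) (R : Type) [CommRing R] : Matrix (Fin L.n) (Fin L.n) R :=
  Matrix.of fun i j => (L.ad R i * L.ad R j).trace

theorem kil_map (L : LieC) (R : Type) [CommRing R] :
    kil L R = (Int.castRingHom R).mapMatrix (kil L ℤ) := by
  ext i j
  show (L.ad R i * L.ad R j).trace = Int.castRingHom R (L.ad ℤ i * L.ad ℤ j).trace
  have e : ∀ i, (Int.castRingHom R).mapMatrix (L.ad ℤ i) = L.ad R i := fun i =>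
    LieC.ad_map (Int.castRingHom R) i
  rw [← e, ← e, ← map_mul]
  unfold Matrix.trace
  rw [map_sum]
  rfl

theorem trace_adv (u v : Fin L.n → R) :
    (L.adv u * L.adv v).trace = ∑ p, ∑ q, u p * v q * kil L R p q := by
  unfold LieC.adv
  rw [Finset.sum_mul, Matrix.trace_sum]
  refine Finset.sum_congr rfl fun p _ => ?_
  rw [Finset.mul_sum, Matrix.trace_sum]
  refine Finset.sum_congr rfl fun q _ => ?_
  rw [Matrix.smul_mul, Matrix.mul_smul, smul_smul, Matrix.trace_smul, smul_eq_mul]
  rfl

variable {X : Matrix (Fin L.n) (Fin L.n) R}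

theorem trb_mul_trb (hX : X.det = 1) (i j : Fin L.n) :
    trb L X i * trb L X j =
      X.adjugate * (L.adv (fun p => X p i) * L.adv (fun p => X p j)) * X := by
  calc trb L X i * trb L X j = X.adjugate * L.adv (fun p => X p i) * (X * X.adjugate) *
        L.adv (fun p => X p j) * X := by unfold trb; simp only [Matrix.mul_assoc]
    _ = _ := by rw [self_mul_adjugate hX, Matrix.mul_one]; simp only [Matrix.mul_assoc]

theorem sum_trb (X : Matrix (Fin L.n) (Fin L.n) R) (u : Fin L.n → R) :
    ∑ k, u k • trb L X k = X.adjugate * (L.adv (X *ᵥ u)) * X := by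
  rw [L.adv_mulVec, Finset.mul_sum, Finset.sum_mul]
  refine Finset.sum_congr rfl fun k _ => ?_
  rw [trb, Matrix.mul_smul, Matrix.smul_mul, Matrix.mul_assoc]

theorem trb_jac (hL : L.IsSemisimple) (hX : X.det = 1) (i j : Fin L.n) :
    trb L X i * trb L X j - trb L X j * trb L X i = ∑ k, trb L X i k j • trb L X k := by
  rw [sum_trb X (fun k => trb L X i k j), trb_mul_trb hX, trb_mul_trb hX, ← Matrix.sub_mul,
    ← Matrix.mul_sub, adv_jac hL]
  congr 3
  have h := mul_trb hX i
  ext k
  exact (congrFun (congrFun h k) j).symm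

theorem trb_killing (hX : X.det = 1) :
    (Matrix.of fun i j => (trb L X i * trb L X j).trace) = X.transpose * kil L R * X := by
  ext i j
  rw [Matrix.of_apply, trb_mul_trb hX, Matrix.trace_mul_comm, ← Matrix.mul_assoc,
    self_mul_adjugate hX, Matrix.one_mul, trace_adv, Matrix.mul_apply, Finset.sum_comm]
  refine Finset.sum_congr rfl fun q _ => ?_
  rw [Matrix.mul_apply, Finset.sum_mul]
  refine Finset.sum_congr rfl fun p _ => ?_
  rw [Matrix.transpose_apply]
  ring

theorem trb_killing_unit (hL : L.IsSemisimple) (hR : ∀ m : ℤ, m ≠ 0 → IsUnit (m : R))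
    (hX : X.det = 1) : IsUnit (Matrix.of fun i j => (trb L X i * trb L X j).trace).det := by
  rw [trb_killing hX, Matrix.det_mul, Matrix.det_mul, Matrix.det_transpose, hX, one_mul, mul_one,
    kil_map, ← RingHom.map_det]
  exact hR _ hL.killing

theorem trb_mul_right (X U : Matrix (Fin L.n) (Fin L.n) R) (i : Fin L.n) :
    trb L (X * U) i = U.adjugate * ((∑ p, U p i • trb L X p) * U) := by
  have h1 : (fun p => (X * U) p i) = X *ᵥ fun p => U p i := rfl
  rw [sum_trb X fun p => U p i, trb, h1, Matrix.adjugate_mul_distrib]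
  simp only [Matrix.mul_assoc]

end Bracket

section Mono

variable {B : Type} [CommRing B]

theorem mono_adjugate {n : ℕ} (lam : Fin n → ℤ) (hs : ∑ i, lam i = 0) :
    (mono lam : Matrix (Fin n) (Fin n) B[T;T⁻¹]).adjugate = mono (-lam) := by
  have h1 : (mono lam : Matrix (Fin n) (Fin n) B[T;T⁻¹]).det = 1 := by
    rw [det_mono, hs, T_zero]
  calc (mono lam : Matrix (Fin n) (Fin n) B[T;T⁻¹]).adjugate =
      (mono (-lam) * mono lam) * (mono lam).adjugate := by rw [mono_neg_mul, Matrix.one_mul]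
    _ = _ := by rw [Matrix.mul_assoc, self_mul_adjugate h1, Matrix.mul_one]

theorem trb_mono (X : Matrix (Fin L.n) (Fin L.n) B[T;T⁻¹]) (lam : Fin L.n → ℤ)
    (hs : ∑ i, lam i = 0) (i k j : Fin L.n) :
    trb L (X * mono lam) i k j = T (lam i + lam j - lam k) * trb L X i k j := by
  have h1 : (∑ p, (mono lam : Matrix (Fin L.n) (Fin L.n) B[T;T⁻¹]) p i • trb L X p) =
      (T (lam i) : B[T;T⁻¹]) • trb L X i := by
    rw [Finset.sum_eq_single i]
    · rw [mono, Matrix.diagonal_apply_eq]
    · intro p _ hp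
      rw [mono, Matrix.diagonal_apply_ne _ hp, zero_smul]
    · intro h
      exact absurd (Finset.mem_univ i) h
  rw [trb_mul_right, h1, mono_adjugate lam hs, mono, mono, Matrix.diagonal_mul,
    Matrix.mul_diagonal, Matrix.smul_apply, smul_eq_mul, Pi.neg_apply,
    show lam i + lam j - lam k = -lam k + lam i + lam j by ring, T_add, T_add]
  ring

end Mono

/-- A bundle whose adjoint bundle is split as a vector bundle is the sum of its parts of the
various slopes, in such a way that the bracket is graded. -/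
theorem graded_splitting {B : Type} [CommRing B] [Algebra ℚ B] (hL : L.IsSemisimple)
    (l : Fin L.n → ℤ) (hs : ∑ i, l i = 0)
    (X Y : Matrix (Fin L.n) (Fin L.n) B[T;T⁻¹]) (g : SG L B[T;T⁻¹]) (hX : MGE 0 X) (hX1 : X.det = 1)
    (hY : MLE 0 Y) (hY1 : Y.det = 1) (hg : g.m * Y = X * mono l) :
    ∃ X' Y' : Matrix (Fin L.n) (Fin L.n) B[T;T⁻¹], MGE 0 X' ∧ X'.det = 1 ∧ MLE 0 Y' ∧ Y'.det = 1 ∧
      g.m * Y' = X' * mono l ∧
      ∀ i k j, l k ≠ l i + l j → trb L X' i k j = 0 := by
  have hR : ∀ m : ℤ, m ≠ 0 → IsUnit ((m : ℤ) : B[T;T⁻¹]) := by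
    intro m hm
    have h1 : IsUnit (m : ℚ) := isUnit_iff_ne_zero.2 (by exact_mod_cast hm)
    have h2 := (h1.map (algebraMap ℚ B)).map (LaurentPolynomial.C : B →+* B[T;T⁻¹])
    rwa [map_intCast, map_intCast] at h2
  have hC : ∀ i k j, Fl (l k - l i - l j) (trb L X i k j) := by
    intro i k j
    refine ⟨trb_MGE hX i k j, ?_⟩
    have h1 := trb_mono X l hs i k j
    rw [← hg, trb_mul_left g.aut g.det_m] at h1
    have h2 : trb L X i k j = T (l k - l i - l j) * trb L Y i k j := by
      rw [h1, ← mul_assoc, ← T_add,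
        show l k - l i - l j + (l i + l j - l k) = 0 by ring, T_zero, one_mul]
    rw [h2]
    have := (LE.T (R := B) (l k - l i - l j)).mul (trb_MLE hY i k j)
    rwa [add_zero] at this
  obtain ⟨U, hU1, -, hUF, -, hU⟩ := exists_graded (trb L X) (trb_jac hL hX1)
    (trb_killing_unit hL hR hX1) l hs hC
  have hm1 : (mono l : Matrix (Fin L.n) (Fin L.n) B[T;T⁻¹]) * mono (-l) = 1 := mono_mul_neg l
  refine ⟨X * U, Y * (mono (-l) * U * mono l), ?_, ?_, ?_, ?_, ?_, ?_⟩
  · have h1 : MGE 0 U := fun i j => (hUF i j).1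
    have := hX.mul h1
    rwa [add_zero] at this
  · rw [Matrix.det_mul, hX1, hU1, one_mul]
  · have h1 : MLE 0 (mono (-l) * U * mono l) := by
      intro i j
      rw [mono, mono, Matrix.mul_diagonal, Matrix.diagonal_mul, Pi.neg_apply]
      have := ((LE.T (R := B) (-l i)).mul (hUF i j).2).mul (LE.T (R := B) (l j))
      rwa [show -l i + (l i - l j) + l j = 0 by ring] at this
    have := hY.mul h1
    rwa [add_zero] at this
  · have h1 : (∑ i, (-l) i) = 0 := by
      simp only [Pi.neg_apply, Finset.sum_neg_distrib, hs, neg_zero]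
    rw [Matrix.det_mul, Matrix.det_mul, Matrix.det_mul, hY1, hU1, det_mono, det_mono, hs, h1,
      T_zero]
    simp only [mul_one]
  · calc g.m * (Y * (mono (-l) * U * mono l)) = (g.m * Y) * mono (-l) * U * mono l := by
          simp only [Matrix.mul_assoc]
      _ = X * (mono l * mono (-l)) * U * mono l := by rw [hg]; simp only [Matrix.mul_assoc]
      _ = X * U * mono l := by rw [hm1, Matrix.mul_one]
  · intro i k j hkij
    rw [trb_mul_right]
    exact hU i j k hkij

end

end Vale.Agent.P286.Ad
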