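import Vale.Agent.P286.Ad.Grp

/-!
# The homomorphisms between the groups `G(A)`
-/

namespace Vale.Agent.P286.Ad

open CategoryTheory LaurentPolynomial

noncomputable section

variable {L : LieC} {A B D : Type} [CommRing A] [CommRing B] [CommRing D]

theorem SG.ext' {x y : SG L A} (h : x.m = y.m) : x = y := by
  cases x
  cases y
  cases h
  rfl

instance : Group (SG L A) where
  mul := SG.mul
  one := SG.one L A
  inv := SG.inv
  mul_assoc x y z := SG.ext' (Matrix.mul_assoc x.m y.m z.m)
  one_mul x := SG.ext' (Matrix.one_mul x.m)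
  mul_one x := SG.ext' (Matrix.mul_one x.m)
  inv_mul_cancel x := SG.ext' (by
    show x.m.adjugate * x.m = 1
    rw [Matrix.adjugate_mul, x.det, one_smul])

/-- The underlying element of `SL_n(A)`. -/
def SG.sl (x : SG L A) : Matrix.SpecialLinearGroup (Fin L.n) A := ⟨x.m, x.det⟩

/-- The map `G(A) → G(B)` defined by a ring homomorphism `A → B`. -/
def som (L : LieC) (f : A →+* B) : SG L A →* SG L B where
  toFun := somf f
  map_one' := SG.ext' (Matrix.map_one f (map_zero f) (map_one f))
  map_mul' x y := SG.ext' (map_mul f.mapMatrix x.m y.m)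

/-- `G(A[z]) → G(A[z,z⁻¹])` -/
def pos (L : LieC) (A : Type) [CommRing A] : SG L (Polynomial A) →* SG L A[T;T⁻¹] :=
  som L (Polynomial.toLaurent (R := A))

/-- `G(A[z⁻¹]) → G(A[z,z⁻¹])`; the variable of the polynomial ring is `z⁻¹`. -/
def neg (L : LieC) (A : Type) [CommRing A] : SG L (Polynomial A) →* SG L A[T;T⁻¹] :=
  som L ((invert (R := A)).toRingEquiv.toRingHom.comp (Polynomial.toLaurent (R := A)))

theorem Glue.eq {f : A →+* B} {g : SG L A[T;T⁻¹]} {g' : SG L B[T;T⁻¹]}
    {a b : SG L (Polynomial B)} (h : Glue f g g' a b) :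
    g' * neg L B b = pos L B a * som L (lmap f) g := h

theorem Glue.mk {f : A →+* B} {g : SG L A[T;T⁻¹]} {g' : SG L B[T;T⁻¹]}
    {a b : SG L (Polynomial B)} (h : g' * neg L B b = pos L B a * som L (lmap f) g) :
    Glue f g g' a b := h

theorem cmp_eq (f : A →+* B) (x : SG L (Polynomial B)) (y : SG L (Polynomial A)) :
    cmp f x y = x * som L (Polynomial.mapRingHom f) y := rfl

end

end Vale.Agent.P286.Ad
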