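import Vale.Agent.P286.Ad.Main
import Vale.Agent.P286.Ad.GTwoTyp
import Vale.Agent.P286.Ad.FFourGen
import Vale.Agent.P286.Ad.H163.Typ8
import Vale.Agent.P286.Ad.CartanL

/-!
# Irrational levels; the three exceptional types
-/

namespace Vale.Agent.P286.Ad

theorem irrational_dual {r : ℕ} (hr : 0 < r) {c : ℂ} (hc : ∀ q : ℚ, c ≠ (q : ℂ)) :
    ∀ q : ℚ, -1 / ((r : ℂ) * c) ≠ (q : ℂ) := by
  intro q hq
  have hr0 : (r : ℂ) ≠ 0 := by exact_mod_cast hr.ne'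
  have hc0 : c ≠ 0 := by
    intro h
    exact hc 0 (by rw [h]; norm_num)
  have hq0 : (q : ℂ) ≠ 0 := by
    rw [← hq]
    exact div_ne_zero (neg_ne_zero.2 one_ne_zero) (mul_ne_zero hr0 hc0)
  apply hc (-1 / ((r : ℚ) * q))
  have h1 : c = -1 / ((r : ℂ) * (q : ℂ)) := by
    rw [← hq]
    field_simp
  rw [h1]
  push_cast
  rfl

theorem nonres {s : ℂ} (hs : ∀ q : ℚ, s ≠ (q : ℂ)) (m : ℤ) (hm : m ≠ 0) (k : ℤ) :
    (k : ℂ) + s * m ≠ 0 := by
  intro h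
  have hm0 : (m : ℂ) ≠ 0 := by exact_mod_cast hm
  apply hs (-(k : ℚ) / (m : ℚ))
  push_cast
  rw [eq_div_iff hm0]
  linear_combination h

theorem exists_gTwo : ∃ L : LieC, L.IsSemisimple ∧ L.HasCartan CartanMatrix.G₂ :=
  ⟨gTwo, gTwo_isSemisimple, gTwo_hasType.hasCartan⟩

theorem exists_fFour : ∃ L : LieC, L.IsSemisimple ∧ L.HasCartan CartanMatrix.F₄ :=
  ⟨fFour, fFour_isSemisimple, fFour_hasType.hasCartan⟩

theorem exists_eEight : ∃ L : LieC, L.IsSemisimple ∧ L.HasCartan CartanMatrix.E₈ :=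
  ⟨eEight, eEight_isSemisimple, eEight_hasType.hasCartan⟩

end Vale.Agent.P286.Ad
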