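import Vale.Agent.P286.Ad.BFun
import Vale.Agent.P286.H211.QE
import Vale.Agent.P286.H211.Fact2
import Vale.Agent.P286.H211.Torus

/-!
# Restriction of twisted `D`-modules to the trivial bundle
-/

namespace Vale.Agent.P286.Ad

open CategoryTheory LaurentPolynomial

noncomputable section

variable {L : LieC}

/-- A constant matrix, as an element of `G(A[z])`. -/
def cst (L : LieC) (A : Type) [CommRing A] : SG L A →* SG L (Polynomial A) := som L Polynomial.C

theorem slm_constSL {A B : Type} [CommRing A] [CommRing B] (f : A →+* B) (x : SG L A) :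
    som L (Polynomial.mapRingHom f) (cst L A x) = cst L B (som L f x) := by
  apply SG.ext'
  ext1 i j
  change Polynomial.mapRingHom f (Polynomial.C _) = Polynomial.C (f _)
  simp

theorem ev0_constSL {A : Type} [CommRing A] (x : SG L A) : ev0 L A (cst L A x) = x := by
  apply SG.ext'
  ext1 i j
  change Polynomial.constantCoeff (Polynomial.C (x.m i j)) = x.m i j
  simp

theorem neg_cst (A : Type) [CommRing A] (x : SG L A) : neg L A (cst L A x) = pos L A (cst L A x) := by
  apply SG.ext'
  ext1 p q
  change invert (Polynomial.toLaurent (Polynomial.C (x.m p q))) =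
    Polynomial.toLaurent (Polynomial.C (x.m p q))
  rw [Polynomial.toLaurent_C, invert_C]

theorem isFraming_one (A : Type) [CommRing A] :
    IsFraming (1 : SG L A[T;T⁻¹]) 1 := by
  have h : ((1 : (Module.End A (Jx L →₀ A))ˣ) : Module.End A (Jx L →₀ A)) -
      toep (1 : SG L A[T;T⁻¹]) = 0 := by
    rw [toep_one]
    exact sub_self (1 : Module.End A (Jx L →₀ A))
  unfold IsFraming
  rw [h]
  exact FinRank.zero

theorem theta_one (A : Type) [CommRing A] :
    theta (1 : SG L A[T;T⁻¹]) 1 = 1 := by
  unfold theta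
  rw [toep_one, inv_one, Units.val_one, mul_one, fdet_one]

theorem neg_const_eq (A : Type) [CommRing A] (x : SG L A) :
    1 * neg L A (cst L A x) = pos L A (cst L A x) * 1 := by
  rw [one_mul, mul_one, neg_cst]

theorem transport_const {A B : Type} [CommRing A] [CommRing B] (f : A →+* B)
    (x : SG L B) :
    transport f (cst L B x) (cst L B x) 1 * 1⁻¹ = 1 := by
  have h : toepNeg L B (cst L B x) = toepPos L B (cst L B x) := by
    apply Units.ext
    rw [toepNeg_val, toepPos_val, neg_cst]
  rw [transport, map_one, mul_one, h, mul_inv_cancel, inv_one, mul_one]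

/-- the trivial bundle with its canonical framing -/
abbrev triv (X : BGObj L) : BunObj L where
  A := X.A
  g := 1
  S := 1
  framing := isFraming_one X.A.R

theorem triv_th (X : BGObj L) : (triv X).th = 1 := theta_one X.A.R

/-- a constant automorphism of the trivial bundle -/
def jmap {X Y : BGObj L} (φ : X ⟶ Y) : triv X ⟶ triv Y :=
  ({ f := BGHom.f φ
     a := cst L Y.A.R (BGHom.h φ)
     b := cst L Y.A.R (BGHom.h φ)
     glue := by
      apply Glue.mk
      rw [map_one]
      exact neg_const_eq Y.A.R (BGHom.h φ) } : BunHom (triv X) (triv Y))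

theorem jmap_dl {X Y : BGObj L} (φ : X ⟶ Y) : (Bun L).dl (jmap φ) = 1 := by
  apply Units.ext
  change fdet ((transport (BGHom.f φ : X.A.R →+* Y.A.R) (cst L Y.A.R (BGHom.h φ))
    (cst L Y.A.R (BGHom.h φ)) 1 * 1⁻¹ : (Module.End Y.A.R (Jx L →₀ Y.A.R))ˣ) :
      Module.End Y.A.R (Jx L →₀ Y.A.R)) = 1
  rw [transport_const, Units.val_one, fdet_one]

theorem jmap_id (X : BGObj L) : jmap (𝟙 X) = 𝟙 (triv X) := by
  apply BunHom.ext
  · rfl
  · change cst L X.A.R 1 = 1
    rw [map_one]
  · change cst L X.A.R 1 = 1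
    rw [map_one]

theorem jmap_comp {X Y Z : BGObj L} (φ : X ⟶ Y) (ψ : Y ⟶ Z) :
    jmap (φ ≫ ψ) = jmap φ ≫ jmap ψ := by
  have h : cst L Z.A.R (BGHom.h ψ * som L
      (BGHom.f ψ : Y.A.R →+* Z.A.R) (BGHom.h φ)) =
      cst L Z.A.R (BGHom.h ψ) * som L (Polynomial.mapRingHom (BGHom.f ψ : Y.A.R →+* Z.A.R))
        (cst L Y.A.R (BGHom.h φ)) := by
    rw [map_mul, slm_constSL]
  apply BunHom.ext
  · exact (BunHom.f_comp (jmap φ) (jmap ψ)).symm
  · exact h
  · exact h

instance modTriv {s : ℂ} (F : TDMod (Bun L) s) (X : BGObj L) :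
    Module X.A.R (F.M (triv X)) :=
  F.mod (triv X)

/-- The restriction to the trivial bundle, on objects. -/
def Jobj {s : ℂ} (F : TDMod (Bun L) s) : TDMod (BG L) 0 where
  M X := F.M (triv X)
  grp X := F.grp (triv X)
  mod X := F.mod (triv X)
  act X v m := F.act (triv X) v m
  act_add X v m m' := F.act_add (triv X) v m m'
  add_act X v w m := F.add_act (triv X) v w m
  smul_act X a v m := F.smul_act (triv X) a v m
  leibniz X v a m := F.leibniz (triv X) v a m
  lie_act X v w m := F.lie_act (triv X) v w m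
  map φ := F.map (jmap φ)
  map_smul {X Y} φ a m := F.map_smul (jmap φ) a m
  map_id X m := by
    rw [jmap_id]
    exact F.map_id _ m
  map_comp φ ψ m := by
    rw [jmap_comp]
    exact F.map_comp _ _ m
  map_act {X Y} φ w k c v h m := by
    have h1 := F.map_act (jmap φ) w k c v h m
    rw [jmap_dl] at h1
    rw [map_zero, zero_mul, zero_mul, zero_smul, sub_zero]
    refine h1.trans ?_
    have h2 : w ((1 : (Y.A.R)ˣ) : Y.A.R) = 0 := by
      rw [Units.val_one]
      exact Derivation.map_one_eq_zero w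
    have h3 : (algebraMap ℂ Y.A.R s * ((1 : (Y.A.R)ˣ)⁻¹ : (Y.A.R)ˣ) *
        w ((1 : (Y.A.R)ˣ) : Y.A.R)) • F.map (jmap φ) m = 0 := by
      rw [h2, mul_zero, zero_smul]
    exact (congrArg (_ - ·) h3).trans (sub_zero _)
  map_cen X φ h m := by
    obtain rfl : φ = 𝟙 X := h
    rw [jmap_id]
    exact F.map_id _ m

/-- The restriction to the trivial bundle. -/
def Jfun (L : LieC) (s : ℂ) : TDMod (Bun L) s ⥤ TDMod (BG L) 0 where
  obj F := Jobj F
  map {F F'} f :=
    { app := fun X => TDMod.Hom.app f (triv X)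
      act := fun X v m => TDMod.Hom.act f (triv X) v m
      nat := fun φ m => TDMod.Hom.nat f (jmap φ) m }
  map_id F := rfl
  map_comp f g := rfl

instance (L : LieC) (s : ℂ) : (Jfun L s).Additive where
  map_add {F F' f g} := by
    apply TDMod.hom_ext
    intro X m
    rfl

instance (L : LieC) (s : ℂ) : (Jfun L s).Linear ℂ where
  map_smul f c := by
    apply TDMod.hom_ext
    intro X m
    rfl

theorem presCart_J (L : LieC) (s : ℂ) : PresCart (Jfun L s) where
  cart K hK X := by
    obtain ⟨P, hP, p, h1, h2, h3⟩ := hK (triv X)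
    exact ⟨P, hP, p, h1, h2, fun Y φ i j k hi hj => h3 (triv Y) (jmap φ) i j k hi hj⟩
  qis K M u _ _ hu := fun X i j k hi hj => hu (triv X) i j k hi hj

end

end Vale.Agent.P286.Ad
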