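import Mathlib

/-!
# Lie algebras given by integer structure constants, and their automorphisms
-/

namespace Vale.Agent.P286.Ad

/-- Integer structure constants of a bracket on a free module with the basis `e_0, …, e_{n-1}`:
`[e_i, e_j] = ∑ k, c i j k • e_k`. -/
structure LieC where
  /-- the dimension -/
  n : ℕ
  /-- the structure constants -/
  c : Fin n → Fin n → Fin n → ℤ

variable (L : LieC) {A : Type} [CommRing A]

/-- The matrix of `ad e_i : w ↦ [e_i, w]` over `A`. -/
def LieC.ad (A : Type) [CommRing A] (i : Fin L.n) : Matrix (Fin L.n) (Fin L.n) A :=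
  Matrix.of fun k j => (L.c i j k : A)

/-- The matrix of `ad v : w ↦ [v, w]`, `v ∈ 𝔤 ⊗ A = Aⁿ`. -/
def LieC.adv (v : Fin L.n → A) : Matrix (Fin L.n) (Fin L.n) A := ∑ p, v p • L.ad A p

/-- `x` preserves the bracket: `x [e_i, w] = [x e_i, x w]`. -/
def LieC.IsAut (x : Matrix (Fin L.n) (Fin L.n) A) : Prop :=
  ∀ i, x * L.ad A i = L.adv (fun p => x p i) * x

/-- The bracket is a Lie bracket whose Killing form is nondegenerate over `ℚ`, i.e. `𝔤 ⊗ ℚ` is a
semisimple Lie algebra. -/
structure LieC.IsSemisimple : Prop where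
  /-- `[e_i, e_i] = 0` -/
  alt : ∀ i k, L.c i i k = 0
  /-- `[e_i, e_j] = -[e_j, e_i]` -/
  anti : ∀ i j k, L.c i j k = - L.c j i k
  /-- the Jacobi identity -/
  jac : ∀ i j k l, ∑ p, (L.c i j p * L.c p k l + L.c j k p * L.c p i l +
    L.c k i p * L.c p j l) = 0
  /-- the Killing form `κ(e_i, e_j) = ∑ p q, c i p q * c j q p` is nondegenerate -/
  kil : (Matrix.of fun i j => ∑ p, ∑ q, L.c i p q * L.c j q p).det ≠ 0

end Vale.Agent.P286.Ad
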