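import Vale.Agent.P286.Ad.Sane
import Vale.Agent.P286.H527.BrFin

/-!
# The equivalences at irrational level on the projective line, for `G`
-/

namespace Vale.Agent.P286.Ad

open CategoryTheory LaurentPolynomial

noncomputable section

/-- The restriction to the trivial bundle is a quasi-equivalence. -/
theorem isQuasiEquiv_J {L : LieC} (hL : L.IsSemisimple) {s : ℂ}
    (hs : ∀ m : ℤ, m ≠ 0 → ∀ k : ℤ, (k : ℂ) + s * m ≠ 0) : IsQuasiEquiv (Jfun L s) :=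
  quasiEquiv_of_inverse (Jfun L s) (Bfun L s) (presCart_J L s) (presCart_B L s)
    (Or.inl ⟨eps1 s, fun K hK => eps1_qis hL hs K hK⟩)
    (Or.inl ⟨eps2 L s, fun K _ => eps2_qis L s K⟩)

/-- Irrational twists are not resonant. -/
theorem not_resonant {h : ℕ} (hh : 0 < h) {c : ℂ} (hc : ∀ q : ℚ, c ≠ (q : ℂ)) (m : ℤ)
    (hm : m ≠ 0) (k : ℤ) : (k : ℂ) + ((h : ℂ) - c) / (2 * h) * m ≠ 0 :=
  P286.not_resonant hh hc m hm k

theorem dg_BG {L : LieC} (hL : L.IsSemisimple) {s : ℂ}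
    (hs : ∀ m : ℤ, m ≠ 0 → ∀ k : ℤ, (k : ℂ) + s * m ≠ 0) :
    DGEquivalent (Bun L, s) (BG L, 0) :=
  Relation.EqvGen.rel _ _ ⟨Jfun L s, inferInstance, inferInstance, isQuasiEquiv_J hL hs⟩

/-- `D(ω^s) ≃ D(BG)` on `Bun_G(ℙ¹)` for irrational `s`. -/
theorem main {L : LieC} (hL : L.IsSemisimple) {s : ℂ}
    (hs : ∀ m : ℤ, m ≠ 0 → ∀ k : ℤ, (k : ℂ) + s * m ≠ 0) :
    St.DGEquivalent (BunAd L s) (BAd L) := by
  have h := Br.dgEquivalent (dg_BG hL hs)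
  change St.DGEquivalent ((Bun L).toT s) ((BG L).toT 0) at h
  rw [toT_Bun, toT_BG] at h
  exact h

theorem nonzero_Bun (L : LieC) (s : ℂ) :
    ∃ K : St.Cx (BunAd L s), St.Cx.Cart K ∧ ¬ K.Acyclic :=
  Br.nonzero (cartesian_strBun L s) (not_tAcyclic_strBun L s)

end

end Vale.Agent.P286.Ad
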