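import Vale.Agent.P286.St.Alg
import Vale.Agent.P286.Loop
import Vale.Agent.P286.Ad.LieC

/-!
# Automorphisms of Lie algebras given by integer structure constants: closure properties
-/

namespace Vale.Agent.P286.Ad

open Matrix

variable (L : LieC) {A B : Type} [CommRing A] [CommRing B]

theorem LieC.ad_apply (i k j : Fin L.n) : L.ad A i k j = (L.c i j k : A) := rfl

theorem LieC.adv_apply (v : Fin L.n → A) (k j : Fin L.n) :
    L.adv v k j = ∑ p, v p * (L.c p j k : A) := by
  unfold LieC.adv
  rw [Matrix.sum_apply]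
  refine Finset.sum_congr rfl fun p _ => ?_
  rw [Matrix.smul_apply, smul_eq_mul]
  rfl

theorem LieC.adv_single (i : Fin L.n) : L.adv (fun p => (1 : Matrix (Fin L.n) (Fin L.n) A) p i) =
    L.ad A i := by
  unfold LieC.adv
  rw [Finset.sum_eq_single i]
  · show (1 : Matrix (Fin L.n) (Fin L.n) A) i i • L.ad A i = _
    rw [Matrix.one_apply_eq, one_smul]
  · intro p _ hp
    show (1 : Matrix (Fin L.n) (Fin L.n) A) p i • L.ad A p = _
    rw [Matrix.one_apply_ne hp, zero_smul]
  · intro h
    exact absurd (Finset.mem_univ i) h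

theorem LieC.adv_mulVec (x : Matrix (Fin L.n) (Fin L.n) A) (v : Fin L.n → A) :
    L.adv (x *ᵥ v) = ∑ p, v p • L.adv (fun q => x q p) := by
  unfold LieC.adv
  simp only [Matrix.mulVec, dotProduct, Finset.sum_smul, Finset.smul_sum, smul_smul]
  rw [Finset.sum_comm]
  refine Finset.sum_congr rfl fun p _ => Finset.sum_congr rfl fun q _ => ?_
  rw [mul_comm]

variable {L}

theorem LieC.IsAut.mul_adv {x : Matrix (Fin L.n) (Fin L.n) A} (hx : L.IsAut x)
    (v : Fin L.n → A) : x * L.adv v = L.adv (x *ᵥ v) * x := by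
  rw [L.adv_mulVec, LieC.adv, Finset.mul_sum, Finset.sum_mul]
  refine Finset.sum_congr rfl fun p _ => ?_
  rw [Matrix.mul_smul, Matrix.smul_mul, hx p]

theorem LieC.isAut_one : L.IsAut (1 : Matrix (Fin L.n) (Fin L.n) A) := by
  intro i
  rw [L.adv_single, Matrix.one_mul, Matrix.mul_one]

theorem LieC.IsAut.mul {x y : Matrix (Fin L.n) (Fin L.n) A} (hx : L.IsAut x) (hy : L.IsAut y) :
    L.IsAut (x * y) := by
  intro i
  have h : (fun p => (x * y) p i) = x *ᵥ fun p => y p i := rfl
  rw [Matrix.mul_assoc, hy i, ← Matrix.mul_assoc, hx.mul_adv, h, Matrix.mul_assoc]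

theorem LieC.IsAut.of_mul_eq_one {x y : Matrix (Fin L.n) (Fin L.n) A} (hx : L.IsAut x)
    (h : x * y = 1) : L.IsAut y := by
  have h' : y * x = 1 := mul_eq_one_comm.1 h
  intro i
  have e : (x *ᵥ fun p => y p i) = fun p => (1 : Matrix (Fin L.n) (Fin L.n) A) p i := by
    rw [← h]
    rfl
  have h1 := hx.mul_adv fun p => y p i
  rw [e, L.adv_single] at h1
  calc y * L.ad A i = y * (L.ad A i * x) * y := by
        rw [Matrix.mul_assoc, Matrix.mul_assoc, h, Matrix.mul_one]
    _ = y * (x * L.adv fun p => y p i) * y := by rw [h1]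
    _ = (y * x) * (L.adv fun p => y p i) * y := by simp only [Matrix.mul_assoc]
    _ = _ := by rw [h', Matrix.one_mul]

theorem LieC.ad_map (f : A →+* B) (i : Fin L.n) : (L.ad A i).map f = L.ad B i := by
  ext k j
  rw [Matrix.map_apply, L.ad_apply, L.ad_apply, map_intCast]

theorem LieC.adv_map (f : A →+* B) (v : Fin L.n → A) : (L.adv v).map f = L.adv fun p => f (v p) := by
  ext k j
  rw [Matrix.map_apply, L.adv_apply, L.adv_apply, map_sum]
  refine Finset.sum_congr rfl fun p _ => ?_
  rw [map_mul, map_intCast]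

theorem LieC.IsAut.map (f : A →+* B) {x : Matrix (Fin L.n) (Fin L.n) A} (hx : L.IsAut x) :
    L.IsAut (x.map f) := by
  intro i
  have h := congrArg f.mapMatrix (hx i)
  rw [map_mul, map_mul] at h
  have e1 : f.mapMatrix (L.ad A i) = L.ad B i := LieC.ad_map f i
  have e2 : f.mapMatrix (L.adv fun p => x p i) = L.adv fun p => f (x p i) := LieC.adv_map f _
  rw [e1, e2] at h
  exact h

/-- The bracket is preserved if it is preserved after an injective base change. -/
theorem LieC.IsAut.of_map (f : A →+* B) (hf : Function.Injective f)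
    {x : Matrix (Fin L.n) (Fin L.n) A} (hx : L.IsAut (x.map f)) : L.IsAut x := by
  intro i
  have h2 : Function.Injective (f.mapMatrix (m := Fin L.n)) := by
    intro x y hxy
    ext1 i j
    apply hf
    exact congrFun (congrFun hxy i) j
  apply h2
  rw [map_mul, map_mul]
  have e1 : f.mapMatrix (L.ad A i) = L.ad B i := LieC.ad_map f i
  have e2 : f.mapMatrix (L.adv fun p => x p i) = L.adv fun p => f (x p i) := LieC.adv_map f _
  rw [e1, e2]
  exact hx i

/-- The Jacobi identity `[ad e_i, ad e_j] = ad [e_i, e_j]`. -/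
theorem LieC.IsSemisimple.jacobi (h : L.IsSemisimple) (i j : Fin L.n) :
    L.ad ℤ i * L.ad ℤ j - L.ad ℤ j * L.ad ℤ i = ∑ k, L.c i j k • L.ad ℤ k := by
  ext a b
  rw [Matrix.sub_apply, Matrix.mul_apply, Matrix.mul_apply, Matrix.sum_apply,
    ← Finset.sum_sub_distrib, ← sub_eq_zero, ← Finset.sum_sub_distrib, ← neg_eq_zero,
    ← Finset.sum_neg_distrib, ← h.jac i j b a]
  refine Finset.sum_congr rfl fun p _ => ?_
  rw [Matrix.smul_apply, smul_eq_mul]
  simp only [LieC.ad_apply, Int.cast_id]
  rw [h.anti p i a, h.anti b i p, h.anti p j a]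
  ring

/-- The Killing form is nondegenerate. -/
theorem LieC.IsSemisimple.killing (h : L.IsSemisimple) :
    (Matrix.of fun i j => (L.ad ℤ i * L.ad ℤ j).trace).det ≠ 0 := by
  have h1 : (Matrix.of fun i j => (L.ad ℤ i * L.ad ℤ j).trace) =
      Matrix.of fun i j => ∑ p, ∑ q, L.c i p q * L.c j q p := by
    ext i j
    rw [Matrix.of_apply, Matrix.of_apply, Matrix.trace, Finset.sum_comm]
    refine Finset.sum_congr rfl fun q _ => ?_
    rw [Matrix.diag_apply, Matrix.mul_apply]
    refine Finset.sum_congr rfl fun p _ => ?_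
    simp only [LieC.ad_apply, Int.cast_id]
  rw [h1]
  exact h.kil

theorem det_map_one {N : ℕ} (f : A →+* B) {x : Matrix (Fin N) (Fin N) A} (h : x.det = 1) :
    (x.map f).det = 1 := by
  have := f.map_det x
  rw [h, map_one] at this
  exact this.symm

end Vale.Agent.P286.Ad
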