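import Vale.Agent.P286.H527.Pull
import Vale.Agent.P286.Ad.Gs

/-!
# Base change of test objects; the action of a one-parameter group at a split bundle
-/

namespace Vale.Agent.P286.Ad

open CategoryTheory LaurentPolynomial Matrix

noncomputable section

variable {L : LieC}

theorem IsFraming.bc {A B : Type} [CommRing A] [CommRing B] (f : A →+* B)
    {g : SG L A[T;T⁻¹]} {S : (Module.End A (Jx L →₀ A))ˣ}
    (h : IsFraming g S) : IsFraming (som L (lmap f) g) (bcU L f S) := by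
  have h2 := FinRank.bc f h
  rw [bc_sub, bc_toep] at h2
  exact h2

/-- Base change of a test object. -/
abbrev BunObj.pull (X : BunObj L) (B : SmAlg) (f : X.A.R →ₐ[ℂ] B.R) : BunObj L where
  A := B
  g := som L (lmap (f : X.A.R →+* B.R)) X.g
  S := bcU L (f : X.A.R →+* B.R) X.S
  framing := X.framing.bc _

/-- The canonical morphism to the base change. -/
def BunObj.pullHom (X : BunObj L) (B : SmAlg) (f : X.A.R →ₐ[ℂ] B.R) : X ⟶ X.pull B f :=
  ({ f := f
     a := 1
     b := 1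
     glue := by
      apply Glue.mk
      rw [map_one, map_one, one_mul, mul_one] } : BunHom X (X.pull B f))

theorem transport_one {A B : Type} [CommRing A] [CommRing B] (f : A →+* B)
    (S : (Module.End A (Jx L →₀ A))ˣ) : transport f 1 1 S = bcU L f S := by
  rw [transport, map_one, map_one, inv_one, one_mul, mul_one]

theorem transport_id {B : Type} [CommRing B]
    (a b : SG L (Polynomial B)) (S : (Module.End B (Jx L →₀ B))ˣ) :
    transport (RingHom.id B) a b S = toepPos L B a * S * (toepNeg L B b)⁻¹ := by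
  rw [transport, bcU_id]

theorem BunObj.pullHom_dl (X : BunObj L) (B : SmAlg) (f : X.A.R →ₐ[ℂ] B.R) :
    (Bun L).dl (X.pullHom B f) = 1 := by
  apply Units.ext
  change fdet ((transport (f : X.A.R →+* B.R) 1 1 X.S * (bcU L (f : X.A.R →+* B.R) X.S)⁻¹ :
      (Module.End B.R (Jx L →₀ B.R))ˣ) : Module.End B.R (Jx L →₀ B.R)) = 1
  rw [transport_one, mul_inv_cancel, Units.val_one, fdet_one]

/-- `X × G_m` -/
abbrev BunObj.gm (X : BunObj L) : BunObj L := X.pull X.A.laurent (Calg X.A.R)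

/-- The condition that `(a, b)` is an automorphism of `X × G_m`. -/
def GmGlue (X : BunObj L) (a b : SG L (Polynomial (X.A.R)[T;T⁻¹])) : Prop :=
  som L (lmap (LaurentPolynomial.C : X.A.R →+* (X.A.R)[T;T⁻¹])) X.g * neg L (X.A.R)[T;T⁻¹] b =
    pos L (X.A.R)[T;T⁻¹] a * som L (lmap (LaurentPolynomial.C : X.A.R →+* (X.A.R)[T;T⁻¹])) X.g

theorem GmGlue.inv {X : BunObj L} {a b : SG L (Polynomial (X.A.R)[T;T⁻¹])} (h : GmGlue X a b) :
    GmGlue X a⁻¹ b⁻¹ := by
  unfold GmGlue at *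
  rw [map_inv, map_inv, mul_inv_eq_iff_eq_mul, mul_assoc, h, inv_mul_cancel_left]

/-- The automorphism of `X × G_m`. -/
def gmSigma (X : BunObj L) (a b : SG L (Polynomial (X.A.R)[T;T⁻¹])) (ht : GmGlue X a b) :
    X.gm ⟶ X.gm :=
  ({ f := AlgHom.id ℂ (X.A.R)[T;T⁻¹]
     a := a
     b := b
     glue := by
      refine ht.trans ?_
      congr 1
      exact (som_lmap_id _).symm } : BunHom X.gm X.gm)

theorem gmSigma_dl (X : BunObj L) (a b : SG L (Polynomial (X.A.R)[T;T⁻¹])) (ht : GmGlue X a b) :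
    (((Bun L).dl (gmSigma X a b ht) : ((X.A.R)[T;T⁻¹])ˣ) : (X.A.R)[T;T⁻¹]) =
      fdet ((toepPos L (X.A.R)[T;T⁻¹] a *
        bcU L (LaurentPolynomial.C : X.A.R →+* (X.A.R)[T;T⁻¹]) X.S *
        (toepNeg L (X.A.R)[T;T⁻¹] b)⁻¹ *
        (bcU L (LaurentPolynomial.C : X.A.R →+* (X.A.R)[T;T⁻¹]) X.S)⁻¹ :
          (Module.End (X.A.R)[T;T⁻¹] (Jx L →₀ (X.A.R)[T;T⁻¹]))ˣ) :
            Module.End (X.A.R)[T;T⁻¹] (Jx L →₀ (X.A.R)[T;T⁻¹])) := by
  change fdet ((transport (RingHom.id (X.A.R)[T;T⁻¹]) a b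
        (bcU L (LaurentPolynomial.C : X.A.R →+* (X.A.R)[T;T⁻¹]) X.S) *
        (bcU L (LaurentPolynomial.C : X.A.R →+* (X.A.R)[T;T⁻¹]) X.S)⁻¹ :
          (Module.End (X.A.R)[T;T⁻¹] (Jx L →₀ (X.A.R)[T;T⁻¹]))ˣ) :
            Module.End (X.A.R)[T;T⁻¹] (Jx L →₀ (X.A.R)[T;T⁻¹])) = _
  rw [transport_id]

theorem gmSigma_finRank (X : BunObj L) (a b : SG L (Polynomial (X.A.R)[T;T⁻¹]))
    (ht : GmGlue X a b) :
    FinRank (((toepPos L (X.A.R)[T;T⁻¹] a *
        bcU L (LaurentPolynomial.C : X.A.R →+* (X.A.R)[T;T⁻¹]) X.S *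
        (toepNeg L (X.A.R)[T;T⁻¹] b)⁻¹ *
        (bcU L (LaurentPolynomial.C : X.A.R →+* (X.A.R)[T;T⁻¹]) X.S)⁻¹ :
          (Module.End (X.A.R)[T;T⁻¹] (Jx L →₀ (X.A.R)[T;T⁻¹]))ˣ) :
            Module.End (X.A.R)[T;T⁻¹] (Jx L →₀ (X.A.R)[T;T⁻¹])) - 1) := by
  have h : FinRank (((transport (RingHom.id (X.A.R)[T;T⁻¹]) a b
        (bcU L (LaurentPolynomial.C : X.A.R →+* (X.A.R)[T;T⁻¹]) X.S) *
        (bcU L (LaurentPolynomial.C : X.A.R →+* (X.A.R)[T;T⁻¹]) X.S)⁻¹ :
          (Module.End (X.A.R)[T;T⁻¹] (Jx L →₀ (X.A.R)[T;T⁻¹]))ˣ) :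
            Module.End (X.A.R)[T;T⁻¹] (Jx L →₀ (X.A.R)[T;T⁻¹])) - 1) :=
    BunHom.finRank (gmSigma X a b ht)
  rwa [transport_id] at h

/-- The one-parameter group of automorphisms. -/
def gmData (X : BunObj L) (a b : SG L (Polynomial (X.A.R)[T;T⁻¹])) (ht : GmGlue X a b) (m : ℤ)
    (hm : (((Bun L).dl (gmSigma X a b ht) : ((X.A.R)[T;T⁻¹])ˣ) : (X.A.R)[T;T⁻¹]) = T m) :
    GmData (Bun L) X X.gm where
  ι := X.pullHom X.A.laurent (Calg X.A.R)
  e k := (T k : (X.A.R)[T;T⁻¹])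
  E := laurentEquiv X.A.R
  hE k := laurentEquiv_single X.A.R k
  e_zero := T_zero
  v := eulerD X.A.R
  v_res a := eulerD_C X.A.R a
  v_e k := eulerD_T X.A.R k
  v_dl := by
    rw [BunObj.pullHom_dl, Units.val_one]
    exact Derivation.map_one_eq_zero (eulerD X.A.R)
  σ := gmSigma X a b ht
  res_σ := rfl
  c := m
  v_dlσ := by
    have h := eulerD_T X.A.R m
    rw [hm, map_intCast]
    exact h

theorem gmSigma_comp (X : BunObj L) (a b a' b' : SG L (Polynomial (X.A.R)[T;T⁻¹]))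
    (ht) (ht') (haa : a' * a = 1) (hbb : b' * b = 1) :
    gmSigma X a b ht ≫ gmSigma X a' b' ht' = 𝟙 X.gm := by
  have ha : a' * som L (Polynomial.mapRingHom (RingHom.id (X.A.R)[T;T⁻¹])) a = 1 := by
    rw [som_poly_id, haa]
  have hb : b' * som L (Polynomial.mapRingHom (RingHom.id (X.A.R)[T;T⁻¹])) b = 1 := by
    rw [som_poly_id, hbb]
  apply BunHom.ext
  · rfl
  · exact ha
  · exact hb

/-- Equivariance for a torus without resonance forces acyclicity. -/
theorem acyclic_of_torus {s : ℂ} {K : TCx (Bun L) s} (hK : Cartesian K) (X : BunObj L)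
    (a b : SG L (Polynomial (X.A.R)[T;T⁻¹])) (ht : GmGlue X a b) (m : ℤ)
    (hm : (((Bun L).dl (gmSigma X a b ht) : ((X.A.R)[T;T⁻¹])ˣ) : (X.A.R)[T;T⁻¹]) = T m)
    (hs : ∀ k : ℤ, (k : ℂ) + s * m ≠ 0) (j : ℤ) (z : K.obj j X) (hz : K.Cyc X j z) :
    K.Bd X j z :=
  (gmData X a b ht m hm).acyclic hK (gmSigma X a⁻¹ b⁻¹ ht.inv)
    (gmSigma_comp X a b a⁻¹ b⁻¹ ht ht.inv (inv_mul_cancel a) (inv_mul_cancel b)) hs j z hz

/-- A split bundle, with a splitting adapted to the bracket. -/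
structure SplitData {B : Type} [CommRing B] (g : SG L B[T;T⁻¹]) (lam : Fin L.n → ℤ)
    (X Y : Matrix (Fin L.n) (Fin L.n) B[T;T⁻¹]) : Prop where
  hX : MGE 0 X
  hX1 : X.det = 1
  hY : MLE 0 Y
  hY1 : Y.det = 1
  hg : g.m * Y = X * mono lam
  sum : ∑ i, lam i = 0
  gr : ∀ i k j, lam k ≠ lam i + lam j → trb L X i k j = 0

section

variable {B : Type} [CommRing B]

theorem MGE.tau {n : ℕ} (mu : Fin n → ℤ) : MGE 0 (tau B mu) :=
  fun i j => MGE.diag (fun i => T (mu i)) i j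

theorem MLE.tau {n : ℕ} (mu : Fin n → ℤ) : MLE 0 (tau B mu) :=
  fun i j => MLE.diag (fun i => T (mu i)) i j

theorem tau_mul_neg {n : ℕ} (mu : Fin n → ℤ) : tau B mu * tau B (-mu) = 1 := by
  rw [tau, tau, Matrix.diagonal_mul_diagonal, ← Matrix.diagonal_one]
  congr 1
  funext i
  rw [← map_mul, ← T_add, Pi.neg_apply, add_neg_cancel, T_zero, map_one]

theorem tau_neg_mul {n : ℕ} (mu : Fin n → ℤ) : tau B (-mu) * tau B mu = 1 :=
  mul_eq_one_comm.1 (tau_mul_neg mu)

theorem tau_comm_mono {n : ℕ} (mu lam : Fin n → ℤ) : tau B mu * mono lam = mono lam * tau B mu :=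
  diag_comm _ _

theorem det_tau {n : ℕ} (mu : Fin n → ℤ) : (tau B mu).det = LaurentPolynomial.C (T (∑ i, mu i)) := by
  rw [tau, Matrix.det_diagonal, ← map_prod, prod_T]

variable {g : SG L B[T;T⁻¹]} {lam : Fin L.n → ℤ} {X Y : Matrix (Fin L.n) (Fin L.n) B[T;T⁻¹]}

/-- base change along `B → B[t, t⁻¹]` -/
abbrev up {n : ℕ} (X : Matrix (Fin n) (Fin n) B[T;T⁻¹]) : Matrix (Fin n) (Fin n) B[T;T⁻¹][T;T⁻¹] :=
  mp (LaurentPolynomial.C : B →+* B[T;T⁻¹]) X

theorem trb_mp {A : Type} [CommRing A] (f : B →+* A) (X : Matrix (Fin L.n) (Fin L.n) B[T;T⁻¹])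
    (i : Fin L.n) : trb L (mp f X) i = mp f (trb L X i) := by
  unfold trb
  rw [mp_mul, mp_mul, mp_adjugate]
  congr 2
  exact (LieC.adv_map (L := L) (lmap f) fun p => X p i).symm

/-- It suffices to check on a basis that the bracket is preserved. -/
theorem isAut_of_basis {R : Type} [CommRing R] {x W : Matrix (Fin L.n) (Fin L.n) R}
    (hW : W.det = 1)
    (h : ∀ i, x * L.adv (fun p => W p i) = L.adv (x *ᵥ fun p => W p i) * x) : L.IsAut x := by
  have key : ∀ v : Fin L.n → R, x * L.adv (W *ᵥ v) = L.adv (x *ᵥ (W *ᵥ v)) * x := by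
    intro v
    rw [Matrix.mulVec_mulVec, L.adv_mulVec, L.adv_mulVec, Finset.mul_sum, Finset.sum_mul]
    refine Finset.sum_congr rfl fun p _ => ?_
    rw [Matrix.mul_smul, Matrix.smul_mul, h p]
    rfl
  intro i
  have h1 := key (W.adjugate *ᵥ fun p => (1 : Matrix (Fin L.n) (Fin L.n) R) p i)
  rw [Matrix.mulVec_mulVec, self_mul_adjugate hW, Matrix.one_mulVec, L.adv_single] at h1
  rw [h1]
  congr 2
  funext p
  exact congrFun (congrFun (Matrix.mul_one x) p) i

/-- the one-parameter group, on the first chart -/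
def al {n : ℕ} (lam : Fin n → ℤ) (X : Matrix (Fin n) (Fin n) B[T;T⁻¹]) :
    Matrix (Fin n) (Fin n) B[T;T⁻¹][T;T⁻¹] :=
  up X * tau B lam * (up X).adjugate

theorem det_al (h : SplitData g lam X Y) {Z : Matrix (Fin L.n) (Fin L.n) B[T;T⁻¹]}
    (hZ : Z.det = 1) : (al lam Z).det = 1 := by
  have h1 : (up Z).det = 1 := det_mp_one _ hZ
  rw [al, Matrix.det_mul, Matrix.det_mul, h1, det_adjugate_one h1, det_tau, h.sum, T_zero,
    map_one, one_mul, one_mul]

theorem SplitData.tau_gr (h : SplitData g lam X Y) (i : Fin L.n) :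
    tau B lam * trb L (up X) i =
      (LaurentPolynomial.C (T (lam i)) : B[T;T⁻¹][T;T⁻¹]) • (trb L (up X) i * tau B lam) := by
  ext1 k j
  rw [tau, Matrix.smul_apply, smul_eq_mul, Matrix.mul_diagonal, Matrix.diagonal_mul]
  by_cases hij : lam k = lam i + lam j
  · rw [hij, T_add, map_mul]
    ring
  · have h2 : trb L (up X) i k j = 0 := by
      rw [trb_mp]
      show AddMonoidAlgebra.mapRingHom ℤ (LaurentPolynomial.C : B →+* B[T;T⁻¹])
        (trb L X i k j) = 0
      rw [h.gr i k j hij, map_zero]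
    rw [h2, mul_zero, zero_mul, mul_zero]

theorem SplitData.al_aut (h : SplitData g lam X Y) : L.IsAut (al lam X) := by
  have h1 : (up X).det = 1 := det_mp_one _ h.hX1
  refine isAut_of_basis h1 fun i => ?_
  have e1 : (al lam X *ᵥ fun p => up X p i) =
      (LaurentPolynomial.C (T (lam i)) : B[T;T⁻¹][T;T⁻¹]) • fun p => up X p i := by
    have e2 : al lam X * up X = up X * tau B lam := by
      rw [al, Matrix.mul_assoc, adjugate_mul_self h1, Matrix.mul_one]
    have e3 : (al lam X *ᵥ fun p => up X p i) = fun p => (al lam X * up X) p i := rfl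
    rw [e3, e2]
    funext p
    rw [tau, Matrix.mul_diagonal, Pi.smul_apply, smul_eq_mul, mul_comm]
  have e4 : L.adv ((LaurentPolynomial.C (T (lam i)) : B[T;T⁻¹][T;T⁻¹]) • fun p => up X p i) =
      (LaurentPolynomial.C (T (lam i)) : B[T;T⁻¹][T;T⁻¹]) • L.adv fun p => up X p i :=
    adv_smul (L.ad _) _ _
  rw [e1, e4, Matrix.smul_mul]
  have e5 : L.adv (fun p => up X p i) = up X * trb L (up X) i * (up X).adjugate := by
    rw [mul_trb h1, Matrix.mul_assoc, self_mul_adjugate h1, Matrix.mul_one]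
  calc al lam X * L.adv (fun p => up X p i) =
      up X * tau B lam * ((up X).adjugate * up X) * trb L (up X) i * (up X).adjugate := by
        rw [e5, al]; simp only [Matrix.mul_assoc]
    _ = up X * (tau B lam * trb L (up X) i) * (up X).adjugate := by
        rw [adjugate_mul_self h1, Matrix.mul_one]; simp only [Matrix.mul_assoc]
    _ = (LaurentPolynomial.C (T (lam i)) : B[T;T⁻¹][T;T⁻¹]) •
        (up X * trb L (up X) i * ((up X).adjugate * up X) * tau B lam * (up X).adjugate) := by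
        rw [h.tau_gr, adjugate_mul_self h1, Matrix.mul_one, Matrix.mul_smul, Matrix.smul_mul]
        simp only [Matrix.mul_assoc]
    _ = _ := by rw [e5, al]; simp only [Matrix.mul_assoc]

theorem SplitData.glue (h : SplitData g lam X Y) :
    up g.m * al lam Y = al lam X * up g.m := by
  have h1 : (up X).det = 1 := det_mp_one _ h.hX1
  have h2 : (up Y).det = 1 := det_mp_one _ h.hY1
  have h3 : up g.m * up Y = up X * mono lam := by
    have h4 := congrArg (mp (LaurentPolynomial.C : B →+* B[T;T⁻¹])) h.hg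
    rw [mp_mul, mp_mul, mp_mono] at h4
    exact h4
  calc up g.m * al lam Y =
      (up g.m * up Y) * tau B lam * (up Y).adjugate := by
        simp only [al, Matrix.mul_assoc]
    _ = up X * (mono lam * tau B lam) * (up Y).adjugate := by
        rw [h3]; simp only [Matrix.mul_assoc]
    _ = up X * tau B lam * ((up X).adjugate * (up X * mono lam)) *
          (up Y).adjugate := by
        rw [← tau_comm_mono, ← Matrix.mul_assoc (up X).adjugate, adjugate_mul_self h1,
          Matrix.one_mul]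
        simp only [Matrix.mul_assoc]
    _ = al lam X * up g.m := by
        rw [← h3]
        simp only [al, Matrix.mul_assoc]
        rw [self_mul_adjugate h2, Matrix.mul_one]

theorem SplitData.al_aut' (h : SplitData g lam X Y) : L.IsAut (al lam Y) := by
  have h1 : L.IsAut (up g.m) := LieC.IsAut.map (lmap (LaurentPolynomial.C : B →+* B[T;T⁻¹])) g.aut
  have h2 : (up g.m).det = 1 := det_mp_one _ g.det_m
  have h3 : L.IsAut (up g.m).adjugate := h1.of_mul_eq_one (self_mul_adjugate h2)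
  have h4 : al lam Y = (up g.m).adjugate * (al lam X * up g.m) := by
    rw [← h.glue, ← Matrix.mul_assoc, adjugate_mul_self h2, Matrix.one_mul]
  rw [h4]
  exact h3.mul (h.al_aut.mul h1)

end

end

end Vale.Agent.P286.Ad
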