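import Mathlib

/-!
# P286: Lie algebras given by sparse integer tables

`L i j` is the list of the terms `(k, a)` of the bracket of the basis elements `i`, `j`.  The
checks `okB`, `okA`, `okJ`, `okK`, `okI` are computable; they imply antisymmetry, the Jacobi
identity and the nondegeneracy of the Killing form of the structure constants `cst L`.
-/

namespace Vale.Agent.P286.Ad.Sparse

/-- The coefficient of `k`. -/
def co : List (ℕ × ℤ) → ℕ → ℤ
  | [], _ => 0
  | t :: l, k => bif Nat.beq t.1 k then t.2 + co l k else co l k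

/-- All coefficients are zero. -/
def zro (l : List (ℕ × ℤ)) : Bool := l.all fun t => co l t.1 == 0

/-- The bracket of the bracket of `i`, `j` with `k`. -/
def dbl (L : ℕ → ℕ → List (ℕ × ℤ)) (i j k : ℕ) : List (ℕ × ℤ) :=
  (L i j).flatMap fun t => (L t.1 k).map fun s => (s.1, t.2 * s.2)

/-- The Jacobi sum. -/
def jac (L : ℕ → ℕ → List (ℕ × ℤ)) (i j k : ℕ) : List (ℕ × ℤ) :=
  dbl L i j k ++ (dbl L j k i ++ dbl L k i j)

/-- The indices are smaller than `n`. -/
def okB (n : ℕ) (L : ℕ → ℕ → List (ℕ × ℤ)) : Bool :=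
  (List.range n).all fun i => (List.range n).all fun j => (L i j).all fun t => Nat.blt t.1 n

/-- Antisymmetry. -/
def okA (n : ℕ) (L : ℕ → ℕ → List (ℕ × ℤ)) : Bool :=
  (List.range n).all fun i => (List.range (i + 1)).all fun j => zro (L i j ++ L j i)

/-- The Jacobi identity for `k < j < i`. -/
def okJ (L : ℕ → ℕ → List (ℕ × ℤ)) (i : ℕ) : Bool :=
  (List.range i).all fun j => (List.range j).all fun k => zro (jac L k j i)

/-- An entry of the Killing form. -/
def kap (n : ℕ) (L : ℕ → ℕ → List (ℕ × ℤ)) (i j : ℕ) : ℤ :=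
  ((List.range n).map fun p => ((L i p).map fun t => t.2 * co (L j t.1) p).sum).sum

/-- The Killing form is given by the sparse rows `K`. -/
def okK (n : ℕ) (L : ℕ → ℕ → List (ℕ × ℤ)) (K : ℕ → List (ℕ × ℤ)) (i : ℕ) : Bool :=
  (List.range n).all fun j => kap n L i j == co (K i) j

/-- The rows `K` and the rows `K'` multiply to `m`. -/
def okI (n : ℕ) (K K' : ℕ → List (ℕ × ℤ)) (m : ℤ) : Bool :=
  (List.range n).all fun i => ((K i).all fun t => Nat.blt t.1 n) &&
    (List.range n).all fun j => ((K i).map fun t => t.2 * co (K' t.1) j).sum ==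
      (bif Nat.beq i j then m else 0)

theorem co_eq (l : List (ℕ × ℤ)) (k : ℕ) :
    co l k = (l.map fun t => if t.1 = k then t.2 else 0).sum := by
  induction l with
  | nil => rfl
  | cons t l ih =>
    rw [co, List.map_cons, List.sum_cons, ih]
    by_cases h : t.1 = k
    · have h1 : Nat.beq t.1 k = true := Nat.beq_eq.mpr h
      rw [h1, if_pos h]
      rfl
    · have h1 : Nat.beq t.1 k = false := by
        rw [Bool.eq_false_iff]
        exact fun h2 => h (Nat.beq_eq.mp h2)
      rw [h1, if_neg h, zero_add]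
      rfl

theorem co_append (l l' : List (ℕ × ℤ)) (k : ℕ) : co (l ++ l') k = co l k + co l' k := by
  rw [co_eq, co_eq, co_eq, List.map_append, List.sum_append]

theorem co_zro {l : List (ℕ × ℤ)} (h : zro l = true) (k : ℕ) : co l k = 0 := by
  by_cases hk : ∃ t ∈ l, t.1 = k
  · obtain ⟨t, ht, rfl⟩ := hk
    have h1 := List.all_eq_true.mp h t ht
    exact eq_of_beq h1
  · push Not at hk
    rw [co_eq]
    refine List.sum_eq_zero fun x hx => ?_
    obtain ⟨t, ht, rfl⟩ := List.mem_map.mp hx
    rw [if_neg (hk t ht)]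

/-- Sums over `Fin n` against a sparse list. -/
theorem sum_co {n : ℕ} {l : List (ℕ × ℤ)} (hl : ∀ t ∈ l, t.1 < n) (f : ℕ → ℤ) :
    ∑ p : Fin n, co l p * f p = (l.map fun t => t.2 * f t.1).sum := by
  induction l with
  | nil => simp [co]
  | cons t l ih =>
    have ht : t.1 < n := hl t (List.mem_cons_self ..)
    rw [List.map_cons, List.sum_cons, ← ih fun s hs => hl s (List.mem_cons_of_mem _ hs)]
    have h1 : ∀ p : Fin n, co (t :: l) p * f p =
        (if (⟨t.1, ht⟩ : Fin n) = p then t.2 * f t.1 else 0) + co l p * f p := by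
      intro p
      rw [co_eq, List.map_cons, List.sum_cons, ← co_eq]
      by_cases h : t.1 = (p : ℕ)
      · have h2 : (⟨t.1, ht⟩ : Fin n) = p := Fin.ext h
        rw [if_pos h, if_pos h2, h, add_mul]
      · have h2 : ¬ (⟨t.1, ht⟩ : Fin n) = p := fun h3 => h (by rw [← h3])
        rw [if_neg h, if_neg h2, zero_add, zero_add]
    rw [Finset.sum_congr rfl fun p _ => h1 p, Finset.sum_add_distrib, Finset.sum_ite_eq]
    simp

theorem co_dbl (L : ℕ → ℕ → List (ℕ × ℤ)) (i j k l : ℕ) :
    co (dbl L i j k) l = ((L i j).map fun t => t.2 * co (L t.1 k) l).sum := by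
  unfold dbl
  induction L i j with
  | nil => rfl
  | cons t m ih =>
    rw [List.flatMap_cons, co_append, ih, List.map_cons, List.sum_cons]
    congr 1
    rw [co_eq, co_eq, List.map_map]
    induction L t.1 k with
    | nil => simp
    | cons s r ih2 =>
      rw [List.map_cons, List.map_cons, List.sum_cons, List.sum_cons, ih2, mul_add]
      congr 1
      simp only [Function.comp_apply]
      split_ifs <;> simp

variable {n : ℕ} {L : ℕ → ℕ → List (ℕ × ℤ)}

/-- The structure constants. -/
def cst (n : ℕ) (L : ℕ → ℕ → List (ℕ × ℤ)) (i j k : Fin n) : ℤ := co (L i j) k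

theorem bound (hB : okB n L = true) {i j : ℕ} (hi : i < n) (hj : j < n) :
    ∀ t ∈ L i j, t.1 < n := by
  intro t ht
  have h1 := List.all_eq_true.mp hB i (List.mem_range.mpr hi)
  have h2 := List.all_eq_true.mp h1 j (List.mem_range.mpr hj)
  have h3 := List.all_eq_true.mp h2 t ht
  exact Nat.blt_eq.mp h3

theorem anti_nat (hA : okA n L = true) {i j : ℕ} (hi : i < n) (hj : j < n) (k : ℕ) :
    co (L i j) k = - co (L j i) k := by
  have key : ∀ i j : ℕ, i < n → j ≤ i → co (L i j) k + co (L j i) k = 0 := by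
    intro i j hi hj
    have h1 := List.all_eq_true.mp hA i (List.mem_range.mpr hi)
    have h2 := List.all_eq_true.mp h1 j (List.mem_range.mpr (by omega))
    rw [← co_append]
    exact co_zro h2 k
  rcases Nat.le_total j i with h | h
  · have := key i j hi h
    omega
  · have := key j i hj h
    omega

/-- **Antisymmetry.** -/
theorem cst_anti (hA : okA n L = true) (i j k : Fin n) : cst n L i j k = - cst n L j i k :=
  anti_nat hA i.2 j.2 k

/-- The Jacobi sum of structure constants. -/
def J (n : ℕ) (L : ℕ → ℕ → List (ℕ × ℤ)) (i j k l : Fin n) : ℤ :=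
  ∑ p, (cst n L i j p * cst n L p k l + cst n L j k p * cst n L p i l +
    cst n L k i p * cst n L p j l)

theorem J_eq (hB : okB n L = true) (i j k l : Fin n) : J n L i j k l = co (jac L i j k) l := by
  have h1 : ∀ i j k : Fin n, ∑ p, cst n L i j p * cst n L p k l = co (dbl L i j k) l := by
    intro i j k
    rw [co_dbl]
    exact sum_co (bound hB i.2 j.2) fun p => co (L p k) l
  unfold J jac
  rw [Finset.sum_add_distrib, Finset.sum_add_distrib, h1, h1, h1, co_append, co_append]
  ring

theorem J_cyc (i j k l : Fin n) : J n L i j k l = J n L j k i l := by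
  unfold J
  refine Finset.sum_congr rfl fun p _ => ?_
  ring

theorem J_swap (hA : okA n L = true) (i j k l : Fin n) : J n L i j k l = - J n L j i k l := by
  unfold J
  rw [← Finset.sum_neg_distrib]
  refine Finset.sum_congr rfl fun p _ => ?_
  rw [cst_anti hA i j p, cst_anti hA j k p, cst_anti hA k i p]
  ring

theorem J_self (hA : okA n L = true) (i k l : Fin n) : J n L i i k l = 0 := by
  have := J_swap hA i i k l
  omega

theorem J_lt (hB : okB n L = true) (hJ : ∀ i < n, okJ L i = true) {i j k : Fin n} (l : Fin n)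
    (hij : i < j) (hjk : j < k) : J n L i j k l = 0 := by
  rw [J_eq hB]
  have h1 := List.all_eq_true.mp (hJ k k.2) j (List.mem_range.mpr hjk)
  have h2 := List.all_eq_true.mp h1 i (List.mem_range.mpr hij)
  exact co_zro h2 l

/-- **The Jacobi identity.** -/
theorem cst_jacobi (hB : okB n L = true) (hA : okA n L = true) (hJ : ∀ i < n, okJ L i = true)
    (i j k l : Fin n) :
    ∑ p, (cst n L i j p * cst n L p k l + cst n L j k p * cst n L p i l +
      cst n L k i p * cst n L p j l) = 0 := by
  have key : ∀ i j k : Fin n, i < j → J n L i j k l = 0 := by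
    intro i j k hij
    rcases lt_trichotomy k i with h | h | h
    · rw [J_cyc, J_cyc]
      exact J_lt hB hJ l h hij
    · rw [h, J_cyc, J_cyc]
      exact J_self hA _ _ _
    · rcases lt_trichotomy k j with h2 | h2 | h2
      · rw [J_cyc, J_cyc, J_swap hA, J_lt hB hJ l h h2, neg_zero]
      · rw [h2, J_cyc]
        exact J_self hA _ _ _
      · exact J_lt hB hJ l hij h2
  change J n L i j k l = 0
  rcases lt_trichotomy i j with h | h | h
  · exact key i j k h
  · rw [h]
    exact J_self hA _ _ _
  · rw [J_swap hA, key j i k h, neg_zero]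

theorem list_sum_range (n : ℕ) (f : ℕ → ℤ) : ((List.range n).map f).sum = ∑ p : Fin n, f p := by
  rw [Fin.sum_univ_eq_sum_range, ← List.sum_toFinset f List.nodup_range, List.toFinset_range]

theorem kap_eq (hB : okB n L = true) (i j : Fin n) :
    kap n L i j = ∑ p : Fin n, ∑ q : Fin n, cst n L i p q * cst n L j q p := by
  unfold kap
  rw [list_sum_range]
  refine Finset.sum_congr rfl fun p _ => ?_
  exact (sum_co (bound hB i.2 p.2) fun q => co (L j q) p).symm

/-- **The Killing form is nondegenerate.** -/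
theorem cst_killing (hB : okB n L = true) {K K' : ℕ → List (ℕ × ℤ)} {m : ℤ}
    (hK : ∀ i < n, okK n L K i = true) (hI : okI n K K' m = true) :
    (Matrix.of fun i j : Fin n => ∑ p, ∑ q, cst n L i p q * cst n L j q p) *
      (Matrix.of fun i j : Fin n => co (K' i) j) = m • (1 : Matrix (Fin n) (Fin n) ℤ) := by
  ext i j
  rw [Matrix.mul_apply]
  have h0 : ∀ j : Fin n, (∑ p, ∑ q, cst n L i p q * cst n L j q p) = co (K i) j := by
    intro j
    rw [← kap_eq hB]
    have h1 := List.all_eq_true.mp (hK i i.2) j (List.mem_range.mpr j.2)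
    exact eq_of_beq h1
  have h2 := List.all_eq_true.mp hI i (List.mem_range.mpr i.2)
  rw [Bool.and_eq_true] at h2
  have h3 : ∀ t ∈ K i, t.1 < n := fun t ht => Nat.blt_eq.mp (List.all_eq_true.mp h2.1 t ht)
  have h4 := List.all_eq_true.mp h2.2 j (List.mem_range.mpr j.2)
  have h5 := eq_of_beq h4
  have h6 := sum_co h3 fun p => co (K' p) j
  simp only [Matrix.of_apply, h0]
  rw [h6, h5, Matrix.smul_apply, Matrix.one_apply]
  by_cases h : i = j
  · have h7 : Nat.beq (i : ℕ) (j : ℕ) = true := Nat.beq_eq.mpr (by rw [h])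
    rw [h7, if_pos h]
    simp
  · have h7 : Nat.beq (i : ℕ) (j : ℕ) = false := by
      rw [Bool.eq_false_iff]
      exact fun h8 => h (Fin.ext (Nat.beq_eq.mp h8))
    rw [h7, if_neg h]
    simp

theorem cst_killing_det (hB : okB n L = true) {K K' : ℕ → List (ℕ × ℤ)} {m : ℤ} (hm : m ≠ 0)
    (hK : ∀ i < n, okK n L K i = true) (hI : okI n K K' m = true) :
    (Matrix.of fun i j : Fin n => ∑ p, ∑ q, cst n L i p q * cst n L j q p).det ≠ 0 := by
  intro h
  have h1 := congrArg Matrix.det (cst_killing hB hK hI)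
  rw [Matrix.det_mul, h, zero_mul, Matrix.det_smul, Matrix.det_one, mul_one] at h1
  exact pow_ne_zero _ hm h1.symm

end Vale.Agent.P286.Ad.Sparse
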