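import Vale.Agent.P286.Ad.Fact

/-! Generic splitting of bundles over a domain. -/

namespace Vale.Agent.P286.Ad

open LaurentPolynomial Matrix

noncomputable section

variable {L : LieC}

theorem diag_comm {N : ℕ} {R : Type} [CommRing R] (d e : Fin N → R) :
    Matrix.diagonal d * Matrix.diagonal e = Matrix.diagonal e * Matrix.diagonal d := by
  rw [Matrix.diagonal_mul_diagonal, Matrix.diagonal_mul_diagonal]
  congr 1
  funext i
  exact mul_comm _ _

theorem MGE.diag {N : ℕ} {B : Type} [CommRing B] (c : Fin N → B) :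
    MGE 0 (Matrix.diagonal fun i => (LaurentPolynomial.C (c i) : B[T;T⁻¹])) := by
  intro i j
  rw [Matrix.diagonal_apply]
  split_ifs
  · exact GE.C _
  · exact GE.zero _

theorem MLE.diag {N : ℕ} {B : Type} [CommRing B] (c : Fin N → B) :
    MLE 0 (Matrix.diagonal fun i => (LaurentPolynomial.C (c i) : B[T;T⁻¹])) := by
  intro i j
  rw [Matrix.diagonal_apply]
  split_ifs
  · exact LE.C _
  · exact LE.zero _

/-- The Toeplitz operator of a trivial bundle is invertible. -/
theorem isUnit_vtoep_of_trivial {K : Type} [CommRing K] {X Y g : Matrix (Fin L.n) (Fin L.n) K[T;T⁻¹]}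
    (hX : MGE 0 X) (hX1 : X.det = 1) (hY : MLE 0 Y) (hY1 : Y.det = 1) (h : g * Y = X) :
    IsUnit (vtoep g) := by
  have h1 : g = X * Y.adjugate := by
    rw [← h, Matrix.mul_assoc, self_mul_adjugate hY1, Matrix.mul_one]
  rw [h1, vtoep_pos_mul hX]
  refine IsUnit.mul ?_ ?_
  · refine ⟨⟨vtoep X, vtoep X.adjugate, ?_, ?_⟩, rfl⟩
    · rw [← vtoep_pos_mul hX, self_mul_adjugate hX1, vtoep_one]
    · rw [← vtoep_pos_mul hX.adjugate, adjugate_mul_self hX1, vtoep_one]
  · refine ⟨⟨vtoep Y.adjugate, vtoep Y, ?_, ?_⟩, rfl⟩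
    · rw [← vtoep_mul_neg _ hY, adjugate_mul_self hY1, vtoep_one]
    · rw [← vtoep_mul_neg _ hY.adjugate, self_mul_adjugate hY1, vtoep_one]

/-- Over a domain, a bundle which is not generically trivial is generically a
nontrivial split bundle. -/
theorem generic_split {A : Type} [CommRing A] [IsDomain A]
    (g : SG L A[T;T⁻¹]) (S : (Module.End A (Jx L →₀ A))ˣ)
    (hS : IsFraming g S) (hθ : theta g S = 0) :
    ∃ h : A, h ≠ 0 ∧ ∃ lam : Fin L.n → ℤ, lam ≠ 0 ∧ ∑ i, lam i = 0 ∧
      ∃ X Y : Matrix (Fin L.n) (Fin L.n) (Localization.Away h)[T;T⁻¹], MGE 0 X ∧ X.det = 1 ∧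
        MLE 0 Y ∧ Y.det = 1 ∧
        mp (algebraMap A (Localization.Away h)) g.m * Y = X * mono lam := by
  classical
  let K := FractionRing A
  let al : A →+* K := algebraMap A K
  let gK : SG L K[T;T⁻¹] := som L (lmap al) g
  have hgK : (gK.gl : Matrix (Fin L.n) (Fin L.n) K[T;T⁻¹]).det = T 0 := by
    rw [SG.gl_val, SG.det_m, T_zero]
  obtain ⟨a0, b0, l, ha, ha1, hb, hb1, hab, hl⟩ := birkhoff
    (gK.gl : Matrix (Fin L.n) (Fin L.n) K[T;T⁻¹]) gK.m.adjugate (by rw [SG.gl_val, self_mul_adjugate gK.det_m]) hgK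
  rw [SG.gl_val] at hab
  set X := a0.adjugate with hX
  set Y := b0.adjugate with hY
  have hXG : MGE 0 X := ha.adjugate
  have hYL : MLE 0 Y := hb.adjugate
  have hX1 : X.det = 1 := det_adjugate_one ha1
  have hY1 : Y.det = 1 := det_adjugate_one hb1
  have hXY : gK.m * Y = X * mono l := by
    calc gK.m * Y = (X * a0) * gK.m * Y := by
          rw [hX, adjugate_mul_self ha1, Matrix.one_mul]
      _ = X * (mono l * b0) * Y := by rw [Matrix.mul_assoc X, hab]
      _ = X * mono l * (b0 * Y) := by simp only [Matrix.mul_assoc]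
      _ = X * mono l := by rw [hY, self_mul_adjugate hb1, Matrix.mul_one]
  -- nonzero exponents
  have hne : l ≠ 0 := by
    intro hlz
    rw [hlz, mono_zero, Matrix.mul_one] at hXY
    have h3 : IsUnit (toep gK) := isUnit_vtoep_of_trivial hXG hX1 hYL hY1 hXY
    have hfr := theta_finRank hS
    have h4 : IsUnit (bc al (toep g * ((S⁻¹ : (Module.End A (Jx L →₀ A))ˣ) : Module.End A (Jx L →₀ A)))) := by
      rw [bc_mul, bc_toep]
      exact h3.mul ((S⁻¹).isUnit.map (bcHom (Jx L) al))
    have h5 := isUnit_fdet (FinRank.bc_sub_one al hfr) h4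
    have h6 : fdet (toep g * ((S⁻¹ : (Module.End A (Jx L →₀ A))ˣ) : Module.End A (Jx L →₀ A))) = 0 := hθ
    rw [fdet_bc al hfr, h6, map_zero] at h5
    exact not_isUnit_zero h5
  -- spreading out
  let s : Finset K := Finset.univ.biUnion fun ij : Fin L.n × Fin L.n =>
    (X ij.1 ij.2).coeff.support.image (fun m => (X ij.1 ij.2).coeff m) ∪
    (Y ij.1 ij.2).coeff.support.image (fun m => (Y ij.1 ij.2).coeff m)
  obtain ⟨⟨h, hh⟩, hs⟩ := IsLocalization.exist_integer_multiples_of_finset (nonZeroDivisors A) s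
  have hh0 : h ≠ 0 := nonZeroDivisors.ne_zero hh
  have halh : al h ≠ 0 := by
    intro h0
    exact hh0 (IsFractionRing.injective A K (by rw [h0, map_zero]))
  let φ : Localization.Away h →+* K :=
    IsLocalization.Away.lift (S := Localization.Away h) h (g := al) (isUnit_iff_ne_zero.mpr halh)
  have hφal : φ.comp (algebraMap A (Localization.Away h)) = al :=
    IsLocalization.Away.lift_comp h _
  have hφa : ∀ a, φ (algebraMap A (Localization.Away h) a) = al a := fun a =>
    RingHom.congr_fun hφal a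
  have hφinj : Function.Injective φ := by
    rw [injective_iff_map_eq_zero]
    intro x hx
    obtain ⟨⟨y, ⟨_, ⟨j, rfl⟩⟩⟩, hy⟩ := IsLocalization.surj (Submonoid.powers h) x
    simp only at hy
    have h1 : al y = 0 := by rw [← hφa, ← hy, map_mul, hx, zero_mul]
    have h2 : y = 0 := IsFractionRing.injective A K (by rw [map_zero]; exact h1)
    rw [h2, map_zero] at hy
    have hu : IsUnit (algebraMap A (Localization.Away h) (h ^ j)) := by
      rw [map_pow]
      exact (IsLocalization.Away.algebraMap_isUnit h).pow j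
    exact (hu.mul_left_eq_zero).mp hy
  have hrange : ∀ c ∈ s, ∃ r, φ r = c := by
    intro c hc
    obtain ⟨r, hr⟩ := hs c hc
    obtain ⟨u, hu⟩ := IsLocalization.Away.algebraMap_isUnit (S := Localization.Away h) h
    refine ⟨(u⁻¹ : (Localization.Away h)ˣ) * algebraMap A _ r, ?_⟩
    have h1 : φ u * φ ((u⁻¹ : (Localization.Away h)ˣ) * algebraMap A _ r) = al h * c := by
      rw [← map_mul, ← mul_assoc, Units.mul_inv, one_mul, hφa]
      rw [show al r = algebraMap A K r from rfl, hr, Algebra.smul_def]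
    rw [hu, hφa] at h1
    exact mul_left_cancel₀ halh h1
  let r : K → Localization.Away h := fun c =>
    if hc : c = 0 then 0 else if hc : ∃ r, φ r = c then hc.choose else 0
  have hr0 : r 0 = 0 := by simp [r]
  have hr : ∀ c ∈ s, φ (r c) = c := by
    intro c hc
    by_cases h0 : c = 0
    · rw [h0, hr0, map_zero]
    · simp only [r, dif_neg h0, dif_pos (hrange c hc)]
      exact (hrange c hc).choose_spec
  let lift : K[T;T⁻¹] → (Localization.Away h)[T;T⁻¹] := fun x => ⟨x.coeff.mapRange r hr0⟩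
  have hlift : ∀ x : K[T;T⁻¹], (∀ m, x.coeff m ≠ 0 → x.coeff m ∈ s) → lmap φ (lift x) = x := by
    intro x hx
    ext m
    rw [lmap, AddMonoidAlgebra.coeff_mapRingHom]
    show φ ((x.coeff.mapRange r hr0) m) = _
    rw [Finsupp.mapRange_apply]
    by_cases h0 : x.coeff m = 0
    · rw [h0, hr0, map_zero]
    · exact hr _ (hx m h0)
  have hliftc : ∀ (x : K[T;T⁻¹]) m, x.coeff m = 0 → (lift x).coeff m = 0 := by
    intro x m hx
    show (x.coeff.mapRange r hr0) m = 0
    rw [Finsupp.mapRange_apply, hx, hr0]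
  let X' : Matrix (Fin L.n) (Fin L.n) (Localization.Away h)[T;T⁻¹] := Matrix.of fun i j => lift (X i j)
  let Y' : Matrix (Fin L.n) (Fin L.n) (Localization.Away h)[T;T⁻¹] := Matrix.of fun i j => lift (Y i j)
  have hX' : mp φ X' = X := by
    ext1 i j
    refine hlift (X i j) fun m hm => ?_
    simp only [s, Finset.mem_biUnion, Finset.mem_univ, true_and, Finset.mem_union, Finset.mem_image]
    exact ⟨(i, j), Or.inl ⟨m, Finsupp.mem_support_iff.mpr hm, rfl⟩⟩
  have hY' : mp φ Y' = Y := by
    ext1 i j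
    refine hlift (Y i j) fun m hm => ?_
    simp only [s, Finset.mem_biUnion, Finset.mem_univ, true_and, Finset.mem_union, Finset.mem_image]
    exact ⟨(i, j), Or.inr ⟨m, Finsupp.mem_support_iff.mpr hm, rfl⟩⟩
  have hX'G : MGE 0 X' := fun i j m hm => hliftc _ _ (hXG i j m hm)
  have hY'L : MLE 0 Y' := fun i j m hm => hliftc _ _ (hYL i j m hm)
  have hinj := lmap_injective φ hφinj
  have hX'1 : X'.det = 1 := by
    apply hinj
    have := det_mp φ X'
    rw [hX', hX1] at this
    rw [map_one]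
    exact this.symm
  have hY'1 : Y'.det = 1 := by
    apply hinj
    have := det_mp φ Y'
    rw [hY', hY1] at this
    rw [map_one]
    exact this.symm
  refine ⟨h, hh0, l, hne, hl, X', Y', hX'G, hX'1, hY'L, hY'1, ?_⟩
  have hmpinj : ∀ M M' : Matrix (Fin L.n) (Fin L.n) (Localization.Away h)[T;T⁻¹],
      mp φ M = mp φ M' → M = M' := by
    intro M M' hMM
    ext1 i j
    exact hinj (congrFun (congrFun hMM i) j)
  apply hmpinj
  rw [mp_mul, mp_mul, hX', hY']
  have e1 : mp φ (mp (algebraMap A (Localization.Away h)) g.m) = gK.m := by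
    ext1 i j
    show lmap φ (lmap (algebraMap A (Localization.Away h)) (g.m i j)) = lmap al (g.m i j)
    rw [lmap_comp, hφal]
  have e2 : mp φ (mono l : Matrix (Fin L.n) (Fin L.n) (Localization.Away h)[T;T⁻¹]) = mono l :=
    mp_mono φ l
  rw [e1, e2, hXY]

theorem MGE.mp' {A B : Type} [CommRing A] [CommRing B] (f : A →+* B) {k : ℤ}
    {X : Matrix (Fin L.n) (Fin L.n) A[T;T⁻¹]} (h : MGE k X) : MGE k (mp f X) := fun i j => (h i j).map f

theorem MLE.mp' {A B : Type} [CommRing A] [CommRing B] (f : A →+* B) {k : ℤ}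
    {X : Matrix (Fin L.n) (Fin L.n) A[T;T⁻¹]} (h : MLE k X) : MLE k (mp f X) := fun i j => (h i j).map f

theorem mp_mp {A B D : Type} [CommRing A] [CommRing B] [CommRing D] (f : A →+* B) (g : B →+* D)
    (X : Matrix (Fin L.n) (Fin L.n) A[T;T⁻¹]) : mp g (mp f X) = mp (g.comp f) X := by
  ext1 i j
  exact lmap_lmap f g _

theorem det_mp_one {A B : Type} [CommRing A] [CommRing B] (f : A →+* B)
    {X : Matrix (Fin L.n) (Fin L.n) A[T;T⁻¹]} (h : X.det = 1) : (mp f X).det = 1 := by
  rw [det_mp, h, map_one]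

end

end Vale.Agent.P286.Ad
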