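import Vale.Agent.P286.H211.Torus
import Vale.Agent.P286.H211.Fact
import Vale.Agent.P286.H527.Maps

/-!
# Toeplitz operators on vectors

For a matrix `g` over `A[z, z⁻¹]` the operator `vtoep g : x ↦ (g x)_{≤ 0}` on `A[z⁻¹]ⁿ`.
-/

namespace Vale.Agent.P286.Ad

open LaurentPolynomial Matrix

noncomputable section

variable {n : ℕ} {A B : Type} [CommRing A] [CommRing B]

/-- The basis `e_p z^{-l}` of `A[z⁻¹]ⁿ`, indexed by `(l, p)`. -/
abbrev Vx (n : ℕ) : Type := ℕ × Fin n

/-- The isomorphism of free modules `Vx n →₀ A ≃ A[z⁻¹]ⁿ`, followed by the inclusion into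
`A[z,z⁻¹]ⁿ`. -/
def toV (n : ℕ) (A : Type) [CommRing A] : (Vx n →₀ A) →ₗ[A] (Fin n → A[T;T⁻¹]) :=
  Finsupp.linearCombination A fun i : Vx n => Pi.single i.2 (T (-(i.1 : ℤ)))

/-- The nonpositive part of a Laurent vector, as a map; see `vpart_apply`. -/
def vpartFun (n : ℕ) (A : Type) [CommRing A] (v : Fin n → A[T;T⁻¹]) : Vx n →₀ A :=
  ∑ p : Fin n, ((v p).coeff.comapDomain (fun l : ℕ => -(l : ℤ))
      (fun x _ y _ h => by simpa using h)).mapDomain (fun l : ℕ => ((l, p) : Vx n))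

theorem vpartFun_apply (v : Fin n → A[T;T⁻¹]) (i : Vx n) :
    vpartFun n A v i = (v i.2).coeff (-(i.1 : ℤ)) := by
  classical
  obtain ⟨l, p⟩ := i
  have key : ∀ p' : Fin n, (((v p').coeff.comapDomain (fun l : ℕ => -(l : ℤ))
      (fun x _ y _ h => by simpa using h)).mapDomain (fun l : ℕ => ((l, p') : Vx n))) (l, p)
      = if p' = p then (v p).coeff (-(l : ℤ)) else 0 := by
    intro p'
    split_ifs with h
    · subst h
      rw [Finsupp.mapDomain_apply (fun a b h => by simpa using h)]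
      rfl
    · apply Finsupp.mapDomain_of_notMem_range
      rintro ⟨l', h'⟩
      simp only [Prod.mk.injEq] at h'
      exact h h'.2
  simp only [vpartFun, Finsupp.coe_finsetSum, Finset.sum_apply, key]
  rw [Finset.sum_ite_eq' Finset.univ p]
  simp

/-- The part of nonpositive degree of a Laurent vector, as an element of `A[z⁻¹]ⁿ`. -/
def vpart (n : ℕ) (A : Type) [CommRing A] : (Fin n → A[T;T⁻¹]) →ₗ[A] (Vx n →₀ A) where
  toFun := vpartFun n A
  map_add' v w := by ext i; simp [vpartFun_apply]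
  map_smul' a v := by ext i; simp [vpartFun_apply]

theorem vpart_apply (v : Fin n → A[T;T⁻¹]) (i : Vx n) :
    vpart n A v i = (v i.2).coeff (-(i.1 : ℤ)) := vpartFun_apply v i

/-- Multiplication of a vector by a matrix over `A[z, z⁻¹]`, as an `A`-linear map. -/
def mulV (g : Matrix (Fin n) (Fin n) A[T;T⁻¹]) :
    (Fin n → A[T;T⁻¹]) →ₗ[A] (Fin n → A[T;T⁻¹]) where
  toFun v := g *ᵥ v
  map_add' v w := Matrix.mulVec_add g v w
  map_smul' a v := Matrix.mulVec_smul g a v

/-- The Toeplitz operator `x ↦ (g x)_{≤ 0}` on `A[z⁻¹]ⁿ`. -/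
def vtoep (g : Matrix (Fin n) (Fin n) A[T;T⁻¹]) : Module.End A (Vx n →₀ A) :=
  (vpart n A).comp ((mulV g).comp (toV n A))

theorem vtoep_apply (g : Matrix (Fin n) (Fin n) A[T;T⁻¹]) (x : Vx n →₀ A) :
    vtoep g x = vpart n A (g *ᵥ toV n A x) := rfl

/-! ### Vectors of bounded degree -/

/-- all entries have degree `≤ k` -/
def VLE (k : ℤ) (v : Fin n → A[T;T⁻¹]) : Prop := ∀ i, LE k (v i)

/-- all entries have order `≥ k` -/
def VGE (k : ℤ) (v : Fin n → A[T;T⁻¹]) : Prop := ∀ i, GE k (v i)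

theorem VLE.mulVec {k k' : ℤ} {g : Matrix (Fin n) (Fin n) A[T;T⁻¹]} (h : MLE k g)
    {v : Fin n → A[T;T⁻¹]} (hv : VLE k' v) : VLE (k + k') (g *ᵥ v) := by
  intro i
  exact LE.sum _ fun j _ => (h i j).mul (hv j)

theorem VGE.mulVec {k k' : ℤ} {g : Matrix (Fin n) (Fin n) A[T;T⁻¹]} (h : MGE k g)
    {v : Fin n → A[T;T⁻¹]} (hv : VGE k' v) : VGE (k + k') (g *ᵥ v) := by
  intro i
  exact GE.sum _ fun j _ => (h i j).mul (hv j)

theorem toV_apply (x : Vx n →₀ A) (p : Fin n) :
    toV n A x p = x.sum fun i a => if i.2 = p then LaurentPolynomial.C a * T (-(i.1 : ℤ)) else 0 := by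
  rw [toV, Finsupp.linearCombination_apply, Finsupp.sum, Finsupp.sum, Finset.sum_apply]
  refine Finset.sum_congr rfl fun i _ => ?_
  rw [Pi.smul_apply, Pi.single_apply]
  by_cases h : i.2 = p
  · rw [if_pos h, if_pos h.symm, LaurentPolynomial.smul_eq_C_mul]
  · rw [if_neg h, if_neg (fun h' => h h'.symm), smul_zero]

theorem toV_coeff (x : Vx n →₀ A) (p : Fin n) (l : ℕ) :
    (toV n A x p).coeff (-(l : ℤ)) = x (l, p) := by
  classical
  rw [toV_apply, Finsupp.sum, AddMonoidAlgebra.coeff_sum, Finsupp.finsetSum_apply]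
  rw [Finset.sum_eq_single (l, p)]
  · simp [← single_eq_C_mul_T]
  · rintro ⟨l', p'⟩ _ hne
    simp only
    split_ifs with h
    · subst h
      have : l' ≠ l := fun h => hne (by rw [h])
      rw [← single_eq_C_mul_T, AddMonoidAlgebra.coeff_single, Finsupp.single_apply,
        if_neg (by omega)]
    · simp
  · intro h
    rw [Finsupp.notMem_support_iff.mp h]
    simp

theorem toV_VLE (x : Vx n →₀ A) : VLE 0 (toV n A x) := by
  classical
  intro p m hm
  rw [toV_apply, Finsupp.sum, AddMonoidAlgebra.coeff_sum, Finsupp.finsetSum_apply]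
  refine Finset.sum_eq_zero fun i _ => ?_
  split_ifs with h
  · rw [← single_eq_C_mul_T, AddMonoidAlgebra.coeff_single, Finsupp.single_apply, if_neg (by omega)]
  · simp

theorem vpart_toV (x : Vx n →₀ A) : vpart n A (toV n A x) = x := by
  ext ⟨l, p⟩
  rw [vpart_apply, toV_coeff]

theorem toV_vpart {v : Fin n → A[T;T⁻¹]} (h : VLE 0 v) : toV n A (vpart n A v) = v := by
  ext p m
  rcases lt_or_ge 0 m with hm | hm
  · rw [toV_VLE _ p m hm, h p m hm]
  · obtain ⟨l, rfl⟩ : ∃ l : ℕ, m = -(l : ℤ) := ⟨m.natAbs, by omega⟩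
    rw [toV_coeff, vpart_apply]

theorem sub_toV_vpart (v : Fin n → A[T;T⁻¹]) : VGE 1 (v - toV n A (vpart n A v)) := by
  intro p m hm
  obtain ⟨l, rfl⟩ : ∃ l : ℕ, m = -(l : ℤ) := ⟨m.natAbs, by omega⟩
  rw [Pi.sub_apply, AddMonoidAlgebra.coeff_sub, Finsupp.sub_apply, toV_coeff, vpart_apply, sub_self]

theorem vpart_eq_zero {v : Fin n → A[T;T⁻¹]} (h : VGE 1 v) : vpart n A v = 0 := by
  ext i
  rw [vpart_apply]
  exact h _ _ (by omega)

theorem vtoep_one : vtoep (1 : Matrix (Fin n) (Fin n) A[T;T⁻¹]) = 1 := by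
  apply LinearMap.ext
  intro x
  rw [vtoep_apply, Matrix.one_mulVec, vpart_toV, Module.End.one_apply]

theorem vtoep_pos_mul {a : Matrix (Fin n) (Fin n) A[T;T⁻¹]} (ha : MGE 0 a)
    (g : Matrix (Fin n) (Fin n) A[T;T⁻¹]) : vtoep (a * g) = vtoep a * vtoep g := by
  apply LinearMap.ext
  intro x
  rw [Module.End.mul_apply, vtoep_apply, vtoep_apply a, vtoep_apply g, ← Matrix.mulVec_mulVec]
  set v := g *ᵥ toV n A x with hv
  have e : a *ᵥ v = a *ᵥ toV n A (vpart n A v) + a *ᵥ (v - toV n A (vpart n A v)) := by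
    rw [← Matrix.mulVec_add, add_sub_cancel]
  have h3 : VGE 1 (a *ᵥ (v - toV n A (vpart n A v))) := by
    have := VGE.mulVec ha (sub_toV_vpart v)
    simpa using this
  rw [e, map_add, vpart_eq_zero h3, add_zero]

theorem vtoep_mul_neg (g : Matrix (Fin n) (Fin n) A[T;T⁻¹])
    {b : Matrix (Fin n) (Fin n) A[T;T⁻¹]} (hb : MLE 0 b) : vtoep (g * b) = vtoep g * vtoep b := by
  apply LinearMap.ext
  intro x
  rw [Module.End.mul_apply, vtoep_apply, vtoep_apply g, vtoep_apply b]
  have h3 : VLE 0 (b *ᵥ toV n A x) := by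
    have := VLE.mulVec hb (toV_VLE x)
    simpa using this
  rw [toV_vpart h3, Matrix.mulVec_mulVec]

theorem toV_single (i : Vx n) : toV n A (Finsupp.single i 1) = Pi.single i.2 (T (-(i.1 : ℤ))) := by
  rw [toV, Finsupp.linearCombination_single, one_smul]

theorem vpart_map (f : A →+* B) (v : Fin n → A[T;T⁻¹]) :
    vpart n B (fun p => lmap f (v p)) = (vpart n A v).mapRange f (map_zero f) := by
  ext i
  rw [vpart_apply, Finsupp.mapRange_apply, vpart_apply, lmap, AddMonoidAlgebra.coeff_mapRingHom]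

theorem bc_vtoep (f : A →+* B) (g : Matrix (Fin n) (Fin n) A[T;T⁻¹]) :
    bc f (vtoep g) = vtoep (mp f g) := by
  refine end_ext_single fun i => ?_
  rw [bc_single, vtoep_apply, vtoep_apply, ← vpart_map, toV_single, toV_single]
  congr 1
  funext p
  rw [Matrix.mulVec_single, Matrix.mulVec_single]
  simp only [Pi.smul_apply, Matrix.col_apply, MulOpposite.smul_eq_mul_unop, MulOpposite.unop_op,
    map_mul, lmap_T, mp_apply]
  rfl

theorem vtoep_mono_single (A : Type) [CommRing A] (lam : Fin n → ℤ) (i : Vx n) :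
    vtoep (mono lam : Matrix (Fin n) (Fin n) A[T;T⁻¹]) (Finsupp.single i 1) =
      if i.1 < (lam i.2).toNat then 0 else
        Finsupp.single (((i.1 : ℤ) - lam i.2).toNat, i.2) 1 := by
  obtain ⟨l, p⟩ := i
  rw [vtoep_apply, toV_single]
  simp only
  have h3 : (mono lam : Matrix (Fin n) (Fin n) A[T;T⁻¹]) *ᵥ Pi.single p (T (-(l : ℤ))) =
      Pi.single p (T (lam p - l)) := by
    funext q
    rw [mono, Matrix.mulVec_diagonal, Pi.single_apply, Pi.single_apply]
    split_ifs with h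
    · subst h
      rw [← T_add]
      rfl
    · rw [mul_zero]
  rw [h3]
  ext ⟨l', p'⟩
  rw [vpart_apply, Pi.single_apply]
  simp only
  by_cases hp : p' = p
  · subst hp
    rw [if_pos rfl, T_apply]
    by_cases hl : l < (lam p').toNat
    · rw [if_pos hl, Finsupp.zero_apply, if_neg (by omega)]
    · rw [if_neg hl, Finsupp.single_apply]
      simp only [Prod.mk.injEq, and_true]
      congr 1
      simp only [eq_iff_iff]
      constructor <;> intro h <;> omega
  · rw [if_neg hp, AddMonoidAlgebra.coeff_zero, Finsupp.zero_apply]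
    split_ifs with hl
    · rfl
    · rw [Finsupp.single_apply, if_neg]
      simp only [Prod.mk.injEq]
      exact fun h => hp h.2.symm

end

end Vale.Agent.P286.Ad
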