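import Vale.Agent.P286.So.Torus
import Vale.Agent.P286.Ad.VToep

/-! The action of a torus on the determinant of cohomology of a split bundle. -/

namespace Vale.Agent.P286.Ad

open LaurentPolynomial Matrix
open Vale.Agent.P286.So (tau comm_weight exists_kc sig sig_of_not sig_of_mem sig_inv_of_not
  sig_inv_of_mem)

noncomputable section

variable {n : ℕ}

theorem toNat_sum (lam : Fin n → ℤ) (h : ∑ i, lam i = 0) :
    ∑ p : Fin n, (lam p).toNat = ∑ p : Fin n, (-lam p).toNat := by
  have h2 : ∀ p : Fin n, ((lam p).toNat : ℤ) - ((-lam p).toNat : ℤ) = lam p := by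
    intro p
    omega
  have h3 : ∑ p : Fin n, (((lam p).toNat : ℤ) - ((-lam p).toNat : ℤ)) = 0 := by
    rw [← h]
    exact Finset.sum_congr rfl fun p _ => h2 p
  rw [Finset.sum_sub_distrib, sub_eq_zero] at h3
  exact_mod_cast h3

theorem finRank_perm_sub (A : Type) [CommRing A] (lam : Fin n → ℤ)
    (e : {i : ℕ × Fin n // i.1 < (lam i.2).toNat} ≃ {i : ℕ × Fin n // i.1 < (-lam i.2).toNat}) :
    FinRank (permOp A (sig lam e) - vtoep (mono lam)) := by
  classical
  obtain ⟨K, hK⟩ : ∃ K : ℕ, ∀ p : Fin n, (-lam p).toNat ≤ K :=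
    ⟨Finset.univ.sup fun p : Fin n => (-lam p).toNat, fun p =>
      Finset.le_sup (f := fun p : Fin n => (-lam p).toNat) (Finset.mem_univ p)⟩
  refine ⟨Finset.range K ×ˢ Finset.univ, fun x i hi => ?_⟩
  have hi' : K ≤ i.1 := by
    by_contra h
    exact hi (by simp; omega)
  induction x using Finsupp.induction_linear with
  | zero => simp
  | add x y hx hy => rw [map_add, Finsupp.add_apply, hx, hy, add_zero]
  | single j a =>
    have h2 : (Finsupp.single j a : Vx n →₀ A) = a • Finsupp.single j 1 := by simp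
    rw [h2, map_smul, Finsupp.smul_apply, LinearMap.sub_apply, permOp_single, vtoep_mono_single]
    have : ((Finsupp.single (sig lam e j) 1 : Vx n →₀ A) -
        (if j.1 < (lam j.2).toNat then 0 else
        Finsupp.single (((j.1 : ℤ) - lam j.2).toNat, j.2) 1 : Vx n →₀ A)) i = 0 := by
      by_cases h : j.1 < (lam j.2).toNat
      · rw [if_pos h, sub_zero, Finsupp.single_apply, if_neg]
        intro heq
        have h1 := sig_of_mem lam e j h
        rw [heq] at h1
        have := hK i.2
        omega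
      · rw [if_neg h, sig_of_not lam e j h, sub_self, Finsupp.zero_apply]
    rw [this, smul_zero]

theorem vtoep_tau (A : Type) [CommRing A] (mu : Fin n → ℤ) :
    vtoep (tau A mu) = diagOp fun i : Vx n => (T (mu i.2) : A[T;T⁻¹]) := by
  refine end_ext_single fun i => ?_
  obtain ⟨l, p⟩ := i
  rw [diagOp_single, vtoep_apply, toV_single]
  simp only
  have h3 : (tau A mu) *ᵥ Pi.single p (T (-(l : ℤ))) =
      Pi.single p (LaurentPolynomial.C (T (mu p)) * T (-(l : ℤ))) := by
    funext q
    rw [tau, Matrix.mulVec_diagonal, Pi.single_apply, Pi.single_apply]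
    split_ifs with h
    · subst h
      rfl
    · rw [mul_zero]
  rw [h3]
  ext ⟨l', p'⟩ : 1
  rw [vpart_apply, Pi.single_apply, Finsupp.single_apply]
  simp only
  by_cases hp : p' = p
  · subst hp
    rw [if_pos rfl, ← single_eq_C_mul_T, AddMonoidAlgebra.coeff_single, Finsupp.single_apply]
    simp only [Prod.mk.injEq, and_true]
    congr 1
    simp only [eq_iff_iff]
    constructor <;> intro h <;> omega
  · rw [if_neg hp, AddMonoidAlgebra.coeff_zero, Finsupp.zero_apply, if_neg]
    simp only [Prod.mk.injEq]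
    exact fun h => hp h.2.symm

/-- **The weight of the torus on the determinant of cohomology** of a nontrivial split
bundle is not zero. -/
theorem torus_weight (lam : Fin n → ℤ) (h0 : lam ≠ 0) (hs : ∑ i, lam i = 0) :
    ∃ m : ℤ, m ≠ 0 ∧
      ∀ (A : Type) [CommRing A] (S : (Module.End A (Vx n →₀ A))ˣ),
        FinRank ((S : Module.End A (Vx n →₀ A)) - vtoep (mono lam)) →
        fdet (vtoep (tau A lam) *
          bc (LaurentPolynomial.C) (S : Module.End A (Vx n →₀ A)) *
          vtoep (tau A (-lam)) *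
          (((Units.map (bcHom (Vx n) (LaurentPolynomial.C : A →+* A[T;T⁻¹])) S)⁻¹ :
            (Module.End A[T;T⁻¹] (Vx n →₀ A[T;T⁻¹]))ˣ) :
              Module.End A[T;T⁻¹] (Vx n →₀ A[T;T⁻¹]))) = T m := by
  classical
  obtain ⟨e⟩ := exists_kc (fun p : Fin n => (lam p).toNat) (fun p : Fin n => (-lam p).toNat)
    (toNat_sum lam hs)
  let nu : Vx n → ℤ := fun i => lam i.2
  obtain ⟨K, hK⟩ : ∃ K : ℕ, ∀ p : Fin n, (-lam p).toNat ≤ K :=
    ⟨Finset.univ.sup fun p : Fin n => (-lam p).toNat, fun p =>
      Finset.le_sup (f := fun p : Fin n => (-lam p).toNat) (Finset.mem_univ p)⟩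
  let F : Finset (Vx n) := Finset.range K ×ˢ Finset.univ
  have hmemF : ∀ j : Vx n, j.1 < (-lam j.2).toNat → j ∈ F := by
    intro j hj
    have := hK j.2
    simp only [F, Finset.mem_product, Finset.mem_range, Finset.mem_univ, and_true]
    omega
  have h1 : ∀ j : Vx n, ¬ j.1 < (-lam j.2).toNat → nu j - nu ((sig lam e)⁻¹ j) = 0 := by
    intro j hj
    simp only [nu, sig_inv_of_not lam e j hj, sub_self]
  have h2 : ∀ j : Vx n, j.1 < (-lam j.2).toNat → nu j < 0 ∧ 0 < nu ((sig lam e)⁻¹ j) := by
    intro j hj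
    have h3 := sig_inv_of_mem lam e j hj
    exact ⟨by simp only [nu]; omega, by simp only [nu]; omega⟩
  have hle : ∀ j, nu j - nu ((sig lam e)⁻¹ j) ≤ 0 := by
    intro j
    by_cases hj : j.1 < (-lam j.2).toNat
    · have := h2 j hj; omega
    · rw [h1 j hj]
  have hF0 : ∀ j, j ∉ F → nu j - nu ((sig lam e)⁻¹ j) = 0 := by
    intro j hj
    exact h1 j fun h => hj (hmemF j h)
  refine ⟨∑ j ∈ F, (nu j - nu ((sig lam e)⁻¹ j)), ?_, ?_⟩
  · obtain ⟨p, hp⟩ : ∃ p, lam p < 0 := by
      by_contra hcon
      push Not at hcon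
      apply h0
      funext i
      exact (Finset.sum_eq_zero_iff_of_nonneg (s := Finset.univ) (f := lam)
        (fun i _ => hcon i)).1 hs i (Finset.mem_univ i)
    have hex : ∃ j ∈ F, nu j - nu ((sig lam e)⁻¹ j) < 0 := by
      have hj : ((0, p) : Vx n).1 < (-lam ((0, p) : Vx n).2).toNat := by
        simp only
        omega
      refine ⟨(0, p), hmemF _ hj, ?_⟩
      have h4 := h2 _ hj
      omega
    have hlt : ∑ j ∈ F, (nu j - nu ((sig lam e)⁻¹ j)) < ∑ j ∈ F, (0 : ℤ) :=
      Finset.sum_lt_sum (fun j _ => hle j) hex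
    rw [Finset.sum_const_zero] at hlt
    exact ne_of_lt hlt
  · intro A _ S hS
    have h3 : FinRank ((S : Module.End A (Vx n →₀ A)) - permOp A (sig lam e)) := by
      have h5 : ((S : Module.End A (Vx n →₀ A)) - permOp A (sig lam e)) =
          ((S : Module.End A (Vx n →₀ A)) - vtoep (mono lam)) -
            (permOp A (sig lam e) - vtoep (mono lam)) := by
        refine LinearMap.ext fun x => ?_
        simp only [LinearMap.sub_apply]
        abel
      rw [h5]
      exact hS.sub (finRank_perm_sub A lam e)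
    have h4 := comm_weight (sig lam e) nu F hF0 S h3
    rw [vtoep_tau, vtoep_tau]
    exact h4

end

end Vale.Agent.P286.Ad
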