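import Vale.Agent.P286.Ad.Hom
import Vale.Agent.P286.H527.Maps

/-!
# Toeplitz operators on Laurent vectors
-/

namespace Vale.Agent.P286.Ad

open LaurentPolynomial Matrix

noncomputable section

variable {L : LieC} {A B : Type} [CommRing A] [CommRing B]

/-- All exponents of the entries are at most `k`. -/
def VLE {n : ℕ} (k : ℤ) (v : Fin n → A[T;T⁻¹]) : Prop := ∀ i, LE k (v i)

/-- All exponents of the entries are at least `k`. -/
def VGE {n : ℕ} (k : ℤ) (v : Fin n → A[T;T⁻¹]) : Prop := ∀ i, GE k (v i)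

theorem MLE.mulVec {n : ℕ} {k k' : ℤ} {M : Matrix (Fin n) (Fin n) A[T;T⁻¹]}
    {v : Fin n → A[T;T⁻¹]} (h : MLE k M) (h' : VLE k' v) : VLE (k + k') (M *ᵥ v) := fun i =>
  LE.sum _ fun j _ => (h i j).mul (h' j)

theorem MGE.mulVec {n : ℕ} {k k' : ℤ} {M : Matrix (Fin n) (Fin n) A[T;T⁻¹]}
    {v : Fin n → A[T;T⁻¹]} (h : MGE k M) (h' : VGE k' v) : VGE (k + k') (M *ᵥ v) := fun i =>
  GE.sum _ fun j _ => (h i j).mul (h' j)

/-- The isomorphism of free modules `Jx L →₀ A ≃ 𝔤(A[z⁻¹])`, followed by the inclusion into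
`𝔤(A[z,z⁻¹]) = A[z,z⁻¹]ⁿ`. -/
def toVec (L : LieC) (A : Type) [CommRing A] : (Jx L →₀ A) →ₗ[A] (Fin L.n → A[T;T⁻¹]) :=
  Finsupp.linearCombination A fun i : Jx L => Pi.single i.2 (T (-(i.1 : ℤ)))

theorem vpartFun_apply (L : LieC) (A : Type) [CommRing A] (v : Fin L.n → A[T;T⁻¹])
    (i : Jx L) : vpartFun L A v i = (v i.2).coeff (-(i.1 : ℤ)) := by
  classical
  obtain ⟨l, p⟩ := i
  have key : ∀ p' : Fin L.n, (((v p').coeff.comapDomain (fun l : ℕ => -(l : ℤ))
      (fun x _ y _ h => by simpa using h)).mapDomain (fun l : ℕ => ((l, p') : Jx L))) (l, p)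
      = if p' = p then (v p).coeff (-(l : ℤ)) else 0 := by
    intro p'
    split_ifs with h
    · subst h
      rw [Finsupp.mapDomain_apply (fun a b h => by simpa using h)]
      rfl
    · apply Finsupp.mapDomain_of_notMem_range
      rintro ⟨l', h'⟩
      simp only [Prod.mk.injEq] at h'
      exact h h'.2
  simp only [vpartFun, Finsupp.coe_finsetSum, Finset.sum_apply, key]
  rw [Finset.sum_eq_single p]
  · simp
  · intro b _ hb; simp [hb]
  · simp

/-- The part of nonpositive degree of a Laurent vector, as an element of `𝔤(A[z⁻¹])`. -/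
def vpart (L : LieC) (A : Type) [CommRing A] : (Fin L.n → A[T;T⁻¹]) →ₗ[A] (Jx L →₀ A) where
  toFun := vpartFun L A
  map_add' M M' := by ext i; simp [vpartFun_apply]
  map_smul' a M := by ext i; simp [vpartFun_apply]

theorem toVec_single (i : Jx L) :
    toVec L A (Finsupp.single i 1) = Pi.single i.2 (T (-(i.1 : ℤ))) := by
  rw [toVec, Finsupp.linearCombination_single, one_smul]

theorem toVec_apply (x : Jx L →₀ A) (p : Fin L.n) :
    toVec L A x p = x.sum fun i a => if i.2 = p then LaurentPolynomial.C a * T (-(i.1 : ℤ)) else 0 := by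
  rw [toVec, Finsupp.linearCombination_apply, Finsupp.sum, Finsupp.sum, Finset.sum_apply]
  refine Finset.sum_congr rfl fun i _ => ?_
  rw [Pi.smul_apply, Pi.single_apply]
  split_ifs with h1 h2 h2
  · rw [LaurentPolynomial.smul_eq_C_mul]
  · exact absurd h1.symm h2
  · exact absurd h2.symm h1
  · rw [smul_zero]

theorem toVec_coeff (x : Jx L →₀ A) (p : Fin L.n) (l : ℕ) :
    (toVec L A x p).coeff (-(l : ℤ)) = x (l, p) := by
  classical
  rw [toVec_apply, Finsupp.sum, AddMonoidAlgebra.coeff_sum, Finsupp.finsetSum_apply]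
  rw [Finset.sum_eq_single (l, p)]
  · simp [← single_eq_C_mul_T]
  · rintro ⟨l', p'⟩ _ hne
    simp only
    split_ifs with h
    · subst h
      have : l' ≠ l := fun h => hne (by rw [h])
      rw [← single_eq_C_mul_T, AddMonoidAlgebra.coeff_single, Finsupp.single_apply, if_neg (by omega)]
    · simp
  · intro h
    rw [Finsupp.notMem_support_iff.mp h]
    simp

theorem toVec_VLE (x : Jx L →₀ A) : VLE 0 (toVec L A x) := by
  classical
  intro p m hm
  rw [toVec_apply, Finsupp.sum, AddMonoidAlgebra.coeff_sum, Finsupp.finsetSum_apply]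
  refine Finset.sum_eq_zero fun i _ => ?_
  split_ifs with h
  · rw [← single_eq_C_mul_T, AddMonoidAlgebra.coeff_single, Finsupp.single_apply, if_neg (by omega)]
  · simp

theorem vpart_apply (v : Fin L.n → A[T;T⁻¹]) (i : Jx L) :
    vpart L A v i = (v i.2).coeff (-(i.1 : ℤ)) := vpartFun_apply L A v i

theorem vpart_toVec (x : Jx L →₀ A) : vpart L A (toVec L A x) = x := by
  ext i
  rw [vpart_apply, toVec_coeff]

theorem toVec_vpart {v : Fin L.n → A[T;T⁻¹]} (h : VLE 0 v) : toVec L A (vpart L A v) = v := by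
  ext p m
  rcases lt_or_ge 0 m with hm | hm
  · rw [toVec_VLE _ p m hm, h p m hm]
  · obtain ⟨l, rfl⟩ : ∃ l : ℕ, m = -(l : ℤ) := ⟨m.natAbs, by omega⟩
    rw [toVec_coeff, vpart_apply]

theorem sub_toVec_vpart (v : Fin L.n → A[T;T⁻¹]) : VGE 1 (v - toVec L A (vpart L A v)) := by
  intro p m hm
  obtain ⟨l, rfl⟩ : ∃ l : ℕ, m = -(l : ℤ) := ⟨m.natAbs, by omega⟩
  rw [Pi.sub_apply, AddMonoidAlgebra.coeff_sub, Finsupp.sub_apply, toVec_coeff, vpart_apply,
    sub_self]

theorem vpart_eq_zero {v : Fin L.n → A[T;T⁻¹]} (h : VGE 1 v) : vpart L A v = 0 := by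
  ext i
  rw [vpart_apply]
  exact h _ _ (by omega)

theorem vtoep_apply (g : Matrix (Fin L.n) (Fin L.n) A[T;T⁻¹]) (x : Jx L →₀ A) :
    vtoep g x = vpart L A (g *ᵥ toVec L A x) := by
  have h : vtoep g = (vpart L A).comp ((g.mulVecLin.restrictScalars A).comp (toVec L A)) := by
    refine end_ext_single fun i => ?_
    rw [vtoep, Finsupp.linearCombination_single, one_smul]
    show _ = vpart L A (g *ᵥ toVec L A (Finsupp.single i 1))
    rw [toVec_single]
    rfl
  rw [h]
  rfl

theorem vtoep_one : vtoep (1 : Matrix (Fin L.n) (Fin L.n) A[T;T⁻¹]) = 1 := by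
  apply LinearMap.ext
  intro x
  rw [vtoep_apply, Matrix.one_mulVec, vpart_toVec, Module.End.one_apply]

theorem vtoep_pos_mul {a : Matrix (Fin L.n) (Fin L.n) A[T;T⁻¹]} (ha : MGE 0 a)
    (g : Matrix (Fin L.n) (Fin L.n) A[T;T⁻¹]) : vtoep (a * g) = vtoep a * vtoep g := by
  apply LinearMap.ext
  intro x
  rw [Module.End.mul_apply, vtoep_apply, vtoep_apply a, vtoep_apply g, ← Matrix.mulVec_mulVec]
  set v := g *ᵥ toVec L A x with hv
  have e2 : a *ᵥ v = a *ᵥ toVec L A (vpart L A v) + a *ᵥ (v - toVec L A (vpart L A v)) := by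
    rw [← Matrix.mulVec_add, add_sub_cancel]
  rw [e2, map_add]
  have h3 : VGE 1 (a *ᵥ (v - toVec L A (vpart L A v))) := by
    have := MGE.mulVec ha (sub_toVec_vpart v)
    simpa using this
  rw [vpart_eq_zero h3, add_zero]

theorem vtoep_mul_neg (g : Matrix (Fin L.n) (Fin L.n) A[T;T⁻¹])
    {b : Matrix (Fin L.n) (Fin L.n) A[T;T⁻¹]} (hb : MLE 0 b) :
    vtoep (g * b) = vtoep g * vtoep b := by
  apply LinearMap.ext
  intro x
  rw [Module.End.mul_apply, vtoep_apply, vtoep_apply g, vtoep_apply b]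
  have h3 : VLE 0 (b *ᵥ toVec L A x) := by
    have := MLE.mulVec hb (toVec_VLE x)
    simpa using this
  rw [toVec_vpart h3, Matrix.mulVec_mulVec]

theorem vpart_map (f : A →+* B) (v : Fin L.n → A[T;T⁻¹]) :
    vpart L B (fun p => lmap f (v p)) = (vpart L A v).mapRange f (map_zero f) := by
  ext i
  rw [vpart_apply, Finsupp.mapRange_apply, vpart_apply, lmap, AddMonoidAlgebra.coeff_mapRingHom]

theorem bc_vtoep (f : A →+* B) (g : Matrix (Fin L.n) (Fin L.n) A[T;T⁻¹]) :
    bc f (vtoep g) = vtoep (mp f g) := by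
  refine end_ext_single fun i => ?_
  rw [bc_single, vtoep_apply, vtoep_apply, ← vpart_map, toVec_single, toVec_single]
  congr 1
  funext p
  simp only [Matrix.mulVec_single]
  show lmap f (g p i.2 * T (-(i.1 : ℤ))) = lmap f (g p i.2) * T (-(i.1 : ℤ))
  rw [map_mul, lmap_T]

section Groups

theorem SG.m_one : (1 : SG L A).m = 1 := rfl

theorem SG.m_mul (x y : SG L A) : (x * y).m = x.m * y.m := rfl

theorem SG.det_m (x : SG L A) : x.m.det = 1 := x.det

theorem m_som (f : A →+* B) (x : SG L A) : (som L f x).m = x.m.map f := rfl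

theorem som_som {D : Type} [CommRing D] (f : A →+* B) (g : B →+* D) (x : SG L A) :
    som L g (som L f x) = som L (g.comp f) x := rfl

theorem som_id (x : SG L A) : som L (RingHom.id A) x = x := rfl

theorem som_injective (f : A →+* B) (hf : Function.Injective f) :
    Function.Injective (som L f) := by
  intro x y h
  apply SG.ext'
  ext i j
  apply hf
  exact congrFun (congrFun (congrArg SG.m h) i) j

/-- `A[z] → A[z, z⁻¹]` -/
abbrev ringPos (A : Type) [CommRing A] : Polynomial A →+* A[T;T⁻¹] := Polynomial.toLaurent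

/-- `A[z⁻¹] → A[z, z⁻¹]` -/
abbrev ringNeg (A : Type) [CommRing A] : Polynomial A →+* A[T;T⁻¹] :=
  (invert (R := A)).toRingEquiv.toRingHom.comp (Polynomial.toLaurent (R := A))

theorem ringNeg_injective : Function.Injective (ringNeg A) := fun x y h => by
  apply Polynomial.toLaurent_injective
  exact (invert (R := A)).injective h

theorem lmap_comp_neg (f : A →+* B) :
    (lmap f).comp (ringNeg A) = (ringNeg B).comp (Polynomial.mapRingHom f) := by
  apply RingHom.ext
  intro x
  change lmap f (invert (Polynomial.toLaurent x)) =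
    invert (Polynomial.toLaurent (Polynomial.mapRingHom f x))
  have h := RingHom.congr_fun (lmap_toLaurent f) x
  change lmap f (Polynomial.toLaurent x) = Polynomial.toLaurent (Polynomial.mapRingHom f x) at h
  rw [← h]
  ext k
  simp only [lmap, AddMonoidAlgebra.coeff_mapRingHom, invert_apply]

end Groups

end

end Vale.Agent.P286.Ad
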